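import Vale.Agent.P078.All.Words

/-!
# P078: free compression from the vanishing of alternating words

`B` stands for the families orthogonal to the normaliser algebra, `N` for the families in it,
`M` for the finite sums `∑ a u`, and `Q` for the centred seed polynomials. If the expectation of
every alternating word in `B` and `Q` tends to zero, then `p y` contracts by `2 C s` per step.
-/

namespace Vale.Agent.P078.Any.St

open Filter Topology
open scoped InnerProductSpace
open Vale.Agent.P078.All (AltWord vecMap FreeSplit freeSplit_span nearby le_nearby iter norm_p_le)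

variable {ι : Type*} {R : ι → Type*} [∀ n, Ring (R n)] [∀ n, Algebra ℂ (R n)] [∀ n, Star (R n)]

variable {E : ι → Type*} [∀ n, SeminormedAddCommGroup (E n)] [∀ n, InnerProductSpace ℂ (E n)]

/-- What the normaliser algebra, the seeds and the traces of alternating words provide. -/
structure WordEnv (l : Filter ι) (L : ∀ n, R n →ₐ[ℂ] Module.End ℂ (E n)) (e : ∀ n, E n)
    (y p : ∀ n, R n) (B N M Q : Set (∀ n, R n)) (C s : ℝ) : Prop where
  star_mul : ∀ n (a b : R n), star (a * b) = star b * star a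
  adj : ∀ n a u v, ⟪L n a u, v⟫_ℂ = ⟪u, L n (star a) v⟫_ℂ
  y_le : ∀ n v, ‖L n (y n) v‖ ≤ C * ‖v‖
  p_idem : p * p = p
  p_star : star p = p
  y_mem : y ∈ B
  q_mem : p - ((s ^ 2 : ℝ) : ℂ) • (1 : ∀ n, R n) ∈ Q
  star_B : ∀ b ∈ B, star b ∈ B
  star_Q : ∀ q ∈ Q, star q ∈ Q
  one_M : (1 : ∀ n, R n) ∈ M
  M_le_N : M ⊆ N
  B_mul_N : ∀ b ∈ B, ∀ m ∈ N, b * m ∈ B
  M_mul_B : ∀ m ∈ M, ∀ b ∈ B, m * b ∈ B
  M_mul_Q : ∀ m ∈ M, ∀ q ∈ Q, m * q ∈ Q
  Q_mul_M : ∀ q ∈ Q, ∀ m ∈ M, q * m ∈ Q
  split : ∀ b ∈ B, ∃ m ∈ N, y * b - m ∈ B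
  p_mul_Q : ∀ q ∈ Q, ∃ m ∈ M, p * q - m ∈ Q
  approx : ∀ a ∈ N, ∀ η > (0 : ℝ), ∃ m ∈ M, ∀ᶠ n in l, ‖L n (a n - m n) (e n)‖ ≤ η
  approx_word : ∀ a ∈ N, ∀ w, AltWord B Q false w → ∀ η > (0 : ℝ),
    ∃ m ∈ M, ∀ᶠ n in l, ‖L n ((a n - m n) * w n) (e n)‖ ≤ η
  word : ∀ t x, AltWord B Q t x → Tendsto (fun n => ⟪e n, L n (x n) (e n)⟫_ℂ) l (𝓝 0)

variable {l : Filter ι} {L : ∀ n, R n →ₐ[ℂ] Module.End ℂ (E n)} {e : ∀ n, E n}
  {y p : ∀ n, R n} {B N M Q : Set (∀ n, R n)} {C s : ℝ}

namespace WordEnv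

variable (h : WordEnv l L e y p B N M Q C s)

include h

theorem star_cons (x w : ∀ n, R n) : star (x * w) = star w * star x :=
  funext fun n => h.star_mul n (x n) (w n)

theorem star_cls {t : Bool} {x : ∀ n, R n} (hx : x ∈ cond t B Q) : star x ∈ cond t B Q := by
  cases t
  · exact h.star_Q x hx
  · exact h.star_B x hx

/-- `u* z` is alternating if `u` and `z` start with different kinds of letters. -/
theorem merge {t : Bool} {u : ∀ n, R n} (hu : AltWord B Q t u) :
    ∀ z, AltWord B Q (!t) z → ∃ t', AltWord B Q t' (star u * z) := by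
  induction hu with
  | one hx => exact fun z hz => ⟨_, .cons (h.star_cls hx) hz⟩
  | @cons t x w hx hw ih =>
    intro z hz
    obtain ⟨t', ht'⟩ := ih (star x * z) (by rw [Bool.not_not]; exact .cons (h.star_cls hx) hz)
    exact ⟨t', by rwa [h.star_cons, mul_assoc]⟩

theorem tendsto_inner {u z : ∀ n, R n} (hz : ∃ t, AltWord B Q t (star u * z)) :
    Tendsto (fun n => ⟪L n (u n) (e n), L n (z n) (e n)⟫_ℂ) l (𝓝 0) := by
  obtain ⟨t, ht⟩ := hz
  refine (h.word t _ ht).congr fun n => ?_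
  rw [h.adj, Pi.mul_apply, map_mul]
  rfl

theorem norm_p_le' (n : ι) (v : E n) : ‖L n (p n) v‖ ≤ ‖v‖ :=
  norm_p_le (fun n => L n (p n))
    (fun m u => by
      have := congrFun h.p_idem m
      simp only [Pi.mul_apply] at this
      conv_rhs => rw [← this, map_mul]
      rfl)
    (fun m u z => by
      rw [h.adj]
      have := congrFun h.p_star m
      simp only [Pi.star_apply] at this
      rw [this]) n v

/-- Left multiplication by `p` keeps the vectors of alternating words in their span. -/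
theorem p_word_false {w : ∀ n, R n} (hw : AltWord B Q false w) :
    vecMap L e (p * w) ∈ Submodule.span ℂ (vecMap L e '' {u | AltWord B Q true u} ∪
      vecMap L e '' (N ∪ {z | ∃ a ∈ N, ∃ w, AltWord B Q false w ∧ z = a * w})) := by
  have hN1 : (1 : ∀ n, R n) ∈ N := h.M_le_N h.one_M
  cases hw with
  | one hx =>
    obtain ⟨m, hm, hq⟩ := h.p_mul_Q w hx
    rw [show p * w = 1 * (p * w - m) + m by rw [one_mul, sub_add_cancel], map_add]
    exact add_mem
      (Submodule.subset_span (Or.inr ⟨_, Or.inr ⟨1, hN1, _, .one hq, rfl⟩, rfl⟩))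
      (Submodule.subset_span (Or.inr ⟨m, Or.inl (h.M_le_N hm), rfl⟩))
  | @cons _ x w hx hw' =>
    obtain ⟨m, hm, hq⟩ := h.p_mul_Q x hx
    rw [show p * (x * w) = 1 * ((p * x - m) * w) + m * w by
      rw [one_mul, ← add_mul, sub_add_cancel, mul_assoc], map_add]
    refine add_mem
      (Submodule.subset_span (Or.inr ⟨_, Or.inr ⟨1, hN1, _, .cons hq hw', rfl⟩, rfl⟩))
      (Submodule.subset_span (Or.inl ⟨m * w, ?_, rfl⟩))
    cases hw' with
    | one hb => exact .one (h.M_mul_B m hm w hb)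
    | @cons _ b w' hb hw'' =>
      rw [← mul_assoc]
      exact .cons (h.M_mul_B m hm b hb) hw''

theorem M_mul_word {m : ∀ n, R n} (hm : m ∈ M) {w : ∀ n, R n} (hw : AltWord B Q false w) :
    AltWord B Q false (m * w) := by
  cases hw with
  | one hx => exact .one (h.M_mul_Q m hm w hx)
  | @cons _ x w hx hw' =>
    rw [← mul_assoc]
    exact .cons (h.M_mul_Q m hm x hx) hw'

/-- The vectors of alternating words satisfy the hypotheses of free compression. -/
theorem freeSplit : FreeSplit l (fun n => L n (y n)) (fun n => L n (p n))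
    (Submodule.span ℂ (vecMap L e '' {u | AltWord B Q true u}))
    (Submodule.span ℂ
      (vecMap L e '' (N ∪ {z | ∃ a ∈ N, ∃ w, AltWord B Q false w ∧ z = a * w}))) C s := by
  set q := p - ((s ^ 2 : ℝ) : ℂ) • (1 : ∀ n, R n) with hqdef
  have hN1 : (1 : ∀ n, R n) ∈ N := h.M_le_N h.one_M
  have hmul : ∀ a x : ∀ n, R n, (fun n => L n (a n) (vecMap L e x n)) = vecMap L e (a * x) := by
    intro a x
    funext n
    simp [vecMap]
  refine freeSplit_span h.y_le (fun n v => ?_) (fun n u v => ?_) ?_ ?_ ?_ ?_ ?_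
  · have := congrFun h.p_idem n
    simp only [Pi.mul_apply] at this
    conv_rhs => rw [← this, map_mul]
    rfl
  · rw [h.adj]
    have := congrFun h.p_star n
    simp only [Pi.star_apply] at this
    rw [this]
  · rintro _ ⟨u, hu, rfl⟩ _ ⟨z, hz, rfl⟩
    refine h.tendsto_inner ?_
    rcases hz with hz | ⟨a, ha, w, hw, rfl⟩
    · cases hu with
      | one hx => exact ⟨true, .one (h.B_mul_N _ (h.star_B u hx) z hz)⟩
      | @cons _ x u hx hu' =>
        rw [h.star_cons, mul_assoc]
        exact h.merge hu' _ (.one (h.B_mul_N _ (h.star_B x hx) z hz))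
    · cases hu with
      | one hx =>
        rw [← mul_assoc]
        exact ⟨true, .cons (h.B_mul_N _ (h.star_B u hx) a ha) hw⟩
      | @cons _ x u hx hu' =>
        rw [h.star_cons, mul_assoc, ← mul_assoc (star x)]
        exact h.merge hu' _ (.cons (h.B_mul_N _ (h.star_B x hx) a ha) hw)
  · rintro _ ⟨u, hu, rfl⟩ _ ⟨u', hu', rfl⟩
    refine (h.tendsto_inner (h.merge hu _ (.cons h.q_mem hu'))).congr fun n => ?_
    simp [vecMap]
    rw [inner_sub_right, inner_smul_right]
  · rintro _ ⟨z, hz, rfl⟩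
    rw [hmul]
    refine Submodule.subset_span ⟨y * z, ?_, rfl⟩
    rcases hz with hz | ⟨a, ha, w, hw, rfl⟩
    · exact .one (h.B_mul_N y h.y_mem z hz)
    · rw [← mul_assoc]
      exact .cons (h.B_mul_N y h.y_mem a ha) hw
  · rintro _ ⟨u, hu, rfl⟩
    rw [hmul]
    refine le_nearby l _ ?_
    cases hu with
    | one hx =>
      obtain ⟨m, hm, hb⟩ := h.split u hx
      rw [show y * u = (y * u - m) + m from (sub_add_cancel _ _).symm, map_add]
      exact add_mem (Submodule.subset_span (Or.inl ⟨_, .one hb, rfl⟩))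
        (Submodule.subset_span (Or.inr ⟨m, Or.inl hm, rfl⟩))
    | @cons _ x u hx hu' =>
      obtain ⟨m, hm, hb⟩ := h.split x hx
      rw [show y * (x * u) = (y * x - m) * u + m * u by
        rw [← add_mul, sub_add_cancel, mul_assoc], map_add]
      exact add_mem (Submodule.subset_span (Or.inl ⟨_, .cons hb hu', rfl⟩))
        (Submodule.subset_span (Or.inr ⟨_, Or.inr ⟨m, hm, u, hu', rfl⟩, rfl⟩))
  · rintro _ (⟨u, hu, rfl⟩ | ⟨z, hz, rfl⟩)
    · rw [hmul]
      refine le_nearby l _ ?_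
      rw [show p * u = 1 * (q * u) + ((s ^ 2 : ℝ) : ℂ) • u by
        rw [one_mul, hqdef, sub_mul, smul_mul_assoc, one_mul, sub_add_cancel], map_add, map_smul]
      exact add_mem
        (Submodule.subset_span (Or.inr ⟨_, Or.inr ⟨1, hN1, _, .cons h.q_mem hu, rfl⟩, rfl⟩))
        (Submodule.smul_mem _ _ (Submodule.subset_span (Or.inl ⟨u, hu, rfl⟩)))
    · rw [hmul]
      intro η hη
      rcases hz with hz | ⟨a, ha, w, hw, rfl⟩
      · obtain ⟨m, hm, hev⟩ := h.approx z hz η hη
        refine ⟨vecMap L e (p * m), ?_, ?_⟩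
        · rw [show p * m = 1 * (q * m) + ((s ^ 2 : ℝ) : ℂ) • m by
            rw [one_mul, hqdef, sub_mul, smul_mul_assoc, one_mul, sub_add_cancel],
            map_add, map_smul]
          exact add_mem (Submodule.subset_span
              (Or.inr ⟨_, Or.inr ⟨1, hN1, _, .one (h.Q_mul_M q h.q_mem m hm), rfl⟩, rfl⟩))
            (Submodule.smul_mem _ _
              (Submodule.subset_span (Or.inr ⟨m, Or.inl (h.M_le_N hm), rfl⟩)))
        · filter_upwards [hev] with n hn
          refine le_trans (le_of_eq_of_le ?_ (h.norm_p_le' n (L n (z n - m n) (e n)))) hn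
          simp [vecMap]
      · obtain ⟨m, hm, hev⟩ := h.approx_word a ha w hw η hη
        refine ⟨vecMap L e (p * (m * w)), h.p_word_false (h.M_mul_word hm hw), ?_⟩
        filter_upwards [hev] with n hn
        refine le_trans (le_of_eq_of_le ?_ (h.norm_p_le' n (L n ((a n - m n) * w n) (e n)))) ?_
        · simp [vecMap, sub_mul]
        · exact hn

/-- The `k`-fold compression has norm at most `(2 C s) ^ k ‖e‖`, up to `o(1)`. -/
theorem compress_le (hC : 0 ≤ C) (hs : 0 ≤ s) {K : ℝ} (hK0 : 0 ≤ K)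
    (hK : ∀ᶠ n in l, ‖e n‖ ≤ K) (k : ℕ) {η : ℝ} (hη : 0 < η) :
    ∀ᶠ n in l, ‖L n ((p n * y n) ^ k * p n) (e n)‖ ≤
      (2 * C * s) ^ k * ‖L n (p n) (e n)‖ + η := by
  have hN1 : (1 : ∀ n, R n) ∈ N := h.M_le_N h.one_M
  set q := p - ((s ^ 2 : ℝ) : ℂ) • (1 : ∀ n, R n) with hqdef
  have hp : vecMap L e p ∈ nearby l (Submodule.span ℂ (vecMap L e '' {u | AltWord B Q true u}) ⊔
      Submodule.span ℂ
        (vecMap L e '' (N ∪ {z | ∃ a ∈ N, ∃ w, AltWord B Q false w ∧ z = a * w}))) := by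
    refine le_nearby l _ (Submodule.mem_sup_right ?_)
    rw [show p = 1 * q + ((s ^ 2 : ℝ) : ℂ) • (1 : ∀ n, R n) by
      rw [one_mul, hqdef, sub_add_cancel], map_add, map_smul]
    exact add_mem (Submodule.subset_span ⟨_, Or.inr ⟨1, hN1, q, .one h.q_mem, rfl⟩, rfl⟩)
      (Submodule.smul_mem _ _ (Submodule.subset_span ⟨1, Or.inl hN1, rfl⟩))
  have hpp : ∀ n, L n (p n) (vecMap L e p n) = vecMap L e p n := by
    intro n
    have := congrFun h.p_idem n
    simp only [Pi.mul_apply] at this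
    change L n (p n) (L n (p n) (e n)) = L n (p n) (e n)
    conv_rhs => rw [← this, map_mul]
    rfl
  have hK' : ∀ᶠ n in l, ‖vecMap L e p n‖ ≤ K := by
    filter_upwards [hK] with n hn
    exact (h.norm_p_le' n (e n)).trans hn
  filter_upwards [h.freeSplit.iter_le hC hs hp hpp hK0 hK' k η hη] with n hn
  have hit : ∀ j, iter (fun m => L m (y m)) (fun m => L m (p m)) (vecMap L e p) j n =
      L n ((p n * y n) ^ j * p n) (e n) := by
    intro j
    induction j with
    | zero => simp [iter, vecMap]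
    | succ j ih => simp [iter, ih, pow_succ', mul_assoc]
  rw [← hit k]
  exact hn

/-- The moment of `p y p` is the squared norm of the compressed vector. -/
theorem moment_eq (hy : star y = y) {k : ℕ} (hk : k ≠ 0) (n : ι) :
    ⟪e n, L n ((p n * y n * p n) ^ (2 * k)) (e n)⟫_ℂ =
      (‖L n ((p n * y n) ^ k * p n) (e n)‖ ^ 2 : ℝ) := by
  have hp : p n * p n = p n := congrFun h.p_idem n
  have hps : star (p n) = p n := congrFun h.p_star n
  have hys : star (y n) = y n := congrFun hy n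
  have hpow : ∀ j, (p n * y n * p n) ^ (j + 1) = (p n * y n) ^ (j + 1) * p n := by
    intro j
    induction j with
    | zero => simp
    | succ j ih =>
      rw [pow_succ (p n * y n * p n), ih, pow_succ (p n * y n) (j + 1)]
      simp only [mul_assoc]
      rw [← mul_assoc (p n) (p n), hp]
  have hst : ∀ j, star ((p n * y n) ^ (j + 1) * p n) = (p n * y n) ^ (j + 1) * p n := by
    intro j
    induction j with
    | zero => simp [h.star_mul, hps, hys, mul_assoc]
    | succ j ih =>
      rw [← hpow, pow_succ', h.star_mul, hpow, ih, h.star_mul, h.star_mul, hps, hys, ← hpow,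
        ← mul_assoc (p n), ← pow_succ, hpow]
      rw [← hpow, pow_succ']
  obtain ⟨j, rfl⟩ := Nat.exists_eq_succ_of_ne_zero hk
  rw [two_mul, pow_add, hpow, map_mul]
  change ⟪e n, L n _ (L n _ (e n))⟫_ℂ = _
  rw [← hst j, ← h.adj, hst j, inner_self_eq_norm_sq_to_K]
  norm_cast

end WordEnv

end Vale.Agent.P078.Any.St
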