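import Vale.Agent.P078.Any.St.StageGauss
import Vale.Agent.P078.All.Free

/-!
Asymptotic freeness for a state: the fibre masses of the inner intervals stay negligible over all
stages, so the mean of the state on a word does.
-/

namespace Vale.Agent.P078.Any.St

open Filter Topology
open Vale.Agent.P078.All (State Ev run avg run_const run_add run_smul run_mono run_finsetSum
  sqrt_sqrt_le ev_run_le ev_norm_run_le drift_le)

set_option linter.unusedSectionVars false

variable {R : Type} [Ring R] [StarRing R] [Algebra ℂ R] [StarModule ℂ R]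
  {Ω : Type} [TopologicalSpace Ω] [CompactSpace Ω] [T2Space Ω] [TotallyDisconnectedSpace Ω]
  {V : Env R Ω} {S : Type} [Fintype S]

/-- The fibre mass of a chain stays below `η` during `⌈T/θ⌉` stages. -/
def SmallMean (b : ℕ → R) (q : ℕ → Mono V S) (n : ℕ) (T η θ : ℝ) : Prop :=
  ∀ L, L ≤ ⌈T / θ⌉₊ → Ev L fun Ps =>
    run θ Ps (fun t => V.gv (chainVal b q t n)) (State.empty Ω S) ≤ η

variable [Nonempty S]

/-- The means of a sum of fourth roots of fibre masses over a finite set of intervals. -/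
theorem ev_small {θ T ε η : ℝ} (h0 : 0 ≤ θ) (h1 : θ ≤ 1) (hε : 0 < ε) (b : ℕ → R)
    (q : ℕ → Mono V S) (I : Finset (ℕ × ℕ))
    (h : ∀ p ∈ I, SmallMean (fun k => b (k + p.1)) (fun k => q (k + p.1)) p.2 T η θ) {L : ℕ}
    (hL : L ≤ ⌈T / θ⌉₊) :
    Ev L fun Ps => run θ Ps (fun t => ∑ p ∈ I, Real.sqrt (Real.sqrt
        (V.gv (chainVal (fun k => b (k + p.1)) (fun k => q (k + p.1)) t p.2))))
      (State.empty Ω S) ≤ I.card * (ε + η / ε ^ 3) := by
  refine (All.Ev.finset _ I fun p hp => h p hp L hL).mono fun Ps _ hP => ?_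
  refine (run_mono h0 h1 Ps _ fun t => Finset.sum_le_sum fun p _ =>
    sqrt_sqrt_le (V.gv_nonneg _) hε).trans ?_
  rw [run_finsetSum, ← nsmul_eq_mul, ← Finset.sum_const]
  refine Finset.sum_le_sum fun p hp => ?_
  rw [run_add, run_const]
  refine add_le_add le_rfl ?_
  rw [show (fun t => V.gv (chainVal (fun k => b (k + p.1)) (fun k => q (k + p.1)) t p.2) / ε ^ 3) =
    fun t => (ε ^ 3)⁻¹ • V.gv (chainVal (fun k => b (k + p.1)) (fun k => q (k + p.1)) t p.2) from
    funext fun t => by rw [smul_eq_mul, inv_mul_eq_div], run_smul, smul_eq_mul, inv_mul_eq_div]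
  exact div_le_div_of_nonneg_right (hP p hp) (by positivity)

/-- The stages of a drift of order `θ` with an extra multiple of `θ`. -/
theorem drift_le' {T θ ε εo K : ℝ} {m L : ℕ} (hT : 0 ≤ T) (h0 : 0 < θ) (h1 : θ ≤ 1) (hK : 0 ≤ K)
    (hε : 0 < ε) (hθε : θ ≤ ε) (hεo : 0 ≤ εo) (hL : L ≤ ⌈T / θ⌉₊) :
    L * ((K + 1) * (θ * (m * (ε + ε ^ 4 / ε ^ 3)) + 2 * θ ^ 2) + θ * εo) ≤
      (T + 1) * (K + 1) * (2 * m + 2) * ε + (T + 1) * εo := by
  have h2 : (L : ℝ) ≤ T / θ + 1 :=
    (Nat.cast_le.2 hL).trans (Nat.ceil_lt_add_one (div_nonneg hT h0.le)).le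
  have hL' : (L : ℝ) * θ ≤ T + 1 := by
    calc (L : ℝ) * θ ≤ (T / θ + 1) * θ := mul_le_mul_of_nonneg_right h2 h0.le
      _ = T + θ := by rw [add_mul, div_mul_cancel₀ _ h0.ne', one_mul]
      _ ≤ T + 1 := by linarith
  rw [mul_add, ← mul_assoc (L : ℝ) θ εo]
  exact add_le_add (drift_le hT h0 h1 hK hε hθε hL) (mul_le_mul_of_nonneg_right hL' hεo)

/-- The fibre masses of chains of atomless letters stay small. -/
theorem eventually_smallMean (hD : V.DiagonalLimit) : ∀ (n : ℕ) (b : ℕ → R) (q : ℕ → Mono V S),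
    (∀ k, k ≤ n → V.Atomless (b k)) → ∀ T η : ℝ, 0 < T → 0 < η →
      ∀ᶠ θ in 𝓝[>] (0 : ℝ), θ ≤ 1 → SmallMean b q n T η θ := by
  intro n
  induction n using Nat.strong_induction_on with
  | _ n ih =>
  intro b q hb T η hT hη
  rcases Nat.eq_zero_or_pos n with rfl | hn
  · refine Filter.Eventually.of_forall fun θ _ L _ => Ev.of_forall fun Ps _ => ?_
    rw [show (fun t : State Ω S => V.gv (chainVal b q t 0)) = fun _ => (0 : ℝ) from
      funext fun t => V.gv_le_of_atomless (hb 0 le_rfl), run_const]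
    exact hη.le
  have hT1 : 0 < T + 1 := by linarith
  obtain ⟨εo, hεo⟩ : ∃ εo, εo = η / (2 * (T + 1)) := ⟨_, rfl⟩
  obtain ⟨K, hK, hstage⟩ := gv_stage_le b q hD n (ε := εo) (hεo ▸ by positivity)
  set I : Finset (ℕ × ℕ) :=
    (Finset.range (n + 1) ×ˢ Finset.range n).filter (fun p => p.1 + p.2 ≤ n) with hI
  set ε : ℝ := η / 2 / ((T + 1) * (K + 1) * (2 * (I.card : ℝ) + 2)) with hεdef
  have hε : 0 < ε := by positivity
  have hI' : ∀ᶠ θ in 𝓝[>] (0 : ℝ), ∀ p ∈ I, θ ≤ 1 →
      SmallMean (fun k => b (k + p.1)) (fun k => q (k + p.1)) p.2 T (ε ^ 4) θ := by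
    refine (eventually_all_finset I).2 fun p hp => ?_
    simp only [hI, Finset.mem_filter, Finset.mem_product, Finset.mem_range] at hp
    exact ih p.2 (by omega) _ _ (fun k hk => hb _ (by omega)) T _ hT (pow_pos hε 4)
  filter_upwards [hI', eventually_nhdsWithin_of_eventually_nhds (eventually_le_nhds hε),
    self_mem_nhdsWithin] with θ hθI hθε (h0 : 0 < θ) h1
  intro L hL
  refine (ev_run_le (F := fun t => V.gv (chainVal b q t n))
    (G := fun t => (K + 1) * (θ * smallG b q n t + 2 * θ ^ 2) + θ * εo) h0.le h1 ?_ (fun t => ?_)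
    (N := ⌈T / θ⌉₊) (β := (K + 1) * (θ * (I.card * (ε + ε ^ 4 / ε ^ 3)) + 2 * θ ^ 2) + θ * εo)
    (fun L' hL' => ?_) L hL).mono fun Ps _ hP => hP.trans ?_
  · simp only [chainVal_empty b q hn]
    refine (V.gv_le 0 All.Part.one).trans (le_of_eq ?_)
    simp [Env.gauss]
  · refine (hstage θ h0.le h1 t (θ ^ 2) (by positivity)).mono fun P hP => hP.trans ?_
    have hs := smallG_nonneg b q n t
    nlinarith [mul_nonneg h0.le hs, mul_nonneg (mul_nonneg hK (sq_nonneg θ)) (sub_nonneg.2 h1),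
      sq_nonneg θ]
  · refine (ev_small h0.le h1 hε b q I (fun p hp => hθI p hp h1) hL').mono fun Ps _ hP => ?_
    simp only [← smul_eq_mul (K + 1), ← smul_eq_mul θ, run_smul, run_add, run_const]
    simp only [smul_eq_mul]
    refine add_le_add ?_ le_rfl
    have hG : smallG b q n = fun t => ∑ p ∈ I, Real.sqrt (Real.sqrt
        (V.gv (chainVal (fun k => b (k + p.1)) (fun k => q (k + p.1)) t p.2))) := rfl
    rw [hG]
    exact mul_le_mul_of_nonneg_left (add_le_add (mul_le_mul_of_nonneg_left hP h0.le) le_rfl)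
      (by linarith)
  · refine (drift_le' hT.le h0 h1 hK hε hθε (hεo ▸ by positivity) hL).trans (le_of_eq ?_)
    rw [hεdef, hεo]
    field_simp
    ring

/-- Words with inner letters orthogonal to the normaliser have negligible mean trace. -/
theorem freeStatement (hD : V.DiagonalLimit) (hA : V.AtomlessStatement) : FreeStatement V := by
  intro S _ _ w T η hT hη
  classical
  set b : ℕ → R := fun i =>
    if i = 0 then w.v else if h : i - 1 < w.n then w.b ⟨i - 1, h⟩ else w.v' with hb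
  set q : ℕ → Mono V S := fun k => w.q ⟨min k w.n, by omega⟩ with hq
  have hval : ∀ s, w.val s = chainVal b q s (w.n + 1) := by
    intro s
    have key : ∀ m, (hm : m ≤ w.n) → V.seg b (fun k => (q k).val s) m * V.ι ((q m).val s) =
        w.v * (w.q 0).elem s *
          (List.ofFn fun i : Fin m => w.b (i.castLE hm) * (w.q (i.castLE hm).succ).elem s).prod := by
      intro m
      induction m with
      | zero => intro _; simp [hb, hq, Mono.elem]
      | succ m ihm =>
        intro hm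
        rw [Env.seg_succ, ihm (by omega), List.ofFn_succ', List.concat_eq_append, List.prod_append,
          List.prod_singleton]
        simp only [hb, hq, Nat.succ_ne_zero, if_false, Nat.add_sub_cancel, dif_pos (show m < w.n
          by omega), min_eq_left hm, Mono.elem, mul_assoc]
        rfl
    rw [chainVal, Env.seg_succ, key w.n le_rfl, Word.val]
    simp [hb]
  have hT1 : 0 < T + 1 := by linarith
  obtain ⟨εo, hεo⟩ : ∃ εo, εo = η / (2 * (T + 1)) := ⟨_, rfl⟩
  obtain ⟨K, hK, hstage⟩ := tau_stage_le b q hD (w.n + 1) (ε := εo) (hεo ▸ by positivity)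
  set I : Finset (ℕ × ℕ) := (Finset.range (w.n + 1) ×ˢ Finset.range (w.n + 1)).filter
    (fun p => 1 ≤ p.1 ∧ p.1 + p.2 < w.n + 1) with hI
  set ε : ℝ := η / 2 / ((T + 1) * (K + 1) * (2 * (I.card : ℝ) + 2)) with hεdef
  have hε : 0 < ε := by positivity
  have hI' : ∀ᶠ θ in 𝓝[>] (0 : ℝ), ∀ p ∈ I, θ ≤ 1 →
      SmallMean (fun k => b (k + p.1)) (fun k => q (k + p.1)) p.2 T (ε ^ 4) θ := by
    refine (eventually_all_finset I).2 fun p hp => ?_
    simp only [hI, Finset.mem_filter, Finset.mem_product, Finset.mem_range] at hp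
    refine eventually_smallMean hD p.2 _ _ (fun k hk => ?_) T _ hT (pow_pos hε 4)
    simp only [hb, show k + p.1 ≠ 0 by omega, if_false, dif_pos (show k + p.1 - 1 < w.n by omega)]
    exact hA _ (w.orth _)
  obtain ⟨θ₀, hθ₀, hsub⟩ := mem_nhdsGT_iff_exists_Ioo_subset.1
    (hI'.and (eventually_nhdsWithin_of_eventually_nhds (eventually_le_nhds hε)))
  refine ⟨θ₀, hθ₀, fun θ h0 hθ h1 => ?_⟩
  obtain ⟨hθI, hθε⟩ := hsub ⟨h0, hθ⟩
  refine (ev_norm_run_le (F := fun t => V.τ (w.val t))
    (G := fun t => (K + 1) * (θ * smallI b q (w.n + 1) t + 2 * θ ^ 2) + θ * εo) h0.le h1 ?_ (fun t => ?_)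
    (N := ⌈T / θ⌉₊) (β := (K + 1) * (θ * (I.card * (ε + ε ^ 4 / ε ^ 3)) + 2 * θ ^ 2) + θ * εo)
    (fun L' hL' => ?_) ⌈T / θ⌉₊ le_rfl).mono fun Ps _ hP => hP.trans ?_
  · simp [hval, chainVal_empty b q (Nat.succ_pos _), Env.τ]
  · refine (hstage θ h0.le h1 t θ h0).mono fun P hP => ?_
    simp only [hval]
    refine hP.trans ?_
    have hs := smallI_nonneg b q (w.n + 1) t
    nlinarith [mul_nonneg h0.le hs, sq_nonneg θ]
  · refine (ev_small h0.le h1 hε b q I (fun p hp => hθI p hp h1) hL').mono fun Ps _ hP => ?_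
    simp only [← smul_eq_mul (K + 1), ← smul_eq_mul θ, run_smul, run_add, run_const]
    simp only [smul_eq_mul]
    refine add_le_add ?_ le_rfl
    have hG : smallI b q (w.n + 1) = fun t => ∑ p ∈ I,
        Real.sqrt (Real.sqrt
          (V.gv (chainVal (fun k => b (k + p.1)) (fun k => q (k + p.1)) t p.2))) := rfl
    rw [hG]
    exact mul_le_mul_of_nonneg_left (add_le_add (mul_le_mul_of_nonneg_left hP h0.le) le_rfl)
      (by linarith)
  · refine (drift_le' hT.le h0 h1 hK hε hθε (hεo ▸ by positivity) le_rfl).trans (le_of_eq ?_)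
    rw [hεdef, hεo]
    field_simp
    ring

end Vale.Agent.P078.Any.St
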