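import Vale.Agent.P078.Any.St.Operator
import Vale.Agent.P078.Any.St.Compress
import Vale.Agent.P078.Any.St.Free

/-!
Free compression for a MASA in the centraliser of a faithful normal state, with no trace.
-/

namespace Vale.Agent.P078.Any.St

open Cartan
variable {H : Type} [NormedAddCommGroup H] [InnerProductSpace ℂ H] [CompleteSpace H]
variable {M : VonNeumannAlgebra H} {A : StarSubalgebra ℂ (H →L[ℂ] H)} {κ : Type} {η : κ → H}
variable [AbelianClosed A] [TotallyDisconnectedSpace (Spec A)]
/-- Free compression holds in the environment of a state. -/
theorem stEnv_compression (hA : IsMasa M A) (h : IsState M A η) : CompressionStatement (stEnv hA h) :=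
  compressionStatement _ (stEnv_fixOpen hA h) (stEnv_normaliserSplit hA h)
    (freeStatement (stEnv_diagonalLimit hA h) (stEnv_atomless hA h))

end Vale.Agent.P078.Any.St
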