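import Vale.Agent.P078.Any.St.Env
import Vale.Agent.P078.All.Basic

/-!
Basic inequalities for a state: Cauchy-Schwarz, norms, 2-norms and the approximate boundedness of
right multiplication.
-/

namespace Vale.Agent.P078.Any.St

open scoped ComplexOrder ComplexConjugate
open Vale.Agent.P078.All (normSq_le_of_nonneg State Ev run)
open Vale.Agent.P078.All.Env (cplx cplx_apply reC reC_apply absC absC_apply)

variable {R : Type} [Ring R] [StarRing R] [Algebra ℂ R] [StarModule ℂ R]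
  {Ω : Type} [TopologicalSpace Ω] [CompactSpace Ω] [T2Space Ω] [TotallyDisconnectedSpace Ω]

set_option linter.unusedSectionVars false

namespace Env

variable (V : Env R Ω)

theorem star_ι (a : C(Ω, ℂ)) : star (V.ι a) = V.ι (star a) := (map_star V.ι a).symm

theorem E_im (x : R) (ω : Ω) : (V.E (star x * x) ω).im = 0 :=
  (Complex.nonneg_iff.1 (V.E_nonneg x ω)).2.symm

theorem E_nonneg' (x : R) (ω : Ω) : 0 ≤ V.E (x * star x) ω := by
  simpa using V.E_nonneg (star x) ω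

/-- Cauchy-Schwarz for the expectation. -/
theorem normSq_E_mul_le (x y : R) (ω : Ω) :
    Complex.normSq (V.E (x * y) ω) ≤
      (V.E (x * star x) ω).re * (V.E (star y * y) ω).re := by
  refine normSq_le_of_nonneg (Complex.nonneg_iff.1 (V.E_nonneg y ω)).1 fun t => ?_
  have h := (Complex.nonneg_iff.1 (V.E_nonneg (star x + t • y) ω)).1
  have hs : V.E (star y * star x) ω = conj (V.E (x * y) ω) := by
    rw [← star_mul, V.E_star]
    rfl
  simp only [star_add, star_smul, star_star, add_mul, mul_add, smul_mul_assoc, mul_smul_comm,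
    map_add, map_smul, ContinuousMap.add_apply, ContinuousMap.smul_apply, smul_eq_mul, hs,
    Complex.star_def] at h
  simp only [Complex.add_re, Complex.mul_re, Complex.mul_im, Complex.conj_re, Complex.conj_im,
    Complex.normSq_apply] at h ⊢
  have him := V.E_im y ω
  rw [him] at h
  linarith

/-! ### The trace on real functions -/

/-- The state of a real function. -/
noncomputable def μR : C(Ω, ℝ) →ₗ[ℝ] ℝ where
  toFun f := (V.μ (cplx f)).re
  map_add' f g := by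
    rw [show cplx (f + g) = cplx f + cplx g by ext ω; simp, map_add, Complex.add_re]
  map_smul' c f := by
    rw [show cplx (c • f) = (c : ℂ) • cplx f by ext ω; simp, map_smul, smul_eq_mul,
      Complex.re_ofReal_mul]
    rfl

theorem μR_nonneg {f : C(Ω, ℝ)} (h : ∀ ω, 0 ≤ f ω) : 0 ≤ V.μR f :=
  (Complex.nonneg_iff.1 (V.μ_nonneg (cplx f) fun ω => by simpa using h ω)).1

theorem μR_mono {f g : C(Ω, ℝ)} (h : ∀ ω, f ω ≤ g ω) : V.μR f ≤ V.μR g := by
  have := V.μR_nonneg (f := g - f) fun ω => by simpa using h ω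
  rw [map_sub] at this
  linarith

theorem μR_const (c : ℝ) : V.μR (ContinuousMap.const Ω c) = c := by
  rw [show ContinuousMap.const Ω c = c • (1 : C(Ω, ℝ)) by ext ω; simp, map_smul]
  have : V.μR 1 = 1 := by
    show (V.μ (cplx 1)).re = 1
    rw [show cplx (1 : C(Ω, ℝ)) = 1 by ext ω; simp, V.μ_one, Complex.one_re]
  rw [this, smul_eq_mul, mul_one]

theorem μ_cplx (f : C(Ω, ℝ)) : V.μ (cplx f) = (V.μR f : ℂ) := by
  refine Complex.ext rfl ?_
  have h := V.μ_nonneg (cplx (f + ContinuousMap.const Ω ‖f‖)) fun ω => by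
    have h1 : ‖f ω‖ ≤ ‖f‖ := f.norm_coe_le_norm ω
    rw [Real.norm_eq_abs] at h1
    have h0 : (0 : ℝ) ≤ f ω + ‖f‖ := by linarith [neg_abs_le (f ω)]
    rw [cplx_apply, ContinuousMap.add_apply, ContinuousMap.const_apply]
    exact_mod_cast h0
  have h2 := (Complex.nonneg_iff.1 h).2
  rw [show cplx (f + ContinuousMap.const Ω ‖f‖) = cplx f + (‖f‖ : ℂ) • 1 by ext ω; simp,
    map_add, map_smul, V.μ_one] at h2
  simpa using h2.symm

theorem μ_re (f : C(Ω, ℂ)) : (V.μ f).re = V.μR (reC f) := by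
  have hf : f = cplx (reC f) + Complex.I • cplx (reC ((-Complex.I) • f)) := by
    ext ω
    simpa [mul_comm] using (Complex.re_add_im (f ω)).symm
  conv_lhs => rw [hf]
  rw [map_add, map_smul, μ_cplx, μ_cplx]
  simp

theorem norm_μ_le (f : C(Ω, ℂ)) : ‖V.μ f‖ ≤ V.μR (absC f) := by
  obtain ⟨t, ht, hz⟩ : ∃ t : ℂ, ‖t‖ ≤ 1 ∧ t * V.μ f = ‖V.μ f‖ := by
    rcases eq_or_ne (V.μ f) 0 with h | h
    · exact ⟨0, by simp, by simp [h]⟩
    · exact ⟨‖V.μ f‖ / V.μ f, by simp [h], div_mul_cancel₀ _ h⟩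
  have h1 : (V.μ (t • f)).re = ‖V.μ f‖ := by
    rw [map_smul, smul_eq_mul, hz, Complex.ofReal_re]
  rw [← h1, μ_re]
  refine V.μR_mono fun ω => ?_
  simp only [reC_apply, ContinuousMap.smul_apply, smul_eq_mul, absC_apply]
  refine (Complex.re_le_norm _).trans ?_
  rw [norm_mul]
  exact mul_le_of_le_one_left (norm_nonneg _) ht

/-- Cauchy-Schwarz for the state of real functions. -/
theorem sq_μR_mul_le (f g : C(Ω, ℝ)) :
    V.μR (f * g) ^ 2 ≤ V.μR (f * f) * V.μR (g * g) := by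
  have h : Complex.normSq (V.μR (f * g) : ℂ) ≤ V.μR (f * f) * V.μR (g * g) := by
    refine normSq_le_of_nonneg (V.μR_nonneg fun ω => by simp [mul_self_nonneg]) fun t => ?_
    have h0 := V.μR_nonneg (f := (f + t.re • g) * (f + t.re • g)) fun ω => by
      simp [mul_self_nonneg]
    rw [show (f + t.re • g) * (f + t.re • g) = f * f + (2 * t.re) • (f * g) + t.re ^ 2 • (g * g) by
      ext ω; simp; ring, map_add, map_add, map_smul, map_smul, smul_eq_mul, smul_eq_mul] at h0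
    have hg : 0 ≤ V.μR (g * g) := V.μR_nonneg fun ω => by simp [mul_self_nonneg]
    rw [Complex.re_mul_ofReal, Complex.normSq_apply]
    nlinarith [mul_nonneg (mul_self_nonneg t.im) hg]
  rw [pow_two]
  simpa [Complex.normSq_ofReal] using h

theorem μR_mul_le (f g : C(Ω, ℝ)) :
    V.μR (f * g) ≤ Real.sqrt (V.μR (f * f)) * Real.sqrt (V.μR (g * g)) := by
  rw [← Real.sqrt_mul (V.μR_nonneg fun ω => by simp [mul_self_nonneg])]
  exact Real.le_sqrt_of_sq_le (V.sq_μR_mul_le f g)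

theorem μR_le_sqrt (f : C(Ω, ℝ)) : V.μR f ≤ Real.sqrt (V.μR (f * f)) := by
  have h := V.μR_mul_le f (ContinuousMap.const Ω 1)
  rw [show ContinuousMap.const Ω (1 : ℝ) * ContinuousMap.const Ω 1 = ContinuousMap.const Ω 1 by
      ext ω; simp, μR_const, Real.sqrt_one, mul_one,
    show f * ContinuousMap.const Ω (1 : ℝ) = f by ext ω; simp] at h
  exact h

theorem norm_μ_mul_le (f g : C(Ω, ℂ)) :
    ‖V.μ (f * g)‖ ≤ Real.sqrt (V.μR (absC f * absC f)) * Real.sqrt (V.μR (absC g * absC g)) := by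
  refine (V.norm_μ_le _).trans ((le_of_eq ?_).trans (V.μR_mul_le _ _))
  congr 1
  ext ω
  simp

/-! ### The 2-norm and operator bounds -/

theorem sq_eq (x : R) : V.sq x = V.μR (reC (V.E (star x * x))) := V.μ_re _

theorem sq_nonneg (x : R) : 0 ≤ V.sq x :=
  V.sq_eq x ▸ V.μR_nonneg fun ω => (Complex.nonneg_iff.1 (V.E_nonneg x ω)).1

theorem τ_ι (a : C(Ω, ℂ)) : V.τ (V.ι a) = V.μ a := by rw [τ, V.E_ι]

theorem sq_ι (a : C(Ω, ℂ)) : V.sq (V.ι a) = V.μR (absC a * absC a) := by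
  rw [sq_eq, star_ι, ← map_mul, V.E_ι]
  congr 1
  ext ω
  simp [← Complex.normSq_eq_norm_sq, ← pow_two, Complex.normSq_apply]

theorem τ_add (x y : R) : V.τ (x + y) = V.τ x + V.τ y := by simp [τ]

theorem τ_sum {ι' : Type*} (s : Finset ι') (x : ι' → R) :
    V.τ (∑ i ∈ s, x i) = ∑ i ∈ s, V.τ (x i) := by simp [τ]

/-- Cauchy-Schwarz for the state. -/
theorem norm_τ_mul_le (x y : R) :
    ‖V.τ (x * y)‖ ≤ Real.sqrt (V.sq (star x)) * Real.sqrt (V.sq y) := by
  rw [← Real.sqrt_mul (V.sq_nonneg _), Complex.norm_def]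
  refine Real.sqrt_le_sqrt (normSq_le_of_nonneg (V.sq_nonneg y) fun t => ?_)
  have h := V.sq_nonneg (star x + t • y)
  have hs : V.τ (star y * star x) = conj (V.τ (x * y)) := by
    simp only [τ]
    rw [← star_mul, V.E_star]
    have h2 : ∀ f : C(Ω, ℂ), V.μ (star f) = conj (V.μ f) := fun f => by
      have hf : f = cplx (reC f) + Complex.I • cplx (reC ((-Complex.I) • f)) := by
        ext ω; simpa [mul_comm] using (Complex.re_add_im (f ω)).symm
      have hf' : star f = cplx (reC f) + (-Complex.I) • cplx (reC ((-Complex.I) • f)) := by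
        ext ω
        apply Complex.ext <;> simp
      conv_lhs => rw [hf']
      conv_rhs => rw [hf]
      simp [map_add, map_smul, μ_cplx]
    exact h2 _
  simp only [sq, τ, star_add, star_smul, star_star, add_mul, mul_add, smul_mul_assoc,
    mul_smul_comm, map_add, map_smul, smul_eq_mul, Complex.star_def] at h hs ⊢
  rw [hs] at h
  simp only [Complex.add_re, Complex.mul_re, Complex.mul_im, Complex.conj_re, Complex.conj_im,
    Complex.normSq_apply] at h ⊢
  have him : (V.μ (V.E (star y * y))).im = 0 :=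
    (Complex.nonneg_iff.1 (V.μ_nonneg _ (V.E_nonneg y))).2.symm
  rw [him] at h
  linarith

theorem sqrt_sq_add_le (x y : R) :
    Real.sqrt (V.sq (x + y)) ≤ Real.sqrt (V.sq x) + Real.sqrt (V.sq y) := by
  refine (Real.sqrt_le_left (by positivity)).2 ?_
  have h1 : V.sq (x + y) = V.sq x + V.sq y + ((V.τ (star x * y)).re + (V.τ (star y * x)).re) := by
    simp only [sq, star_add, add_mul, mul_add, τ_add, Complex.add_re]
    ring
  have h2 := (Complex.re_le_norm _).trans (V.norm_τ_mul_le (star x) y)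
  have h3 := (Complex.re_le_norm _).trans (V.norm_τ_mul_le (star y) x)
  rw [star_star] at h2 h3
  rw [h1, add_sq, Real.sq_sqrt (V.sq_nonneg _), Real.sq_sqrt (V.sq_nonneg _)]
  nlinarith

theorem bdd_one : V.Bdd 1 1 := ⟨zero_le_one, fun y ω => by simp⟩

theorem exists_bdd (x : R) : ∃ C, V.Bdd x C := V.bounded x

variable {V} in
theorem Bdd.mono {x : R} {C D : ℝ} (h : V.Bdd x C) (hD : C ≤ D) : V.Bdd x D := by
  refine ⟨h.1.trans hD, fun y ω => (h.2 y ω).trans ?_⟩
  refine mul_le_mul_of_nonneg_right ?_ (V.E_nonneg y ω)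
  exact_mod_cast pow_le_pow_left₀ h.1 hD 2

variable {V} in
theorem Bdd.mul {x y : R} {C D : ℝ} (hx : V.Bdd x C) (hy : V.Bdd y D) :
    V.Bdd (x * y) (C * D) := by
  refine ⟨mul_nonneg hx.1 hy.1, fun z ω => ?_⟩
  calc V.E (star z * (star (x * y) * (x * y)) * z) ω
      = V.E (star (y * z) * (star x * x) * (y * z)) ω := by simp only [star_mul, mul_assoc]
    _ ≤ (C : ℂ) ^ 2 * V.E (star (y * z) * (y * z)) ω := hx.2 _ ω
    _ = (C : ℂ) ^ 2 * V.E (star z * (star y * y) * z) ω := by simp only [star_mul, mul_assoc]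
    _ ≤ (C : ℂ) ^ 2 * ((D : ℂ) ^ 2 * V.E (star z * z) ω) := by
        refine mul_le_mul_of_nonneg_left (hy.2 z ω) ?_
        exact_mod_cast pow_two_nonneg C
    _ = ((C * D : ℝ) : ℂ) ^ 2 * V.E (star z * z) ω := by push_cast; ring

theorem bdd_of_isometry {u : R} (h : star u * u = 1) : V.Bdd u 1 :=
  ⟨zero_le_one, fun y ω => by simp [h]⟩

variable {V} in
theorem Mover.bdd (g : V.Mover) : V.Bdd g.u 1 :=
  V.bdd_of_isometry (Unitary.star_mul_self_of_mem g.mem_unitary)

variable {V} in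
theorem Mover.bdd_star (g : V.Mover) : V.Bdd (star g.u) 1 :=
  V.bdd_of_isometry (by rw [star_star]; exact Unitary.mul_star_self_of_mem g.mem_unitary)

theorem bdd_ι {a : C(Ω, ℂ)} {C : ℝ} (hC : 0 ≤ C) (h : ∀ ω, ‖a ω‖ ≤ C) : V.Bdd (V.ι a) C := by
  refine ⟨hC, fun y ω => ?_⟩
  let g : C(Ω, ℂ) := ⟨fun ω => (Real.sqrt (C ^ 2 - ‖a ω‖ ^ 2) : ℂ), by fun_prop⟩
  have hg : ((C : ℂ) ^ 2) • (1 : C(Ω, ℂ)) = star a * a + star g * g := by
    ext ω'
    have h0 : 0 ≤ C ^ 2 - ‖a ω'‖ ^ 2 := sub_nonneg.2 (pow_le_pow_left₀ (norm_nonneg _) (h ω') 2)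
    simp only [ContinuousMap.smul_apply, ContinuousMap.one_apply, smul_eq_mul, mul_one,
      ContinuousMap.add_apply, ContinuousMap.mul_apply, ContinuousMap.star_apply, Complex.star_def,
      g, ContinuousMap.coe_mk, Complex.conj_ofReal, Complex.conj_mul']
    rw [← Complex.ofReal_mul, Real.mul_self_sqrt h0]
    push_cast
    ring
  have h2 := V.E_nonneg (V.ι g * y) ω
  have e : (C : ℂ) ^ 2 * V.E (star y * y) ω =
      V.E (star y * (star (V.ι a) * V.ι a) * y) ω +
        V.E (star (V.ι g * y) * (V.ι g * y)) ω := by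
    rw [star_mul, star_ι, star_ι, ← map_mul V.ι (star a) a,
      show star y * V.ι (star g) * (V.ι g * y) = star y * V.ι (star g * g) * y by
        rw [map_mul]; simp only [mul_assoc],
      ← ContinuousMap.add_apply, ← map_add, ← add_mul, ← mul_add, ← map_add, ← hg, map_smul,
      map_one, mul_smul_comm, mul_one, smul_mul_assoc, map_smul, ContinuousMap.smul_apply,
      smul_eq_mul]
  rw [e]
  exact le_add_of_nonneg_right h2

variable {V} in
theorem Bdd.re_E_le {x : R} {C : ℝ} (h : V.Bdd x C) (y : R) (ω : Ω) :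
    (V.E (star (x * y) * (x * y)) ω).re ≤ C ^ 2 * (V.E (star y * y) ω).re := by
  have h1 := (Complex.le_def.1 (h.2 y ω)).1
  rw [show ((C : ℂ) ^ 2) = ((C ^ 2 : ℝ) : ℂ) by push_cast; rfl, Complex.re_ofReal_mul] at h1
  simpa only [star_mul, mul_assoc] using h1

theorem sq_mul_le {x : R} {C : ℝ} (h : V.Bdd x C) (y : R) : V.sq (x * y) ≤ C ^ 2 * V.sq y := by
  rw [sq_eq, sq_eq, ← smul_eq_mul (C ^ 2) (V.μR _), ← map_smul]
  exact V.μR_mono fun ω => by simpa using h.re_E_le y ω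

theorem sq_one : V.sq 1 = 1 := by
  simp [sq, τ, show V.E 1 = 1 by rw [← map_one V.ι, V.E_ι], V.μ_one]

theorem sqrt_sq_le_of_bdd {x : R} {C : ℝ} (h : V.Bdd x C) : Real.sqrt (V.sq x) ≤ C := by
  have := V.sq_mul_le h 1
  rw [mul_one, sq_one, mul_one] at this
  exact (Real.sqrt_le_left h.1).2 this

theorem sq_zero : V.sq 0 = 0 := by simp [sq, τ]

theorem τ_sub (x y : R) : V.τ (x - y) = V.τ x - V.τ y := by simp [τ]

theorem τ_smul (c : ℂ) (x : R) : V.τ (c • x) = c * V.τ x := by simp [τ]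

theorem μ_star (f : C(Ω, ℂ)) : V.μ (star f) = conj (V.μ f) := by
  refine Complex.ext ?_ ?_
  · rw [Complex.conj_re, μ_re, μ_re]
    rfl
  · rw [Complex.conj_im]
    have h1 := V.μ_re ((-Complex.I) • star f)
    have h2 := V.μ_re (Complex.I • f)
    have e : reC ((-Complex.I) • star f) = reC (Complex.I • f) := by ext ω; simp
    rw [e, ← h2, map_smul, map_smul] at h1
    simpa using h1

theorem τ_star (x : R) : V.τ (star x) = conj (V.τ x) := by rw [τ, τ, V.E_star, μ_star]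

theorem norm_τ_le (x : R) : ‖V.τ x‖ ≤ Real.sqrt (V.sq x) := by
  simpa [V.sq_one] using V.norm_τ_mul_le 1 x

theorem norm_τ_le_star (x : R) : ‖V.τ x‖ ≤ Real.sqrt (V.sq (star x)) := by
  simpa [V.sq_one] using V.norm_τ_mul_le x 1

theorem μR_eq_zero {f : C(Ω, ℝ)} (h : ∀ ω, 0 ≤ f ω) (h0 : V.μR f = 0) : f = 0 := by
  have h1 := V.μ_faithful (cplx f) (fun ω => by
    rw [cplx_apply]; exact Complex.zero_le_real.2 (h ω)) (by rw [μ_cplx, h0, Complex.ofReal_zero])
  ext ω
  simpa using congrArg (fun g : C(Ω, ℂ) => g ω) h1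

/-- Functions act on the right with their norm. -/
theorem sq_mul_ι_le (x : R) {a : C(Ω, ℂ)} {C : ℝ} (h : ∀ ω, ‖a ω‖ ≤ C) :
    V.sq (x * V.ι a) ≤ C ^ 2 * V.sq x := by
  rw [sq_eq, sq_eq, ← smul_eq_mul (C ^ 2) (V.μR _), ← map_smul]
  refine V.μR_mono fun ω => ?_
  rw [star_mul, star_ι, ← mul_assoc, mul_assoc (V.ι (star a)), V.E_right, V.E_left]
  simp only [reC_apply, ContinuousMap.smul_apply, ContinuousMap.mul_apply,
    ContinuousMap.star_apply, smul_eq_mul, Complex.star_def]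
  rw [mul_comm (conj (a ω)), mul_assoc, Complex.conj_mul', ← Complex.ofReal_pow,
    Complex.re_mul_ofReal, mul_comm (C ^ 2)]
  exact mul_le_mul_of_nonneg_left (pow_le_pow_left₀ (norm_nonneg _) (h ω) 2)
    (Complex.nonneg_iff.1 (V.E_nonneg x ω)).1

/-- The expectation of a product is bounded in 2-norm by either factor. -/
theorem μR_norm_E_sq_le (x y : R) {C : ℝ} (h : V.Bdd (star x) C) :
    V.μR (absC (V.E (x * y)) * absC (V.E (x * y))) ≤ C ^ 2 * V.sq y := by
  rw [sq_eq, ← smul_eq_mul (C ^ 2) (V.μR _), ← map_smul]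
  refine V.μR_mono fun ω => ?_
  simp only [ContinuousMap.mul_apply, absC_apply, ContinuousMap.smul_apply, smul_eq_mul,
    reC_apply]
  rw [← pow_two, Complex.sq_norm]
  refine (V.normSq_E_mul_le x y ω).trans (mul_le_mul_of_nonneg_right ?_
    (Complex.nonneg_iff.1 (V.E_nonneg y ω)).1)
  have h1 := h.re_E_le 1 ω
  simpa [show V.E 1 = 1 by rw [← map_one V.ι, V.E_ι]] using h1

/-- The pairing with a function is bounded by the two 2-norms. -/
theorem norm_τ_mul_ι_le (x : R) (a : C(Ω, ℂ)) :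
    ‖V.τ (x * V.ι a)‖ ≤ Real.sqrt (V.sq x) * Real.sqrt (V.sq (V.ι a)) := by
  rw [τ, V.E_right]
  refine (V.norm_μ_mul_le _ _).trans ?_
  rw [sq_ι]
  refine mul_le_mul_of_nonneg_right (Real.sqrt_le_sqrt ?_) (Real.sqrt_nonneg _)
  have h1 := V.μR_norm_E_sq_le 1 x (C := 1) (by rw [star_one]; exact V.bdd_one)
  simpa using h1

/-! ### Right multiplication on bounded elements -/

/-- Right multiplication by the elements of `S` is uniformly bounded up to a small multiple of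
the operator bound. -/
def RBdd (S : Set R) : Prop :=
  ∀ ε : ℝ, 0 < ε → ∃ K : ℝ, 0 ≤ K ∧ ∀ x ∈ S, ∀ z D, V.Bdd z D →
    Real.sqrt (V.sq (z * x)) ≤ K * Real.sqrt (V.sq z) + ε * D

theorem rbdd_singleton (x : R) : V.RBdd {x} := by
  intro ε hε
  obtain ⟨δ, hδ, h⟩ := V.rightCont x (ε ^ 2) (pow_pos hε 2)
  refine ⟨Real.sqrt (V.sq x) / Real.sqrt δ, by positivity, ?_⟩
  rintro x' hx' z D hz
  rw [Set.mem_singleton_iff] at hx'
  subst x'
  rcases hz.1.eq_or_lt with hD | hD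
  · have h1 := V.sq_mul_le hz x
    rw [← hD] at h1 ⊢
    have h2 : V.sq (z * x) = 0 := le_antisymm (by simpa using h1) (V.sq_nonneg _)
    rw [h2, Real.sqrt_zero, mul_zero, add_zero]
    positivity
  obtain ⟨w, hw⟩ : ∃ w : R, w = ((D⁻¹ : ℝ) : ℂ) • z := ⟨_, rfl⟩
  have hD' : ((D⁻¹ : ℝ) : ℂ) * (D : ℂ) = 1 := by
    rw [← Complex.ofReal_mul, inv_mul_cancel₀ hD.ne', Complex.ofReal_one]
  have hsq : ∀ y : R, V.sq (w * y) = (D⁻¹) ^ 2 * V.sq (z * y) := by
    intro y
    rw [hw, smul_mul_assoc, sq, star_smul, smul_mul_assoc, mul_smul_comm, smul_smul,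
      Complex.star_def, Complex.conj_ofReal, ← Complex.ofReal_mul, ← _root_.sq, τ_smul,
      Complex.re_ofReal_mul]
    rfl
  have hsw : V.sq w = (D⁻¹) ^ 2 * V.sq z := by simpa using hsq 1
  have hb : ∀ y ω, V.E (star y * (star w * w) * y) ω ≤ V.E (star y * y) ω := by
    intro y ω
    have h1 := mul_le_mul_of_nonneg_left (hz.2 y ω)
      (Complex.zero_le_real.2 (_root_.sq_nonneg D⁻¹))
    rw [← mul_assoc (Complex.ofReal _), Complex.ofReal_pow, ← mul_pow, ← Complex.ofReal_mul,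
      inv_mul_cancel₀ hD.ne', Complex.ofReal_one, one_pow, one_mul] at h1
    refine le_of_eq_of_le ?_ h1
    rw [hw, star_smul, Complex.star_def, Complex.conj_ofReal]
    simp only [smul_mul_assoc, mul_smul_comm, map_smul, ContinuousMap.smul_apply, smul_eq_mul]
    push_cast
    ring
  have key : Real.sqrt (V.sq (w * x)) ≤
      Real.sqrt (V.sq x) / Real.sqrt δ * Real.sqrt (V.sq w) + ε := by
    rcases le_total (V.sq w) δ with hle | hle
    · refine le_add_of_nonneg_of_le (by positivity) ?_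
      exact (Real.sqrt_le_left hε.le).2 (h w hb hle)
    · refine le_add_of_le_of_nonneg ?_ hε.le
      have h1 : V.sq (w * x) ≤ V.sq x := by
        refine (V.sq_mul_le (C := 1) ⟨zero_le_one, fun y ω => ?_⟩ x).trans (by simp)
        simpa using hb y ω
      refine (Real.sqrt_le_sqrt h1).trans ?_
      rw [div_mul_eq_mul_div, le_div_iff₀ (Real.sqrt_pos.2 hδ)]
      exact mul_le_mul_of_nonneg_left (Real.sqrt_le_sqrt hle) (Real.sqrt_nonneg _)
  rw [hsq x, hsw, Real.sqrt_mul (_root_.sq_nonneg _), Real.sqrt_mul (_root_.sq_nonneg _),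
    Real.sqrt_sq (inv_nonneg.2 hD.le)] at key
  have h3 := mul_le_mul_of_nonneg_left key hD.le
  rw [← mul_assoc D D⁻¹, mul_inv_cancel₀ hD.ne', one_mul] at h3
  refine h3.trans (le_of_eq ?_)
  field_simp

variable {V}

theorem RBdd.mono {S S' : Set R} (h : V.RBdd S) (hS : S' ⊆ S) : V.RBdd S' := fun ε hε =>
  let ⟨K, hK, h'⟩ := h ε hε; ⟨K, hK, fun x hx => h' x (hS hx)⟩

theorem RBdd.union {S S' : Set R} (h : V.RBdd S) (h' : V.RBdd S') : V.RBdd (S ∪ S') := by
  intro ε hε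
  obtain ⟨K, hK, hS⟩ := h ε hε
  obtain ⟨K', hK', hS'⟩ := h' ε hε
  refine ⟨max K K', hK.trans (le_max_left _ _), ?_⟩
  rintro x (hx | hx) z D hz
  · exact (hS x hx z D hz).trans (add_le_add
      (mul_le_mul_of_nonneg_right (le_max_left _ _) (Real.sqrt_nonneg _)) le_rfl)
  · exact (hS' x hx z D hz).trans (add_le_add
      (mul_le_mul_of_nonneg_right (le_max_right _ _) (Real.sqrt_nonneg _)) le_rfl)

variable (V) in
theorem rbdd_ι {Z : ℝ} (hZ : 0 ≤ Z) : V.RBdd {x | ∃ a, (∀ ω, ‖a ω‖ ≤ Z) ∧ x = V.ι a} := by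
  intro ε hε
  refine ⟨Z, hZ, ?_⟩
  rintro _ ⟨a, ha, rfl⟩ z D hz
  refine le_add_of_le_of_nonneg ?_ (mul_nonneg hε.le hz.1)
  refine (Real.sqrt_le_sqrt (V.sq_mul_ι_le z ha)).trans (le_of_eq ?_)
  rw [Real.sqrt_mul (_root_.sq_nonneg _), Real.sqrt_sq hZ]

theorem RBdd.mul {S S' : Set R} (h : V.RBdd S) {C : ℝ} (hC : ∀ x ∈ S, V.Bdd x C)
    (h' : V.RBdd S') : V.RBdd {x | ∃ a ∈ S, ∃ b ∈ S', x = a * b} := by
  intro ε hε
  obtain ⟨K', hK', hb⟩ := h' (ε / (2 * (|C| + 1))) (by positivity)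
  obtain ⟨K, hK, ha⟩ := h (ε / (2 * (K' + 1))) (by positivity)
  refine ⟨K' * K, mul_nonneg hK' hK, ?_⟩
  rintro _ ⟨a, haS, b, hbS, rfl⟩ z D hz
  rw [← mul_assoc]
  refine (hb b hbS _ _ (hz.mul (hC a haS))).trans ?_
  refine (add_le_add (mul_le_mul_of_nonneg_left (ha a haS z D hz) hK') le_rfl).trans ?_
  have e1 : K' * (ε / (2 * (K' + 1)) * D) ≤ ε / 2 * D := by
    rw [← mul_assoc]
    refine mul_le_mul_of_nonneg_right ?_ hz.1
    rw [mul_div_assoc', div_le_div_iff₀ (by positivity) two_pos]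
    nlinarith
  have e2 : ε / (2 * (|C| + 1)) * (D * C) ≤ ε / 2 * D := by
    rw [mul_comm D C, ← mul_assoc]
    refine mul_le_mul_of_nonneg_right ?_ hz.1
    rw [div_mul_eq_mul_div, div_le_div_iff₀ (by positivity) two_pos]
    nlinarith [le_abs_self C]
  linarith

theorem RBdd.single {S : Set R} (h : V.RBdd S) {ε : ℝ} (hε : 0 < ε) {C : ℝ} (hC : 0 ≤ C) :
    ∃ η : ℝ, 0 < η ∧ ∀ x ∈ S, ∀ z, V.Bdd z C → V.sq z ≤ η → Real.sqrt (V.sq (z * x)) ≤ ε := by
  obtain ⟨K, hK, h'⟩ := h (ε / (2 * (C + 1))) (by positivity)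
  refine ⟨(ε / (2 * (K + 1))) ^ 2, by positivity, fun x hx z hz hs => ?_⟩
  refine (h' x hx z C hz).trans ?_
  have h1 : Real.sqrt (V.sq z) ≤ ε / (2 * (K + 1)) := (Real.sqrt_le_left (by positivity)).2 hs
  have e1 : K * (ε / (2 * (K + 1))) ≤ ε / 2 := by
    rw [mul_div_assoc', div_le_div_iff₀ (by positivity) two_pos]
    nlinarith
  have e2 : ε / (2 * (C + 1)) * C ≤ ε / 2 := by
    rw [div_mul_eq_mul_div, div_le_div_iff₀ (by positivity) two_pos]
    nlinarith
  linarith [mul_le_mul_of_nonneg_left h1 hK]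

variable (V) in
/-- The fibre mass of `x` at a function. -/
noncomputable def fib (x : R) (a : C(Ω, ℂ)) : C(Ω, ℝ) := reC (V.E (x * V.ι a * star x))

end Env

end Vale.Agent.P078.Any.St
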