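import Vale.Agent.P078.Any.St.EnvBasic

/-!
Alternating products as multilinear functions of their sites, and one stage as a sum over slots.
-/

namespace Vale.Agent.P078.Any.St

open scoped ComplexOrder ComplexConjugate
open Vale.Agent.P078.All (State Ev run)

variable {R : Type} [Ring R] [StarRing R] [Algebra ℂ R] [StarModule ℂ R]
  {Ω : Type} [TopologicalSpace Ω] [CompactSpace Ω] [T2Space Ω] [TotallyDisconnectedSpace Ω]

set_option linter.unusedSectionVars false

namespace Env

variable (V : Env R Ω)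

/-- `b 0 z 0 b 1 ... z (n - 1) b n`. -/
noncomputable def seg (b : ℕ → R) (z : ℕ → C(Ω, ℂ)) : ℕ → R
  | 0 => b 0
  | n + 1 => seg b z n * V.ι (z n) * b (n + 1)

variable {V}

@[simp] theorem seg_zero (b : ℕ → R) (z : ℕ → C(Ω, ℂ)) : V.seg b z 0 = b 0 := rfl

theorem seg_succ (b : ℕ → R) (z : ℕ → C(Ω, ℂ)) (n : ℕ) :
    V.seg b z (n + 1) = V.seg b z n * V.ι (z n) * b (n + 1) := rfl

theorem seg_congr {b : ℕ → R} {z z' : ℕ → C(Ω, ℂ)} :
    ∀ {n : ℕ}, (∀ k, k < n → z k = z' k) → V.seg b z n = V.seg b z' n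
  | 0, _ => rfl
  | n + 1, h => by
      rw [seg_succ, seg_succ, seg_congr fun k hk => h k (Nat.lt_succ_of_lt hk),
        h n (Nat.lt_succ_self n)]

theorem seg_split (b : ℕ → R) (z : ℕ → C(Ω, ℂ)) (p : ℕ) : ∀ q,
    V.seg b z (p + 1 + q) = V.seg b z p * V.ι (z p) *
      V.seg (fun i => b (i + (p + 1))) (fun i => z (i + (p + 1))) q
  | 0 => by simp [seg_succ]
  | q + 1 => by
      rw [← Nat.add_assoc, seg_succ, seg_split b z p q, seg_succ,
        show q + (p + 1) = p + 1 + q from Nat.add_comm _ _,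
        show q + 1 + (p + 1) = p + 1 + q + 1 by omega]
      simp only [mul_assoc]

theorem seg_split' (b : ℕ → R) (z : ℕ → C(Ω, ℂ)) {p n : ℕ} (h : p < n) :
    V.seg b z n = V.seg b z p * V.ι (z p) *
      V.seg (fun i => b (i + (p + 1))) (fun i => z (i + (p + 1))) (n - (p + 1)) := by
  conv_lhs => rw [show n = p + 1 + (n - (p + 1)) by omega, seg_split]

theorem exists_seg_bdd (b : ℕ → R) {Z : ℝ} (hZ : 0 ≤ Z) (n : ℕ) :
    ∃ C, 1 ≤ C ∧ ∀ z : ℕ → C(Ω, ℂ), (∀ k, k < n → ∀ ω, ‖z k ω‖ ≤ Z) →
      V.Bdd (V.seg b z n) C ∧ V.Bdd (star (V.seg b z n)) C := by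
  induction n with
  | zero =>
    obtain ⟨C, hC⟩ := V.exists_bdd (b 0)
    obtain ⟨D, hD⟩ := V.exists_bdd (star (b 0))
    exact ⟨max (max C D) 1, le_max_right _ _, fun z _ =>
      ⟨hC.mono ((le_max_left _ _).trans (le_max_left _ _)),
        hD.mono ((le_max_right _ _).trans (le_max_left _ _))⟩⟩
  | succ n ih =>
    obtain ⟨C, hC1, hC⟩ := ih
    obtain ⟨D, hD⟩ := V.exists_bdd (b (n + 1))
    obtain ⟨D', hD'⟩ := V.exists_bdd (star (b (n + 1)))
    refine ⟨max (max (C * Z * D) (D' * (Z * C))) 1, le_max_right _ _, fun z hz => ?_⟩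
    obtain ⟨h1, h2⟩ := hC z fun k hk => hz k (Nat.lt_succ_of_lt hk)
    have h3 : V.Bdd (V.ι (z n)) Z := V.bdd_ι hZ (hz n (Nat.lt_succ_self n))
    have h4 : V.Bdd (star (V.ι (z n))) Z := by
      rw [star_ι]
      exact V.bdd_ι hZ fun ω => by simpa using hz n (Nat.lt_succ_self n) ω
    rw [seg_succ]
    refine ⟨((h1.mul h3).mul hD).mono ((le_max_left _ _).trans (le_max_left _ _)), ?_⟩
    rw [star_mul, star_mul]
    exact (hD'.mul (h4.mul h2)).mono ((le_max_right _ _).trans (le_max_left _ _))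

/-- The adjoints of the intervals with bounded letters form a family of approximately bounded
right multipliers. -/
theorem rbdd_star_seg {Z : ℝ} (hZ : 0 ≤ Z) (b : ℕ → R) : ∀ n, V.RBdd
    {x | ∃ z : ℕ → C(Ω, ℂ), (∀ k, k < n → ∀ ω, ‖z k ω‖ ≤ Z) ∧ x = star (V.seg b z n)}
  | 0 => (V.rbdd_singleton (star (b 0))).mono (by rintro _ ⟨z, -, rfl⟩; simp)
  | n + 1 => by
    obtain ⟨D, hD⟩ := V.exists_bdd (star (b (n + 1)))
    have h1 := (V.rbdd_singleton (star (b (n + 1)))).mul (C := D)
      (fun x hx => by rw [Set.mem_singleton_iff] at hx; rw [hx]; exact hD) (V.rbdd_ι hZ)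
    refine ((h1.mul (C := D * Z) ?_ (rbdd_star_seg hZ b n)).mono ?_)
    · rintro _ ⟨a, ha, _, ⟨f, hf, rfl⟩, rfl⟩
      rw [Set.mem_singleton_iff] at ha
      exact ha ▸ hD.mul (V.bdd_ι hZ hf)
    · rintro _ ⟨z, hz, rfl⟩
      refine ⟨_, ⟨_, rfl, _, ⟨star (z n), fun ω => ?_, rfl⟩, rfl⟩, _,
        ⟨z, fun k hk => hz k (Nat.lt_succ_of_lt hk), rfl⟩, ?_⟩
      · simpa using hz n (Nat.lt_succ_self n) ω
      · rw [seg_succ, star_mul, star_mul, star_ι, ← mul_assoc]

end Env

open Env

variable {V : Env R Ω} {S : Type} [Fintype S] (b : ℕ → R) (q : ℕ → Mono V S) (n : ℕ)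

/-- The sites of a product. -/
abbrev Sites : Type := Σ k : Fin n, Fin ((q k).m + 1)

variable {n}

/-- The letters from the values at the sites. -/
noncomputable def wval (w : Sites q n → C(Ω, ℂ)) (k : ℕ) : C(Ω, ℂ) :=
  if h : k < n then (q k).coef * ∏ j, w ⟨⟨k, h⟩, j⟩ else 0

theorem wval_update [DecidableEq (Sites q n)] (w : Sites q n → C(Ω, ℂ)) (i : Sites q n)
    (x : C(Ω, ℂ)) :
    wval q (Function.update w i x) i.1 =
        x * ((q i.1).coef * ∏ j ∈ Finset.univ.erase i.2, w ⟨i.1, j⟩) ∧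
      ∀ k, k ≠ (i.1 : ℕ) → wval q (Function.update w i x) k = wval q w k := by
  obtain ⟨⟨k₀, hk₀⟩, j₀⟩ := i
  constructor
  · simp only [wval, dif_pos hk₀]
    rw [← Finset.mul_prod_erase Finset.univ _ (Finset.mem_univ j₀), Function.update_self,
      mul_left_comm]
    congr 2
    refine Finset.prod_congr rfl fun j hj => Function.update_of_ne ?_ _ _
    intro e
    exact (Finset.mem_erase.1 hj).1 (eq_of_heq (Sigma.mk.inj_iff.1 e).2)
  · intro k hk
    simp only [wval]
    split_ifs with h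
    · congr 1
      refine Finset.prod_congr rfl fun j _ => Function.update_of_ne ?_ _ _
      intro e
      exact hk (congrArg (fun t => (t.1 : ℕ)) e)
    · rfl

/-- The product as a function of the values at the sites. -/
noncomputable def prodMap : MultilinearMap ℂ (fun _ : Sites q n => C(Ω, ℂ)) R where
  toFun w := V.seg b (wval q w) n
  map_update_add' w i x y := by
    have hlt : (i.1 : ℕ) < n := i.1.2
    obtain ⟨x1, x2⟩ := wval_update q w i x
    obtain ⟨y1, y2⟩ := wval_update q w i y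
    obtain ⟨s1, s2⟩ := wval_update q w i (x + y)
    rw [seg_split' b _ hlt, seg_split' b _ hlt, seg_split' b _ hlt, s1, x1, y1,
      seg_congr (n := (i.1 : ℕ)) fun k hk => s2 k hk.ne,
      seg_congr (n := (i.1 : ℕ)) (z := wval q (Function.update w i x)) fun k hk => x2 k hk.ne,
      seg_congr (n := (i.1 : ℕ)) (z := wval q (Function.update w i y)) fun k hk => y2 k hk.ne]
    simp only [funext fun k => s2 (k + ((i.1 : ℕ) + 1)) (by omega),
      funext fun k => x2 (k + ((i.1 : ℕ) + 1)) (by omega),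
      funext fun k => y2 (k + ((i.1 : ℕ) + 1)) (by omega), add_mul, map_add, mul_add]
  map_update_smul' w i c x := by
    have hlt : (i.1 : ℕ) < n := i.1.2
    obtain ⟨x1, x2⟩ := wval_update q w i x
    obtain ⟨s1, s2⟩ := wval_update q w i (c • x)
    rw [seg_split' b _ hlt, seg_split' b _ hlt, s1, x1,
      seg_congr (n := (i.1 : ℕ)) fun k hk => s2 k hk.ne,
      seg_congr (n := (i.1 : ℕ)) (z := wval q (Function.update w i x)) fun k hk => x2 k hk.ne]
    simp only [funext fun k => s2 (k + ((i.1 : ℕ) + 1)) (by omega),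
      funext fun k => x2 (k + ((i.1 : ℕ) + 1)) (by omega), smul_mul_assoc, map_smul, mul_smul_comm]

theorem prodMap_apply (w : Sites q n → C(Ω, ℂ)) : prodMap b q w = V.seg b (wval q w) n := rfl

/-- The value of a site at a state. -/
noncomputable def siteVal (g : Site V S) (s : State Ω S) : C(Ω, ℂ) :=
  ⟨fun ω => (s (g.g.T ω)).elim 0 g.h,
    ((s.isLocallyConstant.comp_continuous g.g.T.continuous).comp
      fun o : Option S => o.elim 0 g.h).continuous⟩

/-- The undecided part of a site. -/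
noncomputable def openVal (g : Site V S) (s : State Ω S) : C(Ω, ℂ) :=
  ⟨fun ω => (s (g.g.T ω)).elim 1 0,
    ((s.isLocallyConstant.comp_continuous g.g.T.continuous).comp
      fun o : Option S => o.elim 1 (fun _ => (0 : ℂ))).continuous⟩

/-- The piece of a cell at a site. -/
noncomputable def cellVal (g : Site V S) (P : All.Part Ω) (c : Fin P.n) : C(Ω, ℂ) :=
  (P.ind c).comp (g.g.T : C(Ω, Ω))

/-- The values a site can take in one stage. -/
noncomputable def slotVal (g : Site V S) (s : State Ω S) (P : All.Part Ω) :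
    Option (Fin P.n) → C(Ω, ℂ)
  | none => siteVal g s
  | some c => openVal g s * cellVal g P c

theorem siteVal_empty (g : Site V S) : siteVal g (State.empty Ω S) = 0 := rfl

theorem sum_smul_slotVal (g : Site V S) (s : State Ω S) (P : All.Part Ω)
    (a : Option (Fin P.n) → ℂ) (ω : Ω) :
    (∑ o, a o • slotVal g s P o : C(Ω, ℂ)) ω =
      a none * (s (g.g.T ω)).elim 0 g.h + (s (g.g.T ω)).elim 1 0 * a (some (P.cell (g.g.T ω))) := by
  simp only [Fintype.sum_option, ContinuousMap.add_apply, ContinuousMap.sum_apply,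
    ContinuousMap.smul_apply, smul_eq_mul, slotVal, siteVal, openVal, cellVal,
    ContinuousMap.mul_apply, ContinuousMap.coe_mk, ContinuousMap.comp_apply, All.Part.ind_apply,
    ContinuousMap.coe_coe]
  congr 1
  simp [mul_comm]

theorem siteVal_next (g : Site V S) (s : State Ω S) (P : All.Part Ω) (x : Fin P.n → Option S) :
    siteVal g (s.next P x) =
      ∑ o : Option (Fin P.n), o.elim 1 (fun c => (x c).elim 0 g.h) • slotVal g s P o := by
  ext ω
  rw [sum_smul_slotVal]
  show ((s (g.g.T ω)).orElse fun _ => x (P.cell (g.g.T ω))).elim 0 g.h = _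
  rcases h : s (g.g.T ω) with _ | σ <;> simp

theorem norm_sum_smul_slotVal (g : Site V S) (s : State Ω S) (P : All.Part Ω)
    {a : Option (Fin P.n) → ℂ} (ha : ∀ o, ‖a o‖ ≤ 1) (ω : Ω) :
    ‖(∑ o, a o • slotVal g s P o : C(Ω, ℂ)) ω‖ ≤ 1 + ∑ σ, ‖g.h σ‖ := by
  rw [sum_smul_slotVal]
  rcases h : s (g.g.T ω) with _ | σ
  · simp only [Option.elim_none, mul_zero, zero_add, one_mul]
    exact (ha _).trans (le_add_of_nonneg_right (Finset.sum_nonneg fun _ _ => norm_nonneg _))
  · simp only [Option.elim_some, Pi.zero_apply, zero_mul, add_zero, norm_mul]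
    refine (mul_le_of_le_one_left (norm_nonneg _) (ha _)).trans ?_
    exact (Finset.single_le_sum (f := fun σ => ‖g.h σ‖) (fun _ _ => norm_nonneg _)
      (Finset.mem_univ σ)).trans (le_add_of_nonneg_left zero_le_one)

/-- The value of a product at a state. -/
noncomputable def chainVal (s : State Ω S) (n : ℕ) : R := V.seg b (fun k => (q k).val s) n

/-- The site of a product. -/
abbrev siteOf (i : Sites q n) : Site V S := (q i.1).site i.2

theorem wval_siteVal (s : State Ω S) {k : ℕ} (hk : k < n) :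
    wval q (fun i : Sites q n => siteVal (siteOf q i) s) k = (q k).val s := by
  simp only [wval, dif_pos hk]
  rfl

theorem prodMap_siteVal (s : State Ω S) :
    prodMap b q (fun i : Sites q n => siteVal (siteOf q i) s) = chainVal b q s n :=
  seg_congr fun _ hk => wval_siteVal q s hk

theorem chainVal_next [DecidableEq (Sites q n)] (s : State Ω S) (P : All.Part Ω)
    (x : Fin P.n → Option S) :
    chainVal b q (s.next P x) n = ∑ r : Sites q n → Option (Fin P.n),
      (∏ i, (r i).elim 1 fun c => (x c).elim 0 (siteOf q i).h) •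
        prodMap b q fun i => slotVal (siteOf q i) s P (r i) := by
  rw [← prodMap_siteVal b q]
  simp only [siteVal_next]
  rw [MultilinearMap.map_sum]
  exact Finset.sum_congr rfl fun r _ => MultilinearMap.map_smul_univ _ _ _

theorem chainVal_empty (hn : 0 < n) : chainVal b q (State.empty Ω S) n = 0 := by
  rw [chainVal, seg_split' b _ hn]
  have : (q 0).val (State.empty Ω S) = 0 := by
    ext ω
    simp [Mono.val, State.empty, Finset.prod_const, LocallyConstant.coe_const]
  simp [this]

end Vale.Agent.P078.Any.St
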