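import Vale.Agent.P078.All.Seeds

/-!
Interface for asymptotic freeness over a MASA in the centraliser of a state: the trace is replaced
by faithfulness on the functions and continuity of right multiplication on bounded elements.
-/

namespace Vale.Agent.P078.Any.St

open scoped ComplexOrder
open Vale.Agent.P078.All (State Ev run)

/-- An algebra with a state which is the composition of an expectation onto the functions on a
compact space and a faithful functional. For a MASA `A` of `M` with normal expectation `E`: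
`R = M`, `Ω` is the character space of `A` and `μ` is a faithful normal state of `A`. -/
structure Env (R : Type) [Ring R] [StarRing R] [Algebra ℂ R] [StarModule ℂ R]
    (Ω : Type) [TopologicalSpace Ω] [CompactSpace Ω] [T2Space Ω] [TotallyDisconnectedSpace Ω] where
  /-- The functions as elements of the algebra. -/
  ι : C(Ω, ℂ) →⋆ₐ[ℂ] R
  /-- The conditional expectation. -/
  E : R →ₗ[ℂ] C(Ω, ℂ)
  E_ι : ∀ a, E (ι a) = a
  E_left : ∀ a x, E (ι a * x) = a * E x
  E_right : ∀ a x, E (x * ι a) = E x * a
  E_star : ∀ x, E (star x) = star (E x)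
  E_nonneg : ∀ x ω, 0 ≤ E (star x * x) ω
  bounded : ∀ x, ∃ C : ℝ, 0 ≤ C ∧
    ∀ y ω, E (star y * (star x * x) * y) ω ≤ (C : ℂ) ^ 2 * E (star y * y) ω
  /-- The state on the functions. -/
  μ : C(Ω, ℂ) →ₗ[ℂ] ℂ
  μ_nonneg : ∀ a : C(Ω, ℂ), (∀ ω, 0 ≤ a ω) → 0 ≤ μ a
  μ_one : μ 1 = 1
  μ_faithful : ∀ a : C(Ω, ℂ), (∀ ω, 0 ≤ a ω) → μ a = 0 → a = 0
  rightCont : ∀ x : R, ∀ ε : ℝ, 0 < ε → ∃ δ : ℝ, 0 < δ ∧ ∀ z : R,
    (∀ y ω, E (star y * (star z * z) * y) ω ≤ E (star y * y) ω) →
    (μ (E (star z * z))).re ≤ δ → (μ (E (star (z * x) * (z * x)))).re ≤ ε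

namespace Env

variable {R : Type} [Ring R] [StarRing R] [Algebra ℂ R] [StarModule ℂ R]
  {Ω : Type} [TopologicalSpace Ω] [CompactSpace Ω] [T2Space Ω] [TotallyDisconnectedSpace Ω]
  (V : Env R Ω)

/-- The state. -/
noncomputable def τ (x : R) : ℂ := V.μ (V.E x)

/-- The squared 2-norm. -/
noncomputable def sq (x : R) : ℝ := (V.τ (star x * x)).re

/-- Left multiplication by `x` has norm at most `C`. -/
def Bdd (x : R) (C : ℝ) : Prop :=
  0 ≤ C ∧ ∀ y ω, V.E (star y * (star x * x) * y) ω ≤ (C : ℂ) ^ 2 * V.E (star y * y) ω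

/-- The element of a piece. -/
noncomputable def proj (P : All.Part Ω) (c : Fin P.n) : R := V.ι (P.ind c)

/-- The pinching by a partition. -/
noncomputable def pinch (P : All.Part Ω) (x : R) : R := ∑ c, V.proj P c * x * V.proj P c

/-- The pinchings converge to the expectation in 2-norm. -/
def DiagonalLimit : Prop :=
  ∀ x : R, ∀ η : ℝ, 0 < η → All.Part.Fine fun P => V.sq (V.pinch P x - V.ι (V.E x)) ≤ η

/-- A normalising unitary with its homeomorphism of `Ω`. -/
structure Mover where
  /-- The unitary. -/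
  u : R
  mem_unitary : u ∈ unitary R
  /-- The action. -/
  T : Ω ≃ₜ Ω
  conj : ∀ a : C(Ω, ℂ), u * V.ι a * star u = V.ι (a.comp (T : C(Ω, Ω)))
  E_conj : ∀ x, V.E (u * x * star u) = (V.E x).comp (T : C(Ω, Ω))

/-- The action is topologically free: the fixed points of a mover form an open set. -/
def FixOpen : Prop := ∀ g : V.Mover, IsOpen {ω | g.T ω = ω}

/-- The mass at the atoms of the fibres of the bimodule of `x`, at a partition. -/
noncomputable def gauss (P : All.Part Ω) (x : R) : ℝ :=
  ∑ c, (V.μ (V.E (x * V.proj P c * star x) ^ 2)).re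

/-- No atoms in the fibres of the bimodule of `x`. -/
def Atomless (x : R) : Prop := ∀ η : ℝ, 0 < η → All.Part.Fine fun P => V.gauss P x ≤ η

/-- `x` is orthogonal to every `a * u` with `u` a normalising unitary, in every fibre. -/
def OrthNormaliser (x : R) : Prop := ∀ g : V.Mover, V.E (g.u * x) = 0

/-- The lemma for one letter: orthogonality to the normaliser gives atomless fibres. -/
def AtomlessStatement : Prop := ∀ x : R, V.OrthNormaliser x → V.Atomless x

/-- A finite sum of elements `a * u` with `u` a normalising unitary. -/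
def IsNSum (x : R) : Prop :=
  ∃ (N : ℕ) (a : Fin N → C(Ω, ℂ)) (g : Fin N → V.Mover), x = ∑ i, V.ι (a i) * (g i).u

/-- `x` is a bounded limit, in both 2-norms, of finite sums over the normaliser. -/
def InN (x : R) : Prop := ∃ C : ℝ, ∀ η : ℝ, 0 < η → ∃ n : R, V.IsNSum n ∧
  V.Bdd (x - n) C ∧ V.sq (x - n) ≤ η

/-- Every element splits into a bounded limit of finite sums over the normaliser and a part
orthogonal to them. -/
def NormaliserSplit : Prop := ∀ x : R, ∃ x₀ : R, V.OrthNormaliser (x - x₀) ∧ V.InN x₀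

end Env

variable {Ω : Type} [TopologicalSpace Ω] [CompactSpace Ω] [T2Space Ω] [TotallyDisconnectedSpace Ω]
  {R : Type} [Ring R] [StarRing R] [Algebra ℂ R] [StarModule ℂ R]

/-- A centred function of the seed at the image of a point. -/
structure Site (V : Env R Ω) (S : Type) [Fintype S] where
  /-- The normalising unitary. -/
  g : V.Mover
  /-- The function of the seed. -/
  h : S → ℂ
  sum_h : ∑ σ, h σ = 0

/-- A product of centred functions at distinct translates, times a coefficient. -/
structure Mono (V : Env R Ω) (S : Type) [Fintype S] where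
  /-- The number of sites, less one. -/
  m : ℕ
  /-- The sites. -/
  site : Fin (m + 1) → Site V S
  /-- The coefficient. -/
  coef : C(Ω, ℂ)
  /-- The support. -/
  supp : LocallyConstant Ω Bool
  coef_off : ∀ ω, supp ω = false → coef ω = 0
  distinct : ∀ j k, j ≠ k → ∀ ω, supp ω = true → (site j).g.T ω ≠ (site k).g.T ω

namespace Mono

variable {V : Env R Ω} {S : Type} [Fintype S] (q : Mono V S)

/-- The value at a state; undecided seeds give the mean, zero. -/
noncomputable def val (s : State Ω S) : C(Ω, ℂ) :=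
  q.coef * ∏ j, (⟨fun ω => (s ((q.site j).g.T ω)).elim 0 (q.site j).h,
    ((s.isLocallyConstant.comp_continuous (q.site j).g.T.continuous).comp
      fun o : Option S => o.elim 0 (q.site j).h).continuous⟩ : C(Ω, ℂ))

/-- The element at a state. -/
noncomputable def elem (s : State Ω S) : R := V.ι (q.val s)

end Mono

/-- A word `v q₀ b₀ q₁ ... b_{n-1} q_n v'`: the inner letters are orthogonal to the normaliser,
the outer ones arbitrary. -/
structure Word (V : Env R Ω) (S : Type) [Fintype S] where
  /-- The number of inner letters. -/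
  n : ℕ
  /-- The seed letters. -/
  q : Fin (n + 1) → Mono V S
  /-- The inner letters. -/
  b : Fin n → R
  orth : ∀ i, V.OrthNormaliser (b i)
  /-- The left letter. -/
  v : R
  /-- The right letter. -/
  v' : R

/-- The value of a word. -/
noncomputable def Word.val {V : Env R Ω} {S : Type} [Fintype S] (w : Word V S)
    (s : State Ω S) : R :=
  w.v * (w.q 0).elem s * (List.ofFn fun i => w.b i * (w.q i.succ).elem s).prod * w.v'

/-- Asymptotic freeness: with `⌈T / θ⌉` stages and `θ` small, every word has negligible mean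
state. -/
def FreeStatement (V : Env R Ω) : Prop :=
  ∀ (S : Type) [Fintype S] [Nonempty S] (w : Word V S) (T η : ℝ), 0 < T → 0 < η →
    ∃ θ₀ : ℝ, 0 < θ₀ ∧ ∀ θ : ℝ, 0 < θ → θ < θ₀ → θ ≤ 1 →
      Ev ⌈T / θ⌉₊ fun Ps =>
        ‖run θ Ps (fun s => V.τ (w.val s)) (All.State.empty Ω S)‖ ≤ η

/-- A projection of `ι C(Ω)` read off the decided seeds at finitely many translates. -/
structure SeedProj (V : Env R Ω) (S : Type) [Fintype S] where
  /-- The number of translates. -/
  M : ℕ
  /-- The translates. -/
  g : Fin M → V.Mover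
  /-- The rule. -/
  rule : LocallyConstant Ω ((Fin M → S) → Bool)

namespace SeedProj

variable {V : Env R Ω} {S : Type} [Fintype S] [Nonempty S] (p : SeedProj V S)

/-- The indicator at a state; undecided points get an arbitrary seed. -/
noncomputable def val (s : State Ω S) : C(Ω, ℂ) :=
  ⟨fun ω => if p.rule ω (fun j => (s ((p.g j).T ω)).getD (Classical.arbitrary S)) then 1 else 0,
    ((p.rule.isLocallyConstant.prodMk
      (IsLocallyConstant.iff_eventually_eq _ |>.2 fun ω => by
        have h : ∀ᶠ y in nhds ω, ∀ j, s ((p.g j).T y) = s ((p.g j).T ω) :=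
          Filter.eventually_all.2 fun j => ((s.isLocallyConstant.comp_continuous
            (p.g j).T.continuous).eventually_eq ω)
        filter_upwards [h] with y hy
        funext j
        simp only [hy j])).comp
      fun q : ((Fin p.M → S) → Bool) × (Fin p.M → S) =>
        if q.1 q.2 then (1 : ℂ) else 0).continuous⟩

open Classical in
/-- At every point the rule holds with probability `ρ` under independent uniform seeds at the
distinct translates. -/
def HasMean (ρ : ℝ) : Prop :=
  ∀ ω, (∑ π : Fin p.M → S with (∀ j k, (p.g j).T ω = (p.g k).T ω → π j = π k),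
      if p.rule ω π then (1 : ℝ) else 0) =
    ρ * ({π : Fin p.M → S | ∀ j k, (p.g j).T ω = (p.g k).T ω → π j = π k} : Finset _).card

end SeedProj

/-- The compression statement. -/
def CompressionStatement (V : Env R Ω) : Prop :=
  ∀ (S : Type) [Fintype S] [Nonempty S] (p : SeedProj V S) (ρ : ℝ), 0 ≤ ρ → p.HasMean ρ →
    ∀ (y : R) (C : ℝ), star y = y → V.OrthNormaliser y → V.Bdd y C →
    ∀ (k : ℕ), 0 < k → ∀ η : ℝ, 0 < η →
      ∃ T₀ : ℝ, 0 < T₀ ∧ ∀ T : ℝ, T₀ ≤ T → ∃ θ₀ : ℝ, 0 < θ₀ ∧ ∀ θ : ℝ, 0 < θ → θ < θ₀ → θ ≤ 1 →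
        Ev ⌈T / θ⌉₊ fun Ps =>
          run θ Ps (fun s => (V.τ ((V.ι (p.val s) * y * V.ι (p.val s)) ^ (2 * k))).re)
            (All.State.empty Ω S) ≤ ρ * (2 * C * Real.sqrt ρ) ^ (2 * k) + η

end Vale.Agent.P078.Any.St
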