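import Vale.Agent.P078.Any.St.Basic

/-!
Movers, finite sums over the normaliser, orthogonality to the normaliser, and closure properties
of bounded elements and of approximately bounded right multipliers.
-/

namespace Vale.Agent.P078.Any.St

open scoped ComplexOrder
open Vale.Agent.P078.All (normSq_le_of_nonneg State Ev run)
open Vale.Agent.P078.All.Env (cplx cplx_apply reC reC_apply absC absC_apply)

variable {R : Type} [Ring R] [StarRing R] [Algebra ℂ R] [StarModule ℂ R]
  {Ω : Type} [TopologicalSpace Ω] [CompactSpace Ω] [T2Space Ω] [TotallyDisconnectedSpace Ω]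

set_option linter.unusedSectionVars false

namespace Env

variable {V : Env R Ω}

namespace Mover

theorem comm (g : V.Mover) (a : C(Ω, ℂ)) : g.u * V.ι a = V.ι (a.comp (g.T : C(Ω, Ω))) * g.u := by
  rw [← g.conj, mul_assoc, (Unitary.mem_iff.1 g.mem_unitary).1, mul_one]

variable (V) in
/-- The trivial mover. -/
noncomputable def one : V.Mover where
  u := 1
  mem_unitary := one_mem _
  T := Homeomorph.refl Ω
  conj a := by simp
  E_conj x := by simp

/-- The composition of two movers. -/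
noncomputable def mul (g h : V.Mover) : V.Mover where
  u := g.u * h.u
  mem_unitary := mul_mem g.mem_unitary h.mem_unitary
  T := g.T.trans h.T
  conj a := by
    rw [star_mul, show g.u * h.u * V.ι a * (star h.u * star g.u) =
      g.u * (h.u * V.ι a * star h.u) * star g.u by simp only [mul_assoc], h.conj, g.conj]
    rfl
  E_conj x := by
    rw [star_mul, show g.u * h.u * x * (star h.u * star g.u) =
      g.u * (h.u * x * star h.u) * star g.u by simp only [mul_assoc], g.E_conj, h.E_conj]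
    rfl

theorem comp_symm (g : V.Mover) (a : C(Ω, ℂ)) :
    (a.comp (g.T.symm : C(Ω, Ω))).comp (g.T : C(Ω, Ω)) = a := by
  ext ω; simp

/-- The inverse mover. -/
noncomputable def inv (g : V.Mover) : V.Mover where
  u := star g.u
  mem_unitary := Unitary.star_mem g.mem_unitary
  T := g.T.symm
  conj a := by
    have h := g.conj (a.comp (g.T.symm : C(Ω, Ω)))
    rw [comp_symm] at h
    rw [star_star, ← h]
    simp only [mul_assoc, (Unitary.mem_iff.1 g.mem_unitary).1, mul_one]
    rw [← mul_assoc, (Unitary.mem_iff.1 g.mem_unitary).1, one_mul]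
  E_conj x := by
    have h := g.E_conj (star g.u * x * g.u)
    rw [show g.u * (star g.u * x * g.u) * star g.u = x by
      simp only [mul_assoc, (Unitary.mem_iff.1 g.mem_unitary).2, mul_one]
      rw [← mul_assoc, (Unitary.mem_iff.1 g.mem_unitary).2, one_mul]] at h
    rw [star_star, h]
    ext ω; simp

end Mover

theorem isNSum_mover (a : C(Ω, ℂ)) (g : V.Mover) : V.IsNSum (V.ι a * g.u) :=
  ⟨1, fun _ => a, fun _ => g, by simp⟩

theorem isNSum_one : V.IsNSum 1 := by
  simpa [Mover.one] using isNSum_mover (V := V) 1 (Mover.one V)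

theorem IsNSum.add {x y : R} (hx : V.IsNSum x) (hy : V.IsNSum y) : V.IsNSum (x + y) := by
  obtain ⟨N, a, g, rfl⟩ := hx
  obtain ⟨N', a', g', rfl⟩ := hy
  exact ⟨N + N', Fin.append a a', Fin.append g g', by simp [Fin.sum_univ_add]⟩

theorem IsNSum.sum {κ : Type*} (s : Finset κ) {x : κ → R} (h : ∀ i ∈ s, V.IsNSum (x i)) :
    V.IsNSum (∑ i ∈ s, x i) := by
  classical
  induction s using Finset.induction with
  | empty => exact ⟨0, Fin.elim0, Fin.elim0, by simp⟩
  | insert i s hi ih =>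
    rw [Finset.sum_insert hi]
    exact (h i (Finset.mem_insert_self i s)).add
      (ih fun j hj => h j (Finset.mem_insert_of_mem hj))

theorem ι_mover_mul (a b : C(Ω, ℂ)) (g h : V.Mover) :
    V.ι a * g.u * (V.ι b * h.u) = V.ι (a * b.comp (g.T : C(Ω, Ω))) * (g.mul h).u := by
  change _ = _ * (g.u * h.u)
  rw [map_mul, mul_assoc, ← mul_assoc g.u, g.comm]
  simp only [mul_assoc]

theorem star_ι_mover (a : C(Ω, ℂ)) (g : V.Mover) :
    star (V.ι a * g.u) = V.ι ((star a).comp (g.T.symm : C(Ω, Ω))) * g.inv.u := by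
  rw [star_mul, ← map_star]
  exact g.inv.comm (star a)

theorem IsNSum.mul {x y : R} (hx : V.IsNSum x) (hy : V.IsNSum y) : V.IsNSum (x * y) := by
  obtain ⟨N, a, g, rfl⟩ := hx
  obtain ⟨N', a', g', rfl⟩ := hy
  rw [Finset.sum_mul]
  refine IsNSum.sum _ fun i _ => ?_
  rw [Finset.mul_sum]
  refine IsNSum.sum _ fun j _ => ?_
  rw [ι_mover_mul]
  exact isNSum_mover _ _

theorem IsNSum.star {x : R} (hx : V.IsNSum x) : V.IsNSum (star x) := by
  obtain ⟨N, a, g, rfl⟩ := hx
  rw [star_sum]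
  refine IsNSum.sum _ fun i _ => ?_
  rw [star_ι_mover]
  exact isNSum_mover _ _

theorem E_one : V.E 1 = 1 := by rw [← map_one V.ι, V.E_ι]

theorem Mover.conj_symm (g : V.Mover) (a : C(Ω, ℂ)) :
    star g.u * V.ι a * g.u = V.ι (a.comp (g.T.symm : C(Ω, Ω))) := by
  conv_lhs => rw [show a = (a.comp (g.T.symm : C(Ω, Ω))).comp (g.T : C(Ω, Ω)) by ext ω; simp,
    ← g.conj]
  rw [← mul_assoc, ← mul_assoc, Unitary.star_mul_self_of_mem g.mem_unitary, one_mul, mul_assoc,
    Unitary.star_mul_self_of_mem g.mem_unitary, mul_one]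

theorem Mover.E_conj_symm (g : V.Mover) (x : R) :
    V.E (star g.u * x * g.u) = (V.E x).comp (g.T.symm : C(Ω, Ω)) := by
  have h := g.E_conj (star g.u * x * g.u)
  rw [← mul_assoc, ← mul_assoc, Unitary.mul_star_self_of_mem g.mem_unitary, one_mul, mul_assoc,
    Unitary.mul_star_self_of_mem g.mem_unitary, mul_one] at h
  rw [h]
  ext ω
  simp

/-- The product of a mover with the inverse of another. -/
def Mover.divide (g h : V.Mover) : V.Mover :=
  ⟨g.u * star h.u, mul_mem g.mem_unitary (Unitary.star_mem h.mem_unitary), g.T.trans h.T.symm,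
    fun a => by
      rw [star_mul, star_star,
        show g.u * star h.u * V.ι a * (h.u * star g.u) =
          g.u * (star h.u * V.ι a * h.u) * star g.u by simp only [mul_assoc],
        h.conj_symm, g.conj]
      rfl,
    fun x => by
      rw [star_mul, star_star,
        show g.u * star h.u * x * (h.u * star g.u) =
          g.u * (star h.u * x * h.u) * star g.u by simp only [mul_assoc],
        g.E_conj, h.E_conj_symm]
      rfl⟩

theorem Mover.ι_mul (g : V.Mover) (a : C(Ω, ℂ)) :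
    g.u * V.ι a = V.ι (a.comp (g.T : C(Ω, Ω))) * g.u := by
  rw [← g.conj, mul_assoc, Unitary.star_mul_self_of_mem g.mem_unitary, mul_one]

/-! ### Orthogonality to the normaliser -/

theorem OrthNormaliser.E_eq_zero {x : R} (hx : V.OrthNormaliser x) : V.E x = 0 := by
  simpa [Mover.one] using hx (Mover.one V)

theorem OrthNormaliser.τ_eq_zero {x : R} (hx : V.OrthNormaliser x) : V.τ x = 0 := by
  rw [τ, hx.E_eq_zero, map_zero]

/-- Orthogonality holds for a mover on the right as well. -/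
theorem OrthNormaliser.E_mul_mover {x : R} (hx : V.OrthNormaliser x) (g : V.Mover) :
    V.E (x * g.u) = 0 := by
  have h := g.E_conj (x * g.u)
  rw [show g.u * (x * g.u) * Star.star g.u = g.u * x * (g.u * Star.star g.u) by
      simp only [mul_assoc],
    Unitary.mul_star_self_of_mem g.mem_unitary, mul_one, hx g] at h
  ext ω
  simpa using (congrArg (fun f : C(Ω, ℂ) => f (g.T.symm ω)) h).symm

theorem OrthNormaliser.star {x : R} (hx : V.OrthNormaliser x) :
    V.OrthNormaliser (Star.star x) := by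
  intro g
  rw [← star_star g.u, ← star_mul, V.E_star, show Star.star g.u = g.inv.u from rfl,
    hx.E_mul_mover g.inv, star_zero]

theorem OrthNormaliser.mover_mul {x : R} (hx : V.OrthNormaliser x) (a : C(Ω, ℂ)) (h : V.Mover) :
    V.OrthNormaliser (V.ι a * h.u * x) := by
  intro g
  rw [← mul_assoc g.u, ← mul_assoc g.u, g.comm, mul_assoc (V.ι _) g.u,
    show g.u * h.u = (g.mul h).u from rfl, mul_assoc, V.E_left, hx (g.mul h), mul_zero]

theorem OrthNormaliser.mul_mover {x : R} (hx : V.OrthNormaliser x) (a : C(Ω, ℂ)) (h : V.Mover) :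
    V.OrthNormaliser (x * (V.ι a * h.u)) := by
  intro g
  have e : V.ι a * h.u = h.u * V.ι (a.comp (h.T.symm : C(Ω, Ω))) := by
    rw [h.comm, Mover.comp_symm]
  have hgx : V.OrthNormaliser (g.u * x) := by simpa using hx.mover_mul 1 g
  rw [e, ← mul_assoc, ← mul_assoc, V.E_right, hgx.E_mul_mover h, zero_mul]

theorem OrthNormaliser.nsum_mul {x m : R} (hx : V.OrthNormaliser x) (hm : V.IsNSum m) :
    V.OrthNormaliser (m * x) := by
  obtain ⟨N, a, g, rfl⟩ := hm
  intro h
  rw [Finset.sum_mul, Finset.mul_sum, map_sum]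
  exact Finset.sum_eq_zero fun i _ => hx.mover_mul (a i) (g i) h

theorem OrthNormaliser.mul_nsum {x m : R} (hx : V.OrthNormaliser x) (hm : V.IsNSum m) :
    V.OrthNormaliser (x * m) := by
  obtain ⟨N, a, g, rfl⟩ := hm
  intro h
  rw [Finset.mul_sum, Finset.mul_sum, map_sum]
  exact Finset.sum_eq_zero fun i _ => hx.mul_mover (a i) (g i) h

theorem OrthNormaliser.sub {x y : R} (hx : V.OrthNormaliser x) (hy : V.OrthNormaliser y) :
    V.OrthNormaliser (x - y) := fun g => by rw [mul_sub, map_sub, hx g, hy g, sub_zero]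

theorem OrthNormaliser.mul_inN {x m : R} (hx : V.OrthNormaliser x) (hm : V.InN m) :
    V.OrthNormaliser (x * m) := by
  intro g
  obtain ⟨C, hC⟩ := V.exists_bdd (Star.star (g.u * x))
  obtain ⟨D, hn⟩ := hm
  obtain ⟨f, hf⟩ : ∃ f, f = absC (V.E (g.u * (x * m))) * absC (V.E (g.u * (x * m))) := ⟨_, rfl⟩
  have hf0 : ∀ ω, 0 ≤ f ω := fun ω => by simp [hf, mul_self_nonneg]
  have hle : ∀ η : ℝ, 0 < η → V.μR f ≤ C ^ 2 * η := by
    intro η hη
    obtain ⟨n, hn1, -, hn3⟩ := hn η hη
    have e : V.E (g.u * (x * m)) = V.E (g.u * x * (m - n)) := by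
      rw [mul_sub, map_sub, mul_assoc, mul_assoc, hx.mul_nsum hn1 g, sub_zero]
    rw [hf, e]
    exact (V.μR_norm_E_sq_le _ _ hC).trans (mul_le_mul_of_nonneg_left hn3 (_root_.sq_nonneg C))
  have h0 : V.μR f = 0 := by
    refine le_antisymm (le_of_forall_pos_le_add fun ε hε => ?_) (V.μR_nonneg hf0)
    rw [zero_add]
    refine (hle (ε / (C ^ 2 + 1)) (by positivity)).trans ?_
    rw [mul_div_assoc', div_le_iff₀ (by positivity)]
    nlinarith
  have hz := V.μR_eq_zero hf0 h0
  ext ω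
  have := congrArg (fun F : C(Ω, ℝ) => F ω) hz
  simpa [hf] using this

theorem inN_of_nsum {m : R} (hm : V.IsNSum m) : V.InN m :=
  ⟨0, fun η hη => ⟨m, hm, ⟨le_rfl, fun y ω => by simp⟩, by simpa [V.sq_zero] using hη.le⟩⟩

/-! ### Bounded elements and right multipliers -/

theorem sq_add_le (x y : R) : V.sq (x + y) ≤ 2 * V.sq x + 2 * V.sq y := by
  have h1 : V.sq (x + y) + V.sq (x - y) = 2 * V.sq x + 2 * V.sq y := by
    simp only [Env.sq, star_add, star_sub, add_mul, mul_add, sub_mul, mul_sub, V.τ_add,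
      Env.τ_sub, Complex.add_re, Complex.sub_re]
    ring
  linarith [V.sq_nonneg (x - y)]

theorem sq_smul (c : ℂ) (x : R) : V.sq (c • x) = ‖c‖ ^ 2 * V.sq x := by
  rw [sq, star_smul, smul_mul_assoc, mul_smul_comm, smul_smul, Complex.star_def,
    Complex.conj_mul', τ_smul, ← Complex.ofReal_pow, Complex.re_ofReal_mul]
  rfl

theorem Bdd.smul {x : R} {C : ℝ} (h : V.Bdd x C) (c : ℂ) : V.Bdd (c • x) (‖c‖ * C) := by
  refine ⟨mul_nonneg (norm_nonneg c) h.1, fun y ω => ?_⟩
  simp only [star_smul, smul_mul_assoc, mul_smul_comm, smul_smul, map_smul,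
    ContinuousMap.smul_apply, smul_eq_mul]
  first | rw [Complex.star_def, Complex.conj_mul'] | rw [Complex.star_def, Complex.mul_conj']
  push_cast
  rw [mul_pow, mul_assoc]
  simpa only [mul_assoc] using mul_le_mul_of_nonneg_left (h.2 y ω)
    (show (0 : ℂ) ≤ (‖c‖ : ℂ) ^ 2 by exact_mod_cast _root_.sq_nonneg ‖c‖)

theorem bdd_iff {x : R} {C : ℝ} : V.Bdd x C ↔ 0 ≤ C ∧ ∀ y ω,
    (V.E (Star.star (x * y) * (x * y)) ω).re ≤ C ^ 2 * (V.E (Star.star y * y) ω).re := by
  refine ⟨fun h => ⟨h.1, h.re_E_le⟩, fun ⟨h0, h⟩ => ⟨h0, fun y ω => ?_⟩⟩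
  have e : V.E (Star.star y * (Star.star x * x) * y) ω =
      V.E (Star.star (x * y) * (x * y)) ω := by simp only [star_mul, mul_assoc]
  rw [e, Complex.le_def]
  refine ⟨?_, ?_⟩
  · rw [show ((C : ℂ) ^ 2) = ((C ^ 2 : ℝ) : ℂ) by push_cast; rfl, Complex.re_ofReal_mul]
    exact h y ω
  · rw [show ((C : ℂ) ^ 2) = ((C ^ 2 : ℝ) : ℂ) by push_cast; rfl, Complex.im_ofReal_mul,
      V.E_im, V.E_im, mul_zero]

theorem sqrt_re_E_add_le (x y : R) (ω : Ω) :
    Real.sqrt (V.E (Star.star (x + y) * (x + y)) ω).re ≤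
      Real.sqrt (V.E (Star.star x * x) ω).re + Real.sqrt (V.E (Star.star y * y) ω).re := by
  have hx := (Complex.nonneg_iff.1 (V.E_nonneg x ω)).1
  have hy := (Complex.nonneg_iff.1 (V.E_nonneg y ω)).1
  refine (Real.sqrt_le_left (by positivity)).2 ?_
  have h1 : ∀ a b : R, (V.E (Star.star a * b) ω).re ≤
      Real.sqrt (V.E (Star.star a * a) ω).re * Real.sqrt (V.E (Star.star b * b) ω).re := by
    intro a b
    rw [← Real.sqrt_mul (Complex.nonneg_iff.1 (V.E_nonneg a ω)).1]
    refine Real.le_sqrt_of_sq_le ?_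
    have h2 := V.normSq_E_mul_le (Star.star a) b ω
    rw [star_star] at h2
    refine le_trans ?_ h2
    rw [Complex.normSq_apply]
    nlinarith
  have h3 := h1 x y
  have h4 := h1 y x
  simp only [star_add, add_mul, mul_add, map_add, ContinuousMap.add_apply, Complex.add_re]
  rw [add_sq, Real.sq_sqrt hx, Real.sq_sqrt hy]
  linarith [mul_comm (Real.sqrt (V.E (Star.star x * x) ω).re)
    (Real.sqrt (V.E (Star.star y * y) ω).re)]

theorem Bdd.add {x y : R} {C D : ℝ} (hx : V.Bdd x C) (hy : V.Bdd y D) :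
    V.Bdd (x + y) (C + D) := by
  refine bdd_iff.2 ⟨add_nonneg hx.1 hy.1, fun z ω => ?_⟩
  have h := V.sqrt_re_E_add_le (x * z) (y * z) ω
  rw [← add_mul] at h
  have hz := (Complex.nonneg_iff.1 (V.E_nonneg z ω)).1
  have h1 : ∀ {a : R} {K : ℝ}, V.Bdd a K →
      Real.sqrt (V.E (Star.star (a * z) * (a * z)) ω).re ≤
        K * Real.sqrt (V.E (Star.star z * z) ω).re := fun {a K} ha => by
    refine (Real.sqrt_le_sqrt (ha.re_E_le z ω)).trans (le_of_eq ?_)
    rw [Real.sqrt_mul (_root_.sq_nonneg K), Real.sqrt_sq ha.1]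
  have h2 := (h.trans (add_le_add (h1 hx) (h1 hy))).trans_eq (add_mul C D _).symm
  refine ((Real.sqrt_le_left (mul_nonneg (add_nonneg hx.1 hy.1) (Real.sqrt_nonneg _))).1 h2
    ).trans (le_of_eq ?_)
  rw [mul_pow, Real.sq_sqrt hz]

theorem Bdd.sub {x y : R} {C D : ℝ} (hx : V.Bdd x C) (hy : V.Bdd y D) :
    V.Bdd (x - y) (C + D) := by
  simpa [sub_eq_add_neg] using hx.add (hy.smul (-1))

theorem RBdd.smul {S : Set R} (h : V.RBdd S) {c : ℝ} (hc : 0 ≤ c) :
    V.RBdd {x | ∃ t : ℂ, ‖t‖ ≤ c ∧ ∃ a ∈ S, x = t • a} := by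
  intro ε hε
  obtain ⟨K, hK, hS⟩ := h (ε / (c + 1)) (by positivity)
  refine ⟨c * K, mul_nonneg hc hK, ?_⟩
  rintro _ ⟨t, ht, a, ha, rfl⟩ z D hz
  rw [mul_smul_comm, sq_smul, Real.sqrt_mul (_root_.sq_nonneg _), Real.sqrt_sq (norm_nonneg _)]
  refine (mul_le_mul ht (hS a ha z D hz) (Real.sqrt_nonneg _) hc).trans ?_
  rw [mul_add, mul_assoc]
  refine add_le_add le_rfl ?_
  rw [← mul_assoc, mul_div_assoc']
  refine mul_le_mul_of_nonneg_right ?_ hz.1
  rw [div_le_iff₀ (by positivity)]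
  nlinarith

theorem RBdd.add {S S' : Set R} (h : V.RBdd S) (h' : V.RBdd S') :
    V.RBdd {x | ∃ a ∈ S, ∃ b ∈ S', x = a + b} := by
  intro ε hε
  obtain ⟨K, hK, hS⟩ := h (ε / 2) (half_pos hε)
  obtain ⟨K', hK', hS'⟩ := h' (ε / 2) (half_pos hε)
  refine ⟨K + K', add_nonneg hK hK', ?_⟩
  rintro _ ⟨a, ha, b, hb, rfl⟩ z D hz
  rw [mul_add]
  refine (V.sqrt_sq_add_le _ _).trans ((add_le_add (hS a ha z D hz) (hS' b hb z D hz)).trans
    (le_of_eq ?_))
  ring

end Env

end Vale.Agent.P078.Any.St
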