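import Vale.Agent.P078.All.SeedSpace
import Vale.Agent.P078.Any.St.EnvBasic

/-!
The random 2-norm space of the seeds, the filter of fine stages, and the families that are
uniformly bounded or negligible.
-/

namespace Vale.Agent.P078.Any.St

open Filter Topology
open scoped ComplexOrder InnerProductSpace
open Vale.Agent.P078.All (State Ev run undecided run_undecided_le run_mono run_nonneg run_add
  run_const run_smul run_congr map_run Idx seedFilter mean eventually_length eventually_mass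
  tendsto_exp_mass)

variable {Ω : Type} [TopologicalSpace Ω] [CompactSpace Ω] [T2Space Ω] [TotallyDisconnectedSpace Ω]
  {R : Type} [Ring R] [StarRing R] [Algebra ℂ R] [StarModule ℂ R]

/-- Functions of the state, seen as vectors at an index. -/
def Vec (_V : Env R Ω) (S : Type) (_i : Idx Ω) : Type := State Ω S → R

variable {V : Env R Ω} {S : Type} [Fintype S] [Nonempty S]

instance (i : Idx Ω) : AddCommGroup (Vec V S i) := inferInstanceAs (AddCommGroup (State Ω S → R))

noncomputable instance (i : Idx Ω) : Module ℂ (Vec V S i) :=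
  inferInstanceAs (Module ℂ (State Ω S → R))

variable (V S) in
/-- The inner product: the mean trace. -/
@[reducible] noncomputable def vecCore (i : Idx Ω) :
    PreInnerProductSpace.Core ℂ (Vec V S i) where
  inner x y := mean i fun s => V.τ (star (x s) * y s)
  conj_inner_symm x y := by
    change Complex.conjAe.toLinearMap (mean i fun s => V.τ (star (y s) * x s)) = _
    rw [mean, map_run]
    refine run_congr _ _ fun s => ?_
    change (starRingEnd ℂ) (V.τ (star (y s) * x s)) = _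
    rw [← Env.τ_star, star_mul, star_star]
  re_inner_nonneg x := by
    change 0 ≤ Complex.reLm (mean i fun s => V.τ (star (x s) * x s))
    rw [mean, map_run]
    exact run_nonneg i.pos.le i.le_one _ _ fun s => V.sq_nonneg (x s)
  add_left x y z := by
    change mean i (fun s => V.τ (star (x s + y s) * z s)) = _
    rw [mean, mean, mean, ← run_add]
    exact run_congr _ _ fun s => by rw [star_add, add_mul, V.τ_add]
  smul_left x y r := by
    change mean i (fun s => V.τ (star (r • x s) * y s)) =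
      LinearMap.mulLeft ℝ ((starRingEnd ℂ) r) (mean i fun s => V.τ (star (x s) * y s))
    rw [mean, mean, map_run]
    exact run_congr _ _ fun s => by rw [star_smul, smul_mul_assoc, Env.τ_smul]; rfl

noncomputable instance (i : Idx Ω) : SeminormedAddCommGroup (Vec V S i) :=
  @InnerProductSpace.Core.toSeminormedAddCommGroup ℂ (Vec V S i) _ _ _ (vecCore V S i)

noncomputable instance (i : Idx Ω) : InnerProductSpace ℂ (Vec V S i) :=
  InnerProductSpace.ofCore (vecCore V S i)

omit [Nonempty S] in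
theorem vec_inner (i : Idx Ω) (x y : Vec V S i) :
    ⟪x, y⟫_ℂ = mean i fun s => V.τ (star (x s) * y s) := rfl

omit [Nonempty S] in
theorem vec_norm_sq (i : Idx Ω) (x : Vec V S i) :
    ‖x‖ ^ 2 = mean i fun s => V.sq (x s) := by
  have h : (⟪x, x⟫_ℂ).re = ‖x‖ ^ 2 := inner_self_eq_norm_sq (𝕜 := ℂ) x
  rw [← h, vec_inner]
  change Complex.reLm _ = _
  rw [mean, map_run]
  rfl

variable (V S) in
/-- A function of the state as a vector. -/
def toVec (i : Idx Ω) : (State Ω S → R) →ₗ[ℂ] Vec V S i := LinearMap.id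

omit [Nonempty S] in
theorem toVec_norm_le (i : Idx Ω) {f g : State Ω S → R} {C : ℝ} (hC : 0 ≤ C)
    (h : ∀ s, V.sq (f s) ≤ C ^ 2 * V.sq (g s)) : ‖toVec V S i f‖ ≤ C * ‖toVec V S i g‖ := by
  refine le_of_pow_le_pow_left₀ two_ne_zero (by positivity) ?_
  rw [mul_pow, vec_norm_sq, vec_norm_sq, ← smul_eq_mul]
  refine (run_mono i.pos.le i.le_one _ _ h).trans (le_of_eq ?_)
  exact run_smul _ _ _ _

theorem norm_toVec_one (i : Idx Ω) : ‖toVec V S i 1‖ = 1 := by
  have h : ‖toVec V S i 1‖ ^ 2 = 1 := by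
    rw [vec_norm_sq]
    change mean i (fun _ => V.sq 1) = 1
    rw [mean, run_const, Env.sq, star_one, one_mul, ← map_one V.ι, V.τ_ι, V.μ_one,
      Complex.one_re]
  rw [← abs_norm]
  exact (abs_eq_abs.2 (Or.inl rfl)).trans (by
    rw [abs_norm]; nlinarith [norm_nonneg (toVec V S i 1)])

variable (V) in
/-- Bounded by `C` on both sides, uniformly in the state. -/
def FBdd (f : State Ω S → R) (C : ℝ) : Prop := ∀ s, V.Bdd (f s) C ∧ V.Bdd (star (f s)) C

variable (V) in
/-- Uniformly bounded, with uniformly almost bounded right multiplication. -/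
def UBdd (f : State Ω S → R) : Prop :=
  (∃ C : ℝ, FBdd V f C) ∧ V.RBdd (Set.range f ∪ Set.range (star f))

variable (V) in
/-- Bounded and negligible in both mean 2-norms. -/
def Small (f : State Ω S → R) : Prop :=
  (∃ C : ℝ, FBdd V f C) ∧ Tendsto (fun i => ‖toVec V S i f‖) (seedFilter Ω) (𝓝 0) ∧
    Tendsto (fun i => ‖toVec V S i (star f)‖) (seedFilter Ω) (𝓝 0)

omit [Fintype S] [Nonempty S] in
theorem FBdd.add {f g : State Ω S → R} {C D : ℝ} (hf : FBdd V f C) (hg : FBdd V g D) :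
    FBdd V (f + g) (C + D) := fun s =>
  ⟨(hf s).1.add (hg s).1, by rw [Pi.add_apply, star_add]; exact (hf s).2.add (hg s).2⟩

omit [Fintype S] [Nonempty S] in
theorem FBdd.mul {f g : State Ω S → R} {C D : ℝ} (hf : FBdd V f C) (hg : FBdd V g D) :
    FBdd V (f * g) (C * D) := fun s =>
  ⟨(hf s).1.mul (hg s).1, by
    rw [Pi.mul_apply, star_mul, mul_comm]; exact (hg s).2.mul (hf s).2⟩

omit [Fintype S] [Nonempty S] in
theorem FBdd.smul {f : State Ω S → R} {C : ℝ} (hf : FBdd V f C) (c : ℂ) :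
    FBdd V (c • f) (‖c‖ * C) := fun s =>
  ⟨(hf s).1.smul c, by
    rw [Pi.smul_apply, star_smul, ← norm_star c]; exact (hf s).2.smul (star c)⟩

omit [Fintype S] [Nonempty S] in
theorem FBdd.star {f : State Ω S → R} {C : ℝ} (hf : FBdd V f C) :
    FBdd V (Star.star f) C := fun s =>
  ⟨(hf s).2, by rw [Pi.star_apply, star_star]; exact (hf s).1⟩

omit [Nonempty S] [Fintype S] in
theorem ubdd_const (x : R) : UBdd V (fun _ : State Ω S => x) := by
  obtain ⟨C, hC⟩ := V.exists_bdd x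
  obtain ⟨D, hD⟩ := V.exists_bdd (star x)
  refine ⟨⟨max C D, fun s => ⟨hC.mono (le_max_left _ _), hD.mono (le_max_right _ _)⟩⟩,
    ((V.rbdd_singleton x).union (V.rbdd_singleton (star x))).mono ?_⟩
  rintro _ (⟨s, rfl⟩ | ⟨s, rfl⟩)
  · exact Or.inl rfl
  · exact Or.inr rfl

omit [Nonempty S] [Fintype S] in
theorem UBdd.mul {f g : State Ω S → R} (hf : UBdd V f) (hg : UBdd V g) : UBdd V (f * g) := by
  obtain ⟨⟨C, hC⟩, hr⟩ := hf
  obtain ⟨⟨D, hD⟩, hr'⟩ := hg
  have hCb : ∀ x ∈ Set.range f ∪ Set.range (star f), V.Bdd x C := by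
    rintro _ (⟨s, rfl⟩ | ⟨s, rfl⟩)
    exacts [(hC s).1, (hC s).2]
  have hDb : ∀ x ∈ Set.range g ∪ Set.range (star g), V.Bdd x D := by
    rintro _ (⟨s, rfl⟩ | ⟨s, rfl⟩)
    exacts [(hD s).1, (hD s).2]
  refine ⟨⟨C * D, hC.mul hD⟩, ((hr.mul hCb hr').union (hr'.mul hDb hr)).mono ?_⟩
  rintro _ (⟨s, rfl⟩ | ⟨s, rfl⟩)
  · exact Or.inl ⟨f s, Or.inl ⟨s, rfl⟩, g s, Or.inl ⟨s, rfl⟩, rfl⟩
  · exact Or.inr ⟨_, Or.inr ⟨s, rfl⟩, _, Or.inr ⟨s, rfl⟩, star_mul (f s) (g s)⟩

omit [Nonempty S] [Fintype S] in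
theorem UBdd.add {f g : State Ω S → R} (hf : UBdd V f) (hg : UBdd V g) : UBdd V (f + g) := by
  obtain ⟨⟨C, hC⟩, hr⟩ := hf
  obtain ⟨⟨D, hD⟩, hr'⟩ := hg
  refine ⟨⟨C + D, hC.add hD⟩, (hr.add hr').mono ?_⟩
  rintro _ (⟨s, rfl⟩ | ⟨s, rfl⟩)
  · exact ⟨f s, Or.inl ⟨s, rfl⟩, g s, Or.inl ⟨s, rfl⟩, rfl⟩
  · exact ⟨_, Or.inr ⟨s, rfl⟩, _, Or.inr ⟨s, rfl⟩, star_add (f s) (g s)⟩

omit [Nonempty S] [Fintype S] in
theorem UBdd.smul {f : State Ω S → R} (hf : UBdd V f) (c : ℂ) : UBdd V (c • f) := by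
  obtain ⟨⟨C, hC⟩, hr⟩ := hf
  refine ⟨⟨_, hC.smul c⟩, (hr.smul (norm_nonneg c)).mono ?_⟩
  rintro _ (⟨s, rfl⟩ | ⟨s, rfl⟩)
  · exact ⟨c, le_rfl, f s, Or.inl ⟨s, rfl⟩, rfl⟩
  · exact ⟨star c, (norm_star c).le, _, Or.inr ⟨s, rfl⟩, star_smul c (f s)⟩

omit [Nonempty S] [Fintype S] in
theorem UBdd.sub {f g : State Ω S → R} (hf : UBdd V f) (hg : UBdd V g) : UBdd V (f - g) := by
  simpa [sub_eq_add_neg] using hf.add (hg.smul (-1))

omit [Nonempty S] [Fintype S] in
theorem UBdd.star {f : State Ω S → R} (hf : UBdd V f) : UBdd V (Star.star f) := by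
  obtain ⟨⟨C, hC⟩, hr⟩ := hf
  exact ⟨⟨C, hC.star⟩, hr.mono (by rw [star_star, Set.union_comm])⟩

omit [Nonempty S] in
theorem Small.add {f g : State Ω S → R} (hf : Small V f) (hg : Small V g) : Small V (f + g) := by
  obtain ⟨⟨C, hC⟩, hf1, hf2⟩ := hf
  obtain ⟨⟨D, hD⟩, hg1, hg2⟩ := hg
  refine ⟨⟨_, hC.add hD⟩, squeeze_zero (fun _ => norm_nonneg _)
    (g := fun i => ‖toVec V S i f‖ + ‖toVec V S i g‖)
    (fun i => by rw [map_add]; exact norm_add_le _ _) (by simpa using Tendsto.add hf1 hg1), ?_⟩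
  rw [star_add]
  exact squeeze_zero (fun _ => norm_nonneg _)
    (g := fun i => ‖toVec V S i (Star.star f)‖ + ‖toVec V S i (Star.star g)‖)
    (fun i => by rw [map_add]; exact norm_add_le _ _) (by simpa using Tendsto.add hf2 hg2)

omit [Nonempty S] in
theorem small_zero : Small V (0 : State Ω S → R) :=
  ⟨⟨0, fun s => ⟨⟨le_rfl, fun y ω => by simp⟩, ⟨le_rfl, fun y ω => by simp⟩⟩⟩,
    by simpa using tendsto_const_nhds, by simpa using tendsto_const_nhds⟩

omit [Nonempty S] in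
theorem Small.smul {f : State Ω S → R} (hf : Small V f) (c : ℂ) : Small V (c • f) := by
  obtain ⟨⟨C, hC⟩, hf1, hf2⟩ := hf
  exact ⟨⟨_, hC.smul c⟩, by simpa [norm_smul] using Tendsto.const_mul ‖c‖ hf1,
    by simpa [star_smul, norm_smul] using Tendsto.const_mul ‖c‖ hf2⟩

omit [Nonempty S] in
theorem tendsto_mul_left {f g : State Ω S → R} {C : ℝ} (hf : FBdd V f C)
    (hg : Tendsto (fun i => ‖toVec V S i g‖) (seedFilter Ω) (𝓝 0)) :
    Tendsto (fun i => ‖toVec V S i (f * g)‖) (seedFilter Ω) (𝓝 0) := by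
  refine squeeze_zero (fun _ => norm_nonneg _)
    (fun i => toVec_norm_le i (abs_nonneg C) fun s => ?_) (by simpa using Tendsto.const_mul |C| hg)
  rw [sq_abs]
  exact V.sq_mul_le (hf s).1 (g s)

theorem tendsto_mul_right {f g : State Ω S → R} {D : ℝ} (hf : FBdd V f D)
    (hg : UBdd V g) (h : Tendsto (fun i => ‖toVec V S i f‖) (seedFilter Ω) (𝓝 0)) :
    Tendsto (fun i => ‖toVec V S i (f * g)‖) (seedFilter Ω) (𝓝 0) := by
  have hD : 0 ≤ D := (hf (Vale.Agent.P078.All.State.empty Ω S)).1.1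
  have hb : ∀ ε : ℝ, 0 < ε → ∃ K : ℝ, 0 ≤ K ∧ ∀ i,
      ‖toVec V S i (f * g)‖ ^ 2 ≤ 2 * K ^ 2 * ‖toVec V S i f‖ ^ 2 + 2 * (ε * D) ^ 2 := by
    intro ε hε
    obtain ⟨K, hK, hK'⟩ := hg.2 ε hε
    refine ⟨K, hK, fun i => ?_⟩
    rw [vec_norm_sq, vec_norm_sq]
    refine (run_mono i.pos.le i.le_one _ _ (g := fun s => (2 * K ^ 2) • V.sq (f s) +
      2 * (ε * D) ^ 2) fun s => ?_).trans (le_of_eq ?_)
    · have h1 := hK' (g s) (Or.inl ⟨s, rfl⟩) (f s) D (hf s).1
      have h2 := pow_le_pow_left₀ (Real.sqrt_nonneg _) h1 2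
      rw [Real.sq_sqrt (V.sq_nonneg _)] at h2
      change V.sq (f s * g s) ≤ _
      rw [smul_eq_mul]
      refine h2.trans ?_
      nlinarith [Real.sq_sqrt (V.sq_nonneg (f s)),
        sq_nonneg (K * Real.sqrt (V.sq (f s)) - ε * D)]
    · rw [run_add, run_smul, run_const, smul_eq_mul]
      rfl
  refine Metric.tendsto_nhds.2 fun δ hδ => ?_
  obtain ⟨K, hK, hK'⟩ := hb (δ / (2 * (D + 1))) (by positivity)
  have ht : Tendsto (fun i => 2 * K ^ 2 * ‖toVec V S i f‖ ^ 2) (seedFilter Ω) (𝓝 0) := by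
    simpa using (h.pow 2).const_mul (2 * K ^ 2)
  filter_upwards [ht.eventually_lt_const (show (0 : ℝ) < δ ^ 2 / 2 by positivity)] with i hi
  rw [Real.dist_eq, sub_zero, abs_norm]
  have h3 : δ / (2 * (D + 1)) * D ≤ δ / 2 := by
    rw [div_mul_eq_mul_div, div_le_div_iff₀ (by positivity) two_pos]
    nlinarith
  have h4 := pow_le_pow_left₀ (mul_nonneg (by positivity) hD) h3 2
  exact lt_of_pow_lt_pow_left₀ 2 hδ.le ((hK' i).trans_lt (by nlinarith))

theorem Small.mul_left {f g : State Ω S → R} (hf : UBdd V f) (hg : Small V g) :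
    Small V (f * g) := by
  obtain ⟨⟨C, hC⟩, -⟩ := id hf
  obtain ⟨⟨D, hD⟩, hg1, hg2⟩ := hg
  refine ⟨⟨_, hC.mul hD⟩, tendsto_mul_left hC hg1, ?_⟩
  rw [star_mul]
  exact tendsto_mul_right hD.star hf.star hg2

theorem Small.mul_right {f g : State Ω S → R} (hf : Small V f) (hg : UBdd V g) :
    Small V (f * g) := by
  obtain ⟨⟨D, hD⟩, hf1, hf2⟩ := hf
  obtain ⟨⟨C, hC⟩, -⟩ := id hg
  refine ⟨⟨_, hD.mul hC⟩, tendsto_mul_right hD hg hf1, ?_⟩
  rw [star_mul]
  exact tendsto_mul_left hC.star hf2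

omit [Nonempty S] in
theorem Small.star {f : State Ω S → R} (hf : Small V f) : Small V (Star.star f) := by
  obtain ⟨⟨C, hC⟩, hf1, hf2⟩ := hf
  exact ⟨⟨C, hC.star⟩, hf2, by rwa [star_star]⟩

/-- A negligible family has negligible mean state. -/
theorem Small.mean_trace {f : State Ω S → R} (hf : Small V f) :
    Tendsto (fun i => mean i fun s => V.τ (f s)) (seedFilter Ω) (𝓝 0) := by
  refine squeeze_zero_norm (fun i => ?_) hf.2.1
  have h := norm_inner_le_norm (𝕜 := ℂ) (toVec V S i 1) (toVec V S i f)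
  rw [norm_toVec_one, one_mul, vec_inner] at h
  refine le_of_eq_of_le ?_ h
  refine congrArg norm (congrArg (mean i) (funext fun s => ?_))
  change _ = V.τ (Star.star (1 : R) * f s)
  rw [star_one, one_mul]

/-- The undecided mass at finitely many translates, as a function on `Ω`. -/
noncomputable def undecidedSum {K : ℕ} (g : Fin K → V.Mover) (s : State Ω S) : C(Ω, ℂ) :=
  ∑ j, (⟨fun ω => (undecided s ((g j).T ω) : ℂ),
      ((s.isLocallyConstant.comp_continuous (g j).T.continuous).comp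
        fun o : Option S => (((if o.isNone then 1 else 0 : ℝ)) : ℂ)).continuous⟩ : C(Ω, ℂ))

omit [Fintype S] [Nonempty S] in
theorem undecidedSum_apply {K : ℕ} (g : Fin K → V.Mover) (s : State Ω S) (ω : Ω) :
    undecidedSum g s ω = ((∑ j, undecided s ((g j).T ω) : ℝ) : ℂ) := by
  simp [undecidedSum, ContinuousMap.coe_sum, Finset.sum_apply]
  rfl

/-- A bound by the undecided mass at finitely many translates makes a family negligible. -/
theorem tendsto_of_undecided {d : State Ω S → C(Ω, ℂ)} {K : ℕ} (g : Fin K → V.Mover) {C : ℝ}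
    (hd : ∀ s ω, ‖d s ω‖ ^ 2 ≤ C * ∑ j, undecided s ((g j).T ω)) :
    Tendsto (fun i => ‖toVec V S i fun s => V.ι (d s)‖) (seedFilter Ω) (𝓝 0) := by
  have hC : ∀ i : Idx Ω, i.Ps.length = ⌈i.T / i.θ⌉₊ →
      ‖toVec V S i fun s => V.ι (d s)‖ ^ 2 ≤ |C| * (K * Real.exp (-i.T)) := by
    intro i hl
    rw [vec_norm_sq]
    let D : State Ω S → C(Ω, ℂ) := undecidedSum g
    let φ : C(Ω, ℂ) →ₗ[ℝ] ℝ := Complex.reLm.comp (V.μ.restrictScalars ℝ)
    have hφ : ∀ a b : C(Ω, ℂ), (∀ ω, a ω ≤ b ω) → φ a ≤ φ b := by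
      intro a b h
      have := (Complex.nonneg_iff.1 (V.μ_nonneg (b - a) fun ω => by
        simpa using h ω)).1
      rw [map_sub, Complex.sub_re] at this
      exact sub_nonneg.1 this
    have h1 : ∀ s, V.sq (V.ι (d s)) ≤ φ (|C| • D s) := by
      intro s
      rw [Env.sq, ← map_star, ← map_mul, V.τ_ι]
      refine hφ _ _ fun ω => ?_
      have h := (hd s ω).trans (mul_le_mul_of_nonneg_right (le_abs_self C)
        (Finset.sum_nonneg fun j _ => by unfold undecided; split <;> norm_num))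
      simp only [ContinuousMap.mul_apply, ContinuousMap.star_apply, RCLike.star_def,
        Complex.conj_mul', D, ContinuousMap.smul_apply, undecidedSum_apply, Complex.real_smul,
        ← Complex.ofReal_mul, ← Complex.ofReal_pow]
      exact Complex.real_le_real.2 h
    refine (run_mono i.pos.le i.le_one _ _ h1).trans ?_
    rw [← map_run φ, run_smul, map_smul, smul_eq_mul]
    refine mul_le_mul_of_nonneg_left ?_ (abs_nonneg C)
    refine (hφ _ (((K * Real.exp (-i.T) : ℝ) : ℂ) • 1) fun ω => ?_).trans (le_of_eq ?_)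
    · let ev : C(Ω, ℂ) →ₗ[ℝ] ℂ :=
        { toFun := fun f => f ω, map_add' := fun _ _ => rfl, map_smul' := fun _ _ => rfl }
      change ev (run i.θ i.Ps D (State.empty Ω S)) ≤ _
      rw [map_run ev]
      have h2 : ∀ s, ev (D s) = Complex.ofRealLI.toLinearMap (∑ j, undecided s ((g j).T ω)) := by
        intro s
        exact undecidedSum_apply g s ω
      rw [run_congr _ _ h2, ← map_run]
      simp only [ContinuousMap.smul_apply, ContinuousMap.one_apply, smul_eq_mul, mul_one]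
      refine Complex.real_le_real.2 ?_
      have h3 : run i.θ i.Ps (fun s => ∑ j, undecided s ((g j).T ω)) (State.empty Ω S) =
          ∑ j, run i.θ i.Ps (fun s => undecided s ((g j).T ω)) (State.empty Ω S) := by
        induction (Finset.univ : Finset (Fin K)) using Finset.induction with
        | empty => simpa using run_const (0 : ℝ) i.Ps (State.empty Ω S)
        | insert j t hj ih => simp only [Finset.sum_insert hj, run_add, ih]
      rw [h3, Algebra.algebraMap_self, RingHom.id_apply]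
      refine ((Finset.sum_le_sum fun j _ => run_undecided_le (S := S) i.pos i.le_one i.Ps hl _).trans
        (le_of_eq ?_) :)
      simp
    · simp only [φ, LinearMap.comp_apply, LinearMap.restrictScalars_apply, map_smul, V.μ_one,
        smul_eq_mul, mul_one, Complex.reLm_coe, Complex.ofReal_re]
  have hlim : Tendsto (fun i : Idx Ω => Real.sqrt (|C| * (K * Real.exp (-i.T)))) (seedFilter Ω)
      (𝓝 0) := by
    simpa using ((tendsto_exp_mass.const_mul (K : ℝ)).const_mul |C|).sqrt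
  refine squeeze_zero' (Eventually.of_forall fun _ => norm_nonneg _) ?_ hlim
  filter_upwards [eventually_length] with i hl
  exact Real.le_sqrt_of_sq_le (hC i hl)

theorem small_of_undecided {d : State Ω S → C(Ω, ℂ)} {K : ℕ} (g : Fin K → V.Mover) {C : ℝ}
    (hd : ∀ s ω, ‖d s ω‖ ^ 2 ≤ C * ∑ j, undecided s ((g j).T ω)) :
    Small V fun s => V.ι (d s) := by
  have hb : ∀ s ω, ‖d s ω‖ ≤ Real.sqrt (|C| * K) := fun s ω => by
    refine Real.le_sqrt_of_sq_le ((hd s ω).trans ?_)
    have h0 : ∀ j, 0 ≤ undecided s ((g j).T ω) ∧ undecided s ((g j).T ω) ≤ 1 := fun j => by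
      unfold Vale.Agent.P078.All.undecided; split <;> norm_num
    refine mul_le_mul (le_abs_self C) ?_ (Finset.sum_nonneg fun j _ => (h0 j).1) (abs_nonneg C)
    exact (Finset.sum_le_sum fun j _ => (h0 j).2).trans (by simp)
  refine ⟨⟨_, fun s => ⟨V.bdd_ι (Real.sqrt_nonneg _) (hb s), ?_⟩⟩, tendsto_of_undecided g hd, ?_⟩
  · rw [V.star_ι]
    exact V.bdd_ι (Real.sqrt_nonneg _) fun ω => by simpa using hb s ω
  · have e : star (fun s : State Ω S => V.ι (d s)) = fun s => V.ι (star (d s)) :=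
      funext fun s => V.star_ι (d s)
    rw [e]
    exact tendsto_of_undecided g fun s ω => by simpa using hd s ω

end Vale.Agent.P078.Any.St
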