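import Vale.Agent.P078.Any.St.LocalPoly
import Vale.Agent.P078.Any.St.SeedSpace

/-!
The letters of the compression argument: centred seed polynomials times normalisers, the words in
them, and the negligible traces of these words.
-/

namespace Vale.Agent.P078.Any.St

open Filter Topology
open scoped ComplexOrder
open Vale.Agent.P078.All (State Ev run undecided run_undecided_le run_mono run_nonneg run_add
  run_const run_smul run_congr map_run Idx seedFilter mean eventually_length eventually_mass
  tendsto_exp_mass)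

variable {Ω : Type} [TopologicalSpace Ω] [CompactSpace Ω] [T2Space Ω] [TotallyDisconnectedSpace Ω]
  {R : Type} [Ring R] [StarRing R] [Algebra ℂ R] [StarModule ℂ R]
  {V : Env R Ω} {S : Type} [Fintype S]

namespace Mono

/-- A monomial with its coefficient multiplied by a function. -/
noncomputable def scale (q : Mono V S) (a : C(Ω, ℂ)) : Mono V S :=
  { q with
    coef := a * q.coef
    coef_off := fun ω h => by simp [q.coef_off ω h] }

theorem scale_val (q : Mono V S) (a : C(Ω, ℂ)) (s : State Ω S) :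
    (q.scale a).val s = a * q.val s := by
  ext ω
  simp only [Mono.val_apply, ContinuousMap.mul_apply, scale]
  ring

/-- The conjugate monomial. -/
noncomputable def conj (q : Mono V S) : Mono V S :=
  { q with
    site := fun j => ⟨(q.site j).g, fun σ => star ((q.site j).h σ), by
      rw [← star_sum, (q.site j).sum_h, star_zero]⟩
    coef := star q.coef
    coef_off := fun ω h => by simp [q.coef_off ω h] }

theorem conj_val (q : Mono V S) (s : State Ω S) : q.conj.val s = star (q.val s) := by
  ext ω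
  simp only [Mono.val_apply, conj, ContinuousMap.star_apply, star_mul', star_prod]
  congr 1
  refine Finset.prod_congr rfl fun j _ => ?_
  cases s ((q.site j).g.T ω) <;> simp

/-- A monomial moved by a normaliser. -/
noncomputable def translate (q : Mono V S) (h : V.Mover) : Mono V S where
  m := q.m
  site j := ⟨h.mul (q.site j).g, (q.site j).h, (q.site j).sum_h⟩
  coef := q.coef.comp (h.T : C(Ω, Ω))
  supp := ⟨fun ω => q.supp (h.T ω), q.supp.isLocallyConstant.comp_continuous h.T.continuous⟩
  coef_off ω hω := q.coef_off (h.T ω) hω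
  distinct j k hjk ω hω := q.distinct j k hjk (h.T ω) hω

theorem translate_val (q : Mono V S) (h : V.Mover) (s : State Ω S) :
    (q.translate h).val s = (q.val s).comp (h.T : C(Ω, Ω)) := by
  ext ω
  rw [Mono.val_apply, ContinuousMap.comp_apply, Mono.val_apply]
  rfl

theorem norm_val_le (q : Mono V S) (s : State Ω S) (ω : Ω) :
    ‖q.val s ω‖ ≤ ‖q.coef‖ * ∏ j, ∑ σ, ‖(q.site j).h σ‖ := by
  rw [Mono.val_apply, norm_mul, norm_prod]
  refine mul_le_mul (q.coef.norm_coe_le_norm ω) ?_
    (Finset.prod_nonneg fun j _ => norm_nonneg _) (norm_nonneg _)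
  refine Finset.prod_le_prod (fun j _ => norm_nonneg _) fun j _ => ?_
  cases s ((q.site j).g.T ω) with
  | none => simpa using Finset.sum_nonneg fun σ _ => norm_nonneg ((q.site j).h σ)
  | some σ =>
    exact Finset.single_le_sum (f := fun σ => ‖(q.site j).h σ‖) (fun σ _ => norm_nonneg _)
      (Finset.mem_univ σ)

end Mono

omit [Fintype S] in
/-- A family of functions with a uniform bound is uniformly bounded. -/
theorem ubdd_ι {d : State Ω S → C(Ω, ℂ)} {K : ℝ} (hK : 0 ≤ K) (h : ∀ s ω, ‖d s ω‖ ≤ K) :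
    UBdd V fun s => V.ι (d s) := by
  refine ⟨⟨K, fun s => ⟨V.bdd_ι hK (h s), ?_⟩⟩, (V.rbdd_ι hK).mono ?_⟩
  · rw [V.star_ι]
    exact V.bdd_ι hK fun ω => by simpa using h s ω
  · rintro _ (⟨s, rfl⟩ | ⟨s, rfl⟩)
    · exact ⟨d s, h s, rfl⟩
    · exact ⟨star (d s), fun ω => by simpa using h s ω, V.star_ι (d s)⟩

theorem valSpan_bound {P : State Ω S → C(Ω, ℂ)} (hP : P ∈ valSpan V S) :
    ∃ K : ℝ, 0 ≤ K ∧ ∀ s ω, ‖P s ω‖ ≤ K := by
  induction hP using Submodule.span_induction with
  | mem x hx =>
    obtain ⟨q, rfl⟩ := hx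
    exact ⟨_, mul_nonneg (norm_nonneg _) (Finset.prod_nonneg fun j _ =>
      Finset.sum_nonneg fun σ _ => norm_nonneg _), fun s ω => q.norm_val_le s ω⟩
  | zero => exact ⟨0, le_rfl, fun s ω => by simp⟩
  | add x y _ _ hx hy =>
    obtain ⟨K, hK, h⟩ := hx
    obtain ⟨L, hL, h'⟩ := hy
    exact ⟨K + L, add_nonneg hK hL, fun s ω =>
      (norm_add_le _ _).trans (add_le_add (h s ω) (h' s ω))⟩
  | smul c x _ hx =>
    obtain ⟨K, hK, h⟩ := hx
    exact ⟨‖c‖ * K, mul_nonneg (norm_nonneg c) hK, fun s ω => by
      simpa using mul_le_mul_of_nonneg_left (h s ω) (norm_nonneg c)⟩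

variable (V S) in
/-- The letters: values of monomials times normalisers. -/
def qGen : Set (State Ω S → R) :=
  {z | ∃ (q : Mono V S) (g : V.Mover), z = fun s => q.elem s * g.u}

variable (V S) in
/-- Alternating words in elements orthogonal to the normaliser and the letters. -/
inductive Model : Bool → (State Ω S → R) → Prop
  | b {x : R} : V.OrthNormaliser x → Model true fun _ => x
  | q {z : State Ω S → R} : z ∈ qGen V S → Model false z
  | consb {x : R} {m : State Ω S → R} :
      V.OrthNormaliser x → Model false m → Model true ((fun _ => x) * m)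
  | consq {z m : State Ω S → R} : z ∈ qGen V S → Model true m → Model false (z * m)

variable (V S) in
/-- The part of a word from its first seed letter on. -/
def IsTail (m : State Ω S → R) : Prop :=
  ∃ w : Word V S, w.v = 1 ∧ ∀ s, m s = w.val s

theorem model_shape {t : Bool} {m : State Ω S → R} (h : Model V S t m) :
    (t = false → IsTail V S m) ∧ (t = true → ∃ x : R, V.OrthNormaliser x ∧
      ((∀ s, m s = x) ∨ ∃ m', IsTail V S m' ∧ ∀ s, m s = x * m' s)) := by
  induction h with
  | @b x hx => exact ⟨nofun, fun _ => ⟨x, hx, Or.inl fun _ => rfl⟩⟩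
  | @q z hz =>
    obtain ⟨q, g, rfl⟩ := hz
    exact ⟨fun _ => ⟨⟨0, fun _ => q, Fin.elim0, fun i => i.elim0, 1, g.u⟩, rfl, fun s => by
      simp [Word.val]⟩, nofun⟩
  | @consb x m hx _ ih => exact ⟨nofun, fun _ => ⟨x, hx, Or.inr ⟨m, ih.1 rfl, fun _ => rfl⟩⟩⟩
  | @consq z m hz _ ih =>
    refine ⟨fun _ => ?_, nofun⟩
    obtain ⟨q, g, rfl⟩ := hz
    obtain ⟨x, hx, h | ⟨m', ⟨w, hv, hw⟩, h⟩⟩ := ih.2 rfl
    · exact ⟨⟨0, fun _ => q, Fin.elim0, fun i => i.elim0, 1, g.u * x⟩, rfl, fun s => by
        simp [Word.val, h, mul_assoc]⟩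
    · have hgx : V.OrthNormaliser (g.u * x) := by
        simpa using hx.nsum_mul (Env.isNSum_mover 1 g)
      refine ⟨⟨w.n + 1, Fin.cons q w.q, Fin.cons (g.u * x) w.b, Fin.cases hgx w.orth, 1, w.v'⟩,
        rfl, fun s => ?_⟩
      simp only [Pi.mul_apply, h, hw, Word.val, hv, one_mul, List.ofFn_succ, List.prod_cons,
        Fin.cons_zero, Fin.cons_succ, mul_assoc]

variable [Nonempty S]

omit [CompactSpace Ω] [T2Space Ω] [TotallyDisconnectedSpace Ω] [Nonempty S] in
theorem mean_smul (i : Idx Ω) (c : ℂ) (f : State Ω S → ℂ) :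
    mean i (fun s => c * f s) = c * mean i f :=
  (map_run (LinearMap.mulLeft ℝ c) i.Ps f (State.empty Ω S)).symm

theorem model_trace (hF : FreeStatement V) {t : Bool} {m : State Ω S → R} (h : Model V S t m) :
    Tendsto (fun i => mean i fun s => V.τ (m s)) (seedFilter Ω) (𝓝 0) := by
  have hword : ∀ w : Word V S,
      Tendsto (fun i => mean i fun s => V.τ (w.val s)) (seedFilter Ω) (𝓝 0) := by
    intro w
    rw [Metric.tendsto_nhds]
    intro η hη
    refine ⟨1, one_pos, fun T hT => ?_⟩
    obtain ⟨θ₀, hθ₀, hθ⟩ := hF S w T (η / 2) (zero_lt_one.trans_le hT) (half_pos hη)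
    refine ⟨θ₀, hθ₀, fun θ hp hlt h1 => (hθ θ hp hlt h1).mono fun Ps _ hP => ?_⟩
    change dist _ _ < η
    rw [dist_zero_right]
    exact hP.trans_lt (half_lt_self hη)
  cases t with
  | false =>
    obtain ⟨w, -, hw⟩ := (model_shape h).1 rfl
    simpa only [hw] using hword w
  | true =>
    obtain ⟨x, hx, hm | ⟨m', ⟨w, hv, hw⟩, hm⟩⟩ := (model_shape h).2 rfl
    · refine tendsto_const_nhds.congr fun i => ?_
      rw [mean, run_congr _ _ fun s => by rw [hm, hx.τ_eq_zero], run_const]
    · refine (hword { w with v := x }).congr fun i => ?_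
      refine run_congr _ _ fun s => ?_
      rw [hm, hw]
      simp only [Word.val, hv, one_mul, mul_assoc]

variable (V S) in
/-- A word up to a negligible family. -/
def Near (t : Bool) (f : State Ω S → R) : Prop :=
  UBdd V f ∧ ∃ z ∈ Submodule.span ℂ {m | Model V S t m}, Small V (f - z)

theorem Near.trace (hF : FreeStatement V) {t : Bool} {f : State Ω S → R} (hf : Near V S t f) :
    Tendsto (fun i => mean i fun s => V.τ (f s)) (seedFilter Ω) (𝓝 0) := by
  obtain ⟨-, z, hz, hsm⟩ := hf
  have hz0 : Tendsto (fun i => mean i fun s => V.τ (z s)) (seedFilter Ω) (𝓝 0) := by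
    clear hsm
    induction hz using Submodule.span_induction with
    | mem x hx => exact model_trace hF hx
    | zero =>
      refine tendsto_const_nhds.congr fun i => ?_
      rw [mean, run_congr _ _ fun s : State Ω S => show V.τ ((0 : State Ω S → R) s) = 0 by
        simp [Env.τ], run_const]
    | add x y _ _ hx hy =>
      refine (by simpa using hx.add hy : Tendsto _ _ (𝓝 (0 : ℂ))).congr fun i => ?_
      rw [mean, mean, mean, ← run_add]
      exact run_congr _ _ fun s => (V.τ_add _ _).symm
    | smul c x _ hx =>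
      refine (by simpa using hx.const_mul c : Tendsto _ _ (𝓝 (0 : ℂ))).congr fun i => ?_
      rw [← mean_smul]
      exact run_congr _ _ fun s => (Env.τ_smul V c (x s)).symm
  refine (by simpa using hsm.mean_trace.add hz0 : Tendsto _ _ (𝓝 (0 : ℂ))).congr fun i => ?_
  rw [mean, mean, mean, ← run_add]
  exact run_congr _ _ fun s => by rw [← V.τ_add, sub_add_cancel]

omit [Nonempty S] in
theorem qGen_ubdd {z : State Ω S → R} (hz : z ∈ qGen V S) : UBdd V z := by
  obtain ⟨q, g, rfl⟩ := hz
  exact (ubdd_ι (mul_nonneg (norm_nonneg _) (Finset.prod_nonneg fun j _ =>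
    Finset.sum_nonneg fun σ _ => norm_nonneg _)) q.norm_val_le).mul (ubdd_const g.u)

omit [Nonempty S] in
theorem model_ubdd {t : Bool} {m : State Ω S → R} (h : Model V S t m) : UBdd V m := by
  induction h with
  | b _ => exact ubdd_const _
  | q hz => exact qGen_ubdd hz
  | consb _ _ ih => exact (ubdd_const _).mul ih
  | consq hz _ ih => exact (qGen_ubdd hz).mul ih

omit [Fintype S] [Nonempty S] in
theorem span_ubdd {G : Set (State Ω S → R)} (hG : ∀ z ∈ G, UBdd V z) {z : State Ω S → R}
    (hz : z ∈ Submodule.span ℂ G) : UBdd V z := by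
  induction hz using Submodule.span_induction with
  | mem x hx => exact hG x hx
  | zero => exact ubdd_const 0
  | add x y _ _ hx hy => exact hx.add hy
  | smul c x _ hx => exact hx.smul c

variable (V S) in
/-- A seed polynomial, centred up to a negligible family. -/
def IsQ (f : State Ω S → R) : Prop :=
  UBdd V f ∧ ∃ z ∈ Submodule.span ℂ (qGen V S), Small V (f - z)

omit [Nonempty S] in
theorem Small.of_eq {f g : State Ω S → R} (hf : Small V f) (h : g = f) : Small V g := h ▸ hf

theorem Near.cons_b {x : R} (hx : V.OrthNormaliser x) {f : State Ω S → R}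
    (hf : Near V S false f) : Near V S true ((fun _ => x) * f) := by
  obtain ⟨hu, z, hz, hsm⟩ := hf
  refine ⟨(ubdd_const x).mul hu, (fun _ => x) * z, ?_,
    (Small.mul_left (ubdd_const x) hsm).of_eq (mul_sub _ _ _).symm⟩
  exact (Submodule.span_le (p := (Submodule.span ℂ {m | Model V S true m}).comap
    (LinearMap.mulLeft ℂ fun _ : State Ω S => x))).2
      (fun m hm => Submodule.subset_span (Model.consb hx hm)) hz

theorem Near.cons_q {g f : State Ω S → R} (hg : IsQ V S g) (hf : Near V S true f) :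
    Near V S false (g * f) := by
  obtain ⟨hgu, z₁, hz₁, h₁⟩ := hg
  obtain ⟨hfu, z, hz, hsm⟩ := hf
  refine ⟨hgu.mul hfu, z₁ * z, ?_, ((h₁.mul_right hfu).add
    (Small.mul_left (span_ubdd (fun w => qGen_ubdd) hz₁) hsm)).of_eq (by
      rw [sub_mul, mul_sub, sub_add_sub_cancel])⟩
  have h := Submodule.mul_mem_mul hz₁ hz
  rw [Submodule.span_mul_span] at h
  refine Submodule.span_mono ?_ h
  rintro _ ⟨a, ha, b, hb, rfl⟩
  exact Model.consq ha hb

omit [Nonempty S] in
theorem near_b {x : R} (hx : V.OrthNormaliser x) : Near V S true fun _ => x :=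
  ⟨ubdd_const x, _, Submodule.subset_span (Model.b hx), small_zero.of_eq (sub_self _)⟩

omit [Nonempty S] in
theorem near_q {g : State Ω S → R} (hg : IsQ V S g) : Near V S false g := by
  obtain ⟨hu, z, hz, h⟩ := hg
  exact ⟨hu, z, Submodule.span_mono (fun w hw => Model.q hw) hz, h⟩

omit [Nonempty S] in
theorem IsQ.star {f : State Ω S → R} (hf : IsQ V S f) : IsQ V S (Star.star f) := by
  obtain ⟨hu, z, hz, h⟩ := hf
  refine ⟨hu.star, Star.star z, ?_, h.star.of_eq (star_sub _ _).symm⟩
  clear h
  induction hz using Submodule.span_induction with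
  | mem x hx =>
    obtain ⟨q, g, rfl⟩ := hx
    refine Submodule.subset_span ⟨q.conj.translate g.inv, g.inv, ?_⟩
    funext s
    rw [Pi.star_apply]
    change Star.star (V.ι (q.val s) * g.u) = V.ι _ * _
    rw [Env.star_ι_mover, Mono.translate_val, Mono.conj_val]
    rfl
  | zero => simp
  | add x y _ _ hx hy => rw [star_add]; exact add_mem hx hy
  | smul c x _ hx => rw [star_smul]; exact Submodule.smul_mem _ _ hx

theorem IsQ.nsum_mul {m : R} (hm : V.IsNSum m) {f : State Ω S → R} (hf : IsQ V S f) :
    IsQ V S ((fun _ => m) * f) := by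
  obtain ⟨hu, z, hz, h⟩ := hf
  refine ⟨(ubdd_const m).mul hu, (fun _ => m) * z, ?_,
    (Small.mul_left (ubdd_const m) h).of_eq (mul_sub _ _ _).symm⟩
  obtain ⟨N, a, g, rfl⟩ := hm
  refine (Submodule.span_le (p := (Submodule.span ℂ (qGen V S)).comap
    (LinearMap.mulLeft ℂ fun _ : State Ω S => ∑ i, V.ι (a i) * (g i).u))).2 ?_ hz
  rintro _ ⟨q, k, rfl⟩
  have e : ((fun _ : State Ω S => ∑ i, V.ι (a i) * (g i).u) * fun s => q.elem s * k.u) =
      ∑ i, fun s => ((q.translate (g i)).scale (a i)).elem s * ((g i).mul k).u := by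
    funext s
    simp only [Pi.mul_apply, Finset.sum_apply, Finset.sum_mul, Mono.elem, Mono.scale_val,
      Mono.translate_val, Env.ι_mover_mul]
  change _ ∈ Submodule.span ℂ (qGen V S)
  rw [LinearMap.mulLeft_apply, e]
  exact Submodule.sum_mem _ fun i _ => Submodule.subset_span ⟨_, _, rfl⟩

theorem IsQ.mul_nsum {m : R} (hm : V.IsNSum m) {f : State Ω S → R} (hf : IsQ V S f) :
    IsQ V S (f * fun _ => m) := by
  obtain ⟨hu, z, hz, h⟩ := hf
  refine ⟨hu.mul (ubdd_const m), z * (fun _ => m), ?_,
    (Small.mul_right h (ubdd_const m)).of_eq (sub_mul _ _ _).symm⟩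
  obtain ⟨N, a, g, rfl⟩ := hm
  refine (Submodule.span_le (p := (Submodule.span ℂ (qGen V S)).comap
    (LinearMap.mulRight ℂ fun _ : State Ω S => ∑ i, V.ι (a i) * (g i).u))).2 ?_ hz
  rintro _ ⟨q, k, rfl⟩
  have e : ((fun s => q.elem s * k.u) * fun _ : State Ω S => ∑ i, V.ι (a i) * (g i).u) =
      ∑ i, fun s => (q.scale ((a i).comp (k.T : C(Ω, Ω)))).elem s * (k.mul (g i)).u := by
    funext s
    simp only [Pi.mul_apply, Finset.sum_apply, Finset.mul_sum, Mono.elem, Mono.scale_val,
      Env.ι_mover_mul, mul_comm (q.val s)]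
  change _ ∈ Submodule.span ℂ (qGen V S)
  rw [LinearMap.mulRight_apply, e]
  exact Submodule.sum_mem _ fun i _ => Submodule.subset_span ⟨_, _, rfl⟩

omit [Nonempty S] in
/-- Combinations of monomial values, times a normaliser, lie in the span of the letters. -/
theorem valSpan_mover_mem {P : State Ω S → C(Ω, ℂ)} (hP : P ∈ valSpan V S) (g : V.Mover) :
    (fun s => V.ι (P s) * g.u) ∈ Submodule.span ℂ (qGen V S) := by
  induction hP using Submodule.span_induction with
  | mem x hx =>
    obtain ⟨q, rfl⟩ := hx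
    exact Submodule.subset_span ⟨q, g, rfl⟩
  | zero =>
    convert zero_mem (Submodule.span ℂ (qGen V S)) using 1
    funext s
    simp
  | add x y _ _ hx hy =>
    convert add_mem hx hy using 1
    funext s
    simp [add_mul]
  | smul c x _ hx =>
    convert Submodule.smul_mem _ c hx using 1
    funext s
    simp

end Vale.Agent.P078.Any.St
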