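import Vale.Agent.P078.Any.StateAtomless
import Vale.Agent.P078.Any.St.Env
import Vale.Agent.P078.All.OperatorSplit

/-!
The environment of a MASA in the centraliser of a faithful normal state, with the four facts the
abstract part needs: diagonal limit, open fixed sets, split along the normalisers, atomless fibres.
-/

namespace Vale.Agent.P078.Any.St

open scoped InnerProductSpace ComplexOrder
open ContinuousLinearMap Cartan Filter Topology
open Vale.Agent.P078.Any Vale.Agent.P078.Any.IsState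
open Vale.Agent.P078.All hiding State Env

variable {H : Type} [NormedAddCommGroup H] [InnerProductSpace ℂ H] [CompleteSpace H]
variable {M : VonNeumannAlgebra H} {A : StarSubalgebra ℂ (H →L[ℂ] H)} {κ : Type} {η : κ → H}

/-- A contraction of the vectors is a contraction. -/
theorem norm_le_one_of_phi (h : IsState M A η) {z : H →L[ℂ] H} (hz : z ∈ M)
    (hle : ∀ y ∈ M, ‖h.V (z * y)‖ ≤ ‖h.V y‖) : ‖z‖ ≤ 1 := by
  obtain ⟨P, hP⟩ : ∃ P, P = star z * z := ⟨_, rfl⟩
  have hPs : IsSelfAdjoint P := hP ▸ IsSelfAdjoint.star_mul_self z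
  have hPM : P ∈ M := hP ▸ mul_mem (star_mem hz) hz
  obtain ⟨f, hf⟩ : ∃ f : ℝ → ℝ, f = fun t => max (t - 1) 0 := ⟨_, rfl⟩
  have hfc : Continuous f := by rw [hf]; fun_prop
  obtain ⟨g, hg⟩ : ∃ g : ℝ → ℝ, g = fun t => Real.sqrt (f t) := ⟨_, rfl⟩
  have hgc : Continuous g := by rw [hg]; exact Real.continuous_sqrt.comp hfc
  obtain ⟨y, hy⟩ : ∃ y, y = cfc g P := ⟨_, rfl⟩
  obtain ⟨F, hF⟩ : ∃ F, F = cfc f P := ⟨_, rfl⟩
  have hyM : y ∈ M := hy ▸ vn_cfc_mem hPM g
  have hys : IsSelfAdjoint y := hy ▸ cfc_predicate g P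
  have hFs : IsSelfAdjoint F := hF ▸ cfc_predicate f P
  have hid : star (z * y) * (z * y) = star y * y + star F * F := by
    rw [star_mul, mul_assoc, ← mul_assoc (star z) z, ← hP, hys.star_eq, hFs.star_eq, hy, hF]
    conv_lhs => arg 2; arg 1; rw [← cfc_id' ℝ P hPs]
    rw [← cfc_mul _ g P, ← cfc_mul g _ P, ← cfc_mul g g P, ← cfc_mul f f P, ← cfc_add P _ _]
    refine cfc_congr fun t _ => ?_
    have h0 : 0 ≤ f t := by rw [hf]; exact le_max_right _ _
    have h1 : g t * g t = f t := by rw [hg]; exact Real.mul_self_sqrt h0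
    have h2 : t * f t = f t + f t * f t := by
      rw [hf]
      rcases max_cases (t - 1) 0 with ⟨e, -⟩ | ⟨e, -⟩ <;> simp only [e] <;> ring
    calc g t * (t * g t) = t * (g t * g t) := by ring
      _ = _ := by rw [h1, h2]
  have h1 : ‖h.V (z * y)‖ ^ 2 = ‖h.V y‖ ^ 2 + ‖h.V F‖ ^ 2 := by
    have := congrArg h.phi hid
    rw [h.phi_add, h.phi_star_mul, h.phi_star_mul, h.phi_star_mul] at this
    have := congrArg RCLike.re this
    simpa only [map_add, inner_self_eq_norm_sq] using this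
  have h2 : ‖h.V F‖ = 0 := by
    have := pow_le_pow_left₀ (norm_nonneg _) (hle y hyM) 2
    nlinarith [norm_nonneg (h.V F)]
  have h3 : F = 0 := h.eq_of_V (hF ▸ vn_cfc_mem hPM f) (zero_mem M)
    (by rw [map_zero]; exact norm_eq_zero.1 h2)
  have h4 : ‖P‖ ≤ 1 := by
    rw [← cfc_id' ℝ P hPs]
    refine norm_cfc_le zero_le_one fun t ht => ?_
    have h5 := norm_apply_le_norm_cfc f P ht
    rw [← hF, h3, norm_zero, norm_le_zero_iff, hf] at h5
    have h6 : 0 ≤ t := spectrum_nonneg_of_nonneg (hP ▸ star_mul_self_nonneg z) ht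
    rw [Real.norm_eq_abs, abs_of_nonneg h6]
    linarith [le_max_left (t - 1) 0]
  rw [hP, CStarRing.norm_star_mul_self] at h4
  nlinarith [norm_nonneg z]

/-- Right multiplication by a fixed element is continuous on contractions. -/
theorem right_small (h : IsState M A η) (x : H →L[ℂ] H) {ε : ℝ} (hε : 0 < ε) :
    ∃ δ : ℝ, 0 < δ ∧ ∀ z ∈ M, ‖z‖ ≤ 1 → ‖h.V z‖ ^ 2 ≤ δ → ‖h.V (z * x)‖ ^ 2 ≤ ε := by
  classical
  obtain ⟨s, hs⟩ := (h.summable_apply x).vanishing
    (Metric.ball_mem_nhds 0 (half_pos hε))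
  obtain ⟨d, hd⟩ : ∃ d : ℝ, d = Real.sqrt (ε / 2 / (s.card + 1)) := ⟨_, rfl⟩
  have hd0 : 0 < d := hd ▸ Real.sqrt_pos.2 (by positivity)
  obtain ⟨γ, hγ, hsm⟩ := h.strong_small (s.image fun i => x (η i)) hd0
  refine ⟨γ ^ 2, by positivity, fun z hz hz1 hzV => ?_⟩
  have hzV' : ‖h.V z‖ ≤ γ := le_of_pow_le_pow_left₀ two_ne_zero hγ.le hzV
  rw [h.norm_V_sq]
  refine Real.tsum_le_of_sum_le (fun i => sq_nonneg _) fun u => ?_
  have hu := Finset.sum_sdiff (f := fun i => ‖(z * x) (η i)‖ ^ 2)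
    (Finset.inter_subset_left (s₁ := u) (s₂ := s))
  rw [← hu]
  have h1 : ∑ i ∈ u \ (u ∩ s), ‖(z * x) (η i)‖ ^ 2 ≤ ε / 2 := by
    refine le_trans (Finset.sum_le_sum fun i _ => pow_le_pow_left₀ (norm_nonneg _)
      ((z.le_opNorm (x (η i))).trans (mul_le_of_le_one_left (norm_nonneg _) hz1)) 2) ?_
    have := hs (u \ (u ∩ s)) (by
      simp only [Finset.disjoint_left, Finset.mem_sdiff, Finset.mem_inter]
      tauto)
    rw [Metric.mem_ball, dist_zero_right, Real.norm_eq_abs] at this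
    exact (le_abs_self _).trans this.le
  have h2 : ∑ i ∈ u ∩ s, ‖(z * x) (η i)‖ ^ 2 ≤ ε / 2 := by
    refine (Finset.sum_le_card_nsmul _ _ (d ^ 2) fun i hi => ?_).trans ?_
    · exact pow_le_pow_left₀ (norm_nonneg _) (hsm z hz hz1 hzV' _
        (Finset.mem_image_of_mem _ (Finset.mem_inter.1 hi).2)).le 2
    · rw [nsmul_eq_mul, hd, Real.sq_sqrt (by positivity), mul_div_assoc',
        div_le_iff₀ (by positivity)]
      have : ((u ∩ s).card : ℝ) ≤ s.card := Nat.cast_le.2 (Finset.card_le_card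
        Finset.inter_subset_right)
      nlinarith
  linarith

variable [AbelianClosed A]

/-- The trace on the functions. -/
noncomputable def opMuS (h : IsState M A η) : C(Spec A, ℂ) →ₗ[ℂ] ℂ where
  toFun f := h.phi (ofFun f)
  map_add' f g := by simp only [ofFun_add, IsState.phi_add]
  map_smul' c f := by
    simp only [ofFun_smul, IsState.phi_smul, smul_eq_mul, RingHom.id_apply]

theorem opMuS_nonneg (h : IsState M A η) (a : C(Spec A, ℂ)) (ha : ∀ ω, 0 ≤ a ω) :
    0 ≤ opMuS h a := by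
  show 0 ≤ h.phi (ofFun a)
  obtain ⟨g, hg⟩ : ∃ g : C(Spec A, ℂ), g = ⟨fun ω => (Real.sqrt (a ω).re : ℂ),
    Complex.continuous_ofReal.comp (Real.continuous_sqrt.comp
      (Complex.continuous_re.comp a.continuous))⟩ := ⟨_, rfl⟩
  have e : ofFun a = star (ofFun g) * ofFun g := by
    refine eq_of_chi_eq (ofFun_mem _) (mul_mem (star_mem (ofFun_mem g)) (ofFun_mem g)) fun ω => ?_
    obtain ⟨hre, him⟩ := Complex.nonneg_iff.1 (ha ω)
    rw [chi_mul ω (star_mem (ofFun_mem g)) (ofFun_mem g), chi_star ω (ofFun_mem g), chi_ofFun,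
      chi_ofFun, hg]
    apply Complex.ext
    · simp [Real.mul_self_sqrt hre]
    · simp [← him]
  rw [e, h.phi_star_mul, inner_self_eq_norm_sq_to_K]
  norm_cast
  positivity

theorem opMuS_one (h : IsState M A η) : opMuS (A := A) h 1 = 1 := by
  show h.phi (ofFun 1) = 1
  rw [ofFun_one, IsState.phi, inner_self_eq_norm_sq_to_K, h.norm_V_one]
  simp

theorem opMuS_faithful (hA : IsMasa M A) (h : IsState M A η) (a : C(Spec A, ℂ))
    (ha : ∀ ω, 0 ≤ a ω) (h0 : opMuS h a = 0) : a = 0 := by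
  obtain ⟨g, hg⟩ : ∃ g : C(Spec A, ℂ), g = ⟨fun ω => (Real.sqrt (a ω).re : ℂ),
    Complex.continuous_ofReal.comp (Real.continuous_sqrt.comp
      (Complex.continuous_re.comp a.continuous))⟩ := ⟨_, rfl⟩
  have e : a = star g * g := by
    ext ω
    obtain ⟨hre, him⟩ := Complex.nonneg_iff.1 (ha ω)
    rw [hg]
    apply Complex.ext
    · simp [Real.mul_self_sqrt hre]
    · simp [← him]
  have h1 : h.phi (star (ofFun g) * ofFun g) = 0 := by
    rw [← ofFun_star, ← ofFun_mul, ← e]; exact h0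
  have h2 := h.eq_zero_of_phi (hA.le _ (ofFun_mem g)) h1
  ext ω
  have h3 := congrArg (chi ω) h2
  rw [chi_ofFun, chi_zero] at h3
  simp [e, h3]

theorem phi_ofFun_opExp (hA : IsMasa M A) (h : IsState M A η) (x : M.toStarSubalgebra) :
    h.phi (ofFun (opExp hA x)) = h.phi (x : H →L[ℂ] H) := by
  rw [ofFun_opExp hA, h.phi_expect hA x.2]

theorem opMuS_sq (hA : IsMasa M A) (h : IsState M A η) (x : M.toStarSubalgebra) :
    (opMuS h (opExp hA (star x * x))).re = ‖h.V (x : H →L[ℂ] H)‖ ^ 2 := by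
  show (h.phi (ofFun _)).re = _
  rw [phi_ofFun_opExp hA h]
  show (h.phi (star (x : H →L[ℂ] H) * (x : H →L[ℂ] H))).re = _
  rw [h.phi_star_mul]
  exact inner_self_eq_norm_sq (𝕜 := ℂ) _

theorem opMuS_rightCont (hA : IsMasa M A) (h : IsState M A η) (x : M.toStarSubalgebra) (ε : ℝ)
    (hε : 0 < ε) : ∃ δ : ℝ, 0 < δ ∧ ∀ z : M.toStarSubalgebra,
      (∀ (y : M.toStarSubalgebra) ω,
        opExp hA (star y * (star z * z) * y) ω ≤ opExp hA (star y * y) ω) →
      (opMuS h (opExp hA (star z * z))).re ≤ δ →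
      (opMuS h (opExp hA (star (z * x) * (z * x)))).re ≤ ε := by
  obtain ⟨δ, hδ, hsm⟩ := right_small h (x : H →L[ℂ] H) hε
  refine ⟨δ, hδ, fun z hz hzs => ?_⟩
  rw [opMuS_sq hA h] at hzs ⊢
  refine hsm _ z.2 (norm_le_one_of_phi h z.2 fun y hy => ?_) hzs
  have h1 := opMuS_nonneg h (opExp hA (star (⟨y, hy⟩ : M.toStarSubalgebra) * ⟨y, hy⟩) -
      opExp hA (star (z * ⟨y, hy⟩) * (z * ⟨y, hy⟩))) fun ω => by
    have := hz ⟨y, hy⟩ ω
    simp only [star_mul, mul_assoc] at this ⊢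
    simpa using this
  have h2 := (Complex.nonneg_iff.1 h1).1
  rw [map_sub, Complex.sub_re, opMuS_sq hA h, opMuS_sq hA h, sub_nonneg] at h2
  exact (pow_le_pow_iff_left₀ (norm_nonneg _) (norm_nonneg _) two_ne_zero).1 h2

variable [TotallyDisconnectedSpace (Spec A)]

/-- The environment of the inclusion. -/
noncomputable def stEnv (hA : IsMasa M A) (h : IsState M A η) :
    Env M.toStarSubalgebra (Spec A) where
  ι := opIota hA
  E := opExp hA
  E_ι := opExp_iota hA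
  E_left := opExp_left hA
  E_right := opExp_right hA
  E_star := opExp_star hA
  E_nonneg x ω := ph_nonneg ω hA x.2
  bounded := opExp_bounded hA
  μ := opMuS h
  μ_nonneg := opMuS_nonneg h
  μ_one := opMuS_one h
  μ_faithful := opMuS_faithful hA h
  rightCont := opMuS_rightCont hA h

variable (hA : IsMasa M A) (h : IsState M A η)

theorem stEnv_ι (f : C(Spec A, ℂ)) : ((stEnv hA h).ι f : H →L[ℂ] H) = ofFun f := rfl

theorem stEnv_E (x : M.toStarSubalgebra) (ω : Spec A) :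
    (stEnv hA h).E x ω = ph ω (x : H →L[ℂ] H) := rfl

theorem stEnv_μ (f : C(Spec A, ℂ)) : (stEnv hA h).μ f = h.phi (ofFun f) := rfl

theorem stEnv_ofFun_E (x : M.toStarSubalgebra) :
    ofFun ((stEnv hA h).E x) = expect A (x : H →L[ℂ] H) :=
  ofFun_opExp hA x

theorem stEnv_τ (x : M.toStarSubalgebra) : (stEnv hA h).τ x = h.phi (x : H →L[ℂ] H) := by
  rw [Env.τ, stEnv_μ, stEnv_ofFun_E, h.phi_expect hA x.2]

theorem stEnv_sq (x : M.toStarSubalgebra) :
    (stEnv hA h).sq x = ‖h.V (x : H →L[ℂ] H)‖ ^ 2 := by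
  rw [Env.sq, stEnv_τ]
  show (h.phi (star (x : H →L[ℂ] H) * (x : H →L[ℂ] H))).re = _
  rw [h.phi_star_mul]
  exact inner_self_eq_norm_sq (𝕜 := ℂ) _

/-- The left multiplication bound is the operator norm. -/
theorem stEnv_bdd (x : M.toStarSubalgebra) {C : ℝ} (hC : ‖(x : H →L[ℂ] H)‖ ≤ C) :
    (stEnv hA h).Bdd x C :=
  ⟨(norm_nonneg _).trans hC, fun y ω => ph_mul_le hA ω x.2 y.2 hC⟩

/-- A normaliser as a mover; its homeomorphism is the move of its adjoint. -/
noncomputable def toMoverS {u : H →L[ℂ] H} (hu : IsNormaliser M A u) : (stEnv hA h).Mover where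
  u := ⟨u, hu.mem⟩
  mem_unitary := ⟨Subtype.ext hu.star_mul, Subtype.ext hu.mul_star⟩
  T := moveHomeo hu.star'
  conj a := Subtype.ext (conj_ofFun hu a)
  E_conj x := ContinuousMap.ext fun ω => by
    show ph ω (u * (x : H →L[ℂ] H) * star u) = ph (move hu.star' ω) (x : H →L[ℂ] H)
    rw [h.ph_move hA ω hu.star' x.2, star_star]

theorem toMoverS_T {u : H →L[ℂ] H} (hu : IsNormaliser M A u) (ω : Spec A) :
    (toMoverS hA h hu).T ω = move hu.star' ω := rfl

/-- The unitary of a mover normalises `A`. -/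
theorem mover_normaliserS (g : (stEnv hA h).Mover) :
    IsNormaliser M A (g.u : H →L[ℂ] H) := by
  have h1 : star (g.u : H →L[ℂ] H) * g.u = 1 := congrArg Subtype.val g.mem_unitary.1
  have h2 : (g.u : H →L[ℂ] H) * star (g.u : H →L[ℂ] H) = 1 :=
    congrArg Subtype.val g.mem_unitary.2
  have hc : ∀ f : C(Spec A, ℂ), (g.u : H →L[ℂ] H) * ofFun f * star (g.u : H →L[ℂ] H) =
      ofFun (f.comp (g.T : C(Spec A, Spec A))) := fun f => congrArg Subtype.val (g.conj f)
  refine ⟨g.u.2, h1, h2, fun a ha => ?_, fun a ha => ?_⟩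
  · obtain ⟨f, hf⟩ : ∃ f : C(Spec A, ℂ), ofFun f = a := ⟨_, ofFun_chi ha⟩
    have e := hc (f.comp (g.T.symm : C(Spec A, Spec A)))
    rw [show (f.comp (g.T.symm : C(Spec A, Spec A))).comp (g.T : C(Spec A, Spec A)) = f by
      ext ω; simp, hf] at e
    rw [← e, ← mul_assoc, ← mul_assoc, h1, one_mul, mul_assoc, h1, mul_one]
    exact ofFun_mem _
  · obtain ⟨f, hf⟩ : ∃ f : C(Spec A, ℂ), ofFun f = a := ⟨_, ofFun_chi ha⟩
    rw [← hf, hc]
    exact ofFun_mem _

/-- The homeomorphism of a mover. -/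
theorem mover_TS (g : (stEnv hA h).Mover) (ω : Spec A) :
    g.T ω = move (mover_normaliserS hA h g).star' ω :=
  spec_ext fun a ha => by
    rw [chi_move ω _ ha, star_star]
    have e : (g.u : H →L[ℂ] H) * ofFun (⟨fun ν => chi ν a, continuous_chi a⟩ : C(Spec A, ℂ)) *
        star (g.u : H →L[ℂ] H) = ofFun ((⟨fun ν => chi ν a, continuous_chi a⟩ : C(Spec A, ℂ)).comp
          (g.T : C(Spec A, Spec A))) := congrArg Subtype.val (g.conj _)
    rw [ofFun_chi ha] at e
    rw [e, chi_ofFun]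
    rfl

omit [TotallyDisconnectedSpace (Spec A)] in
theorem exists_part_aboveS (h : IsState M A η) (Q : FPart A) :
    ∃ P₀ : All.Part (Spec A), ∀ P : All.Part (Spec A), P.Refines P₀ → Q ≤ partFP P := by
  classical
  have hex : ∀ ω : Spec A, ∃ i, chi ω (Q.c i) = 1 := fun ω => by
    by_contra hcon
    push Not at hcon
    have := congrArg (chi ω) Q.sum_eq
    rw [chi_sum ω _ _ Q.mem, chi_one,
      Finset.sum_eq_zero fun i _ => (chi_proj ω (Q.mem i) (Q.proj i)).resolve_right (hcon i)] at this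
    exact zero_ne_one this
  choose f hf using hex
  have huniq : ∀ ω i, chi ω (Q.c i) = 1 → i = f ω := fun ω i hi => by
    by_contra hne
    have := congrArg (chi ω) (Q.orth _ _ hne)
    rw [chi_mul ω (Q.mem _) (Q.mem _), hi, hf, chi_zero, mul_one] at this
    exact one_ne_zero this
  have hlc : IsLocallyConstant f := (IsLocallyConstant.iff_eventually_eq f).2 fun ω => by
    have hev := (continuous_chi (A := A) (Q.c (f ω))).continuousAt.eventually_ne
      (show chi ω (Q.c (f ω)) ≠ 0 by rw [hf]; exact one_ne_zero)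
    filter_upwards [hev] with v hv
    exact (huniq v _ ((chi_proj v (Q.mem _) (Q.proj _)).resolve_left hv)).symm
  refine ⟨⟨Fintype.card Q.ι, ⟨fun ω => Fintype.equivFin Q.ι (f ω), hlc.comp _⟩⟩, fun P hP (c : Fin P.n) => ?_⟩
  show ∃ i, Q.c i * pieceP P c = pieceP P c
  by_cases hne : ∃ ω₀, P.cell ω₀ = c
  · obtain ⟨ω₀, h₀⟩ := hne
    refine ⟨f ω₀, eq_of_chi_eq (mul_mem (Q.mem _) (pieceP_mem _ _)) (pieceP_mem _ _) fun ω => ?_⟩
    rw [chi_mul ω (Q.mem _) (pieceP_mem _ _), chi_pieceP]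
    split_ifs with hω
    · have : f ω = f ω₀ := (Fintype.equivFin Q.ι).injective (hP ω ω₀ (hω.trans h₀.symm))
      rw [← this, hf, mul_one]
    · rw [mul_zero]
  · have hz : pieceP P c = 0 := eq_of_chi_eq (pieceP_mem _ _) (zero_mem A) fun ω => by
      rw [chi_pieceP, if_neg fun e => hne ⟨ω, e⟩, chi_zero]
    by_cases hQ : Nonempty Q.ι
    · exact ⟨Classical.arbitrary _, by rw [hz, mul_zero]⟩
    · exfalso
      rw [not_nonempty_iff] at hQ
      have h1 := Q.sum_eq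
      simp only [Finset.univ_eq_empty, Finset.sum_empty] at h1
      have h2 : (1 : H →L[ℂ] H) = 0 := h1.symm
      simpa [h2] using h.norm_V_one

theorem coe_pinchS (P : All.Part (Spec A)) (x : M.toStarSubalgebra) :
    ((stEnv hA h).pinch P x : H →L[ℂ] H) = (partFP P).D (x : H →L[ℂ] H) := by
  simp only [Env.pinch, AddSubmonoidClass.coe_finsetSum, FPart.D]
  rfl

/-- The diagonal limit. -/
theorem stEnv_diagonalLimit : (stEnv hA h).DiagonalLimit := by
  intro x ε hε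
  obtain ⟨Q, hQ⟩ := h.exists_D_near hA x.2 hε
  obtain ⟨P₀, hP₀⟩ := exists_part_aboveS h Q
  refine ⟨P₀, fun P hP => ?_⟩
  show (stEnv hA h).sq _ ≤ ε
  rw [stEnv_sq, AddSubgroupClass.coe_sub, coe_pinchS, stEnv_ι, stEnv_ofFun_E]
  exact hQ _ (hP₀ P hP)

/-- The fixed sets are open. -/
theorem stEnv_fixOpen : (stEnv hA h).FixOpen := fun g => by
  simp only [mover_TS hA h g]
  exact isOpen_move_eq hA (mover_normaliserS hA h g).star'

theorem stEnv_orth {x : M.toStarSubalgebra} (hx : (stEnv hA h).OrthNormaliser x) :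
    Orth M A (x : H →L[ℂ] H) := fun u hu => by
  have e := hx (toMoverS hA h hu.star')
  have e2 := ofFun_opExp hA ((toMoverS hA h hu.star').u * x)
  rw [show opExp hA ((toMoverS hA h hu.star').u * x) = 0 from e, ofFun_zero] at e2
  exact e2.symm

theorem stEnv_orth' {x : M.toStarSubalgebra} (hx : Orth M A (x : H →L[ℂ] H)) :
    (stEnv hA h).OrthNormaliser x := fun g => by
  refine ContinuousMap.ext fun ω => ?_
  have e := hx _ (mover_normaliserS hA h g).star'
  rw [star_star] at e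
  show chi ω (expect A ((g.u : H →L[ℂ] H) * (x : H →L[ℂ] H))) = 0
  rw [e, chi_zero]

theorem gauss_eqS (x : M.toStarSubalgebra) (P : All.Part (Spec A)) :
    (stEnv hA h).gauss P x = gsS h (x : H →L[ℂ] H) (partFP P) := by
  refine Finset.sum_congr rfl fun c _ => ?_
  show (h.phi (ofFun _)).re = (h.phi (ofReal' _)).re
  congr 2
  rw [ofReal'_mul, ofReal'_ef hA x.2 ((partFP P).mem c) ((partFP P).proj c), sq, ofFun_mul,
    stEnv_ofFun_E]
  rfl

/-- The lemma for one letter. -/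
theorem stEnv_atomless : (stEnv hA h).AtomlessStatement := by
  intro x hx δ hδ
  obtain ⟨Q, hQ⟩ := exists_gsS_le hA h x.2 (stEnv_orth hA h hx) hδ
  obtain ⟨P₀, hP₀⟩ := exists_part_aboveS h Q
  refine ⟨P₀, fun P hP => ?_⟩
  show (stEnv hA h).gauss P x ≤ δ
  rw [gauss_eqS]
  exact (gsS_anti hA h x.2 (hP₀ P hP)).trans hQ

/-- Elements of `spanN` are finite sums over the movers of the environment. -/
theorem isNSum_of_spanNS (hA : IsMasa M A) (h : IsState M A η) {y : H →L[ℂ] H}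
    (hy : y ∈ spanN M A) :
    (stEnv hA h).IsNSum ⟨y, spanN_le hA hy⟩ := by
  induction hy using Submodule.span_induction with
  | mem y hy =>
    obtain ⟨a, ha, u, hu, rfl⟩ := hy
    refine ⟨1, fun _ => ⟨fun ω => chi ω a, continuous_chi a⟩, fun _ => toMoverS hA h hu,
      Subtype.ext ?_⟩
    simp only [Finset.univ_unique, Finset.sum_singleton, MulMemClass.coe_mul, stEnv_ι,
      ofFun_chi ha]
    rfl
  | zero => exact ⟨0, fun i => i.elim0, fun i => i.elim0, Subtype.ext (by simp)⟩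
  | add y z _ _ hy hz =>
    obtain ⟨N, a, g, e⟩ := hy
    obtain ⟨N', a', g', e'⟩ := hz
    refine ⟨N + N', Fin.append a a', Fin.append g g', ?_⟩
    simp only [Fin.sum_univ_add, Fin.append_left, Fin.append_right, ← e, ← e']
    rfl
  | smul c y _ hy =>
    obtain ⟨N, a, g, e⟩ := hy
    refine ⟨N, fun i => c • a i, g, ?_⟩
    have e' := congrArg (c • ·) e
    simp only [Finset.smul_sum] at e'
    simp only [map_smul, smul_mul_assoc]
    exact Eq.trans rfl e'

/-- Every element splits along the normalisers. -/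
theorem stEnv_normaliserSplit : (stEnv hA h).NormaliserSplit := by
  intro x
  obtain ⟨x₁, hx₁⟩ : ∃ y, y = (1 / 2 : ℂ) • ((x : H →L[ℂ] H) + star (x : H →L[ℂ] H)) := ⟨_, rfl⟩
  obtain ⟨x₂, hx₂⟩ : ∃ y, y = (-Complex.I / 2) • ((x : H →L[ℂ] H) - star (x : H →L[ℂ] H)) :=
    ⟨_, rfl⟩
  have hs₁ : IsSelfAdjoint x₁ := by
    rw [hx₁, IsSelfAdjoint, star_smul, star_add, star_star, add_comm (star (x : H →L[ℂ] H))]
    norm_num
  have hs₂ : IsSelfAdjoint x₂ := by
    rw [hx₂, IsSelfAdjoint, star_smul, star_sub, star_star, ← neg_sub (x : H →L[ℂ] H), smul_neg,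
      ← neg_smul]
    congr 1
    simp [neg_div]
  have hM₁ : x₁ ∈ M := hx₁ ▸ vn_smul_mem _ (add_mem x.2 (star_mem x.2))
  have hM₂ : x₂ ∈ M := hx₂ ▸ vn_smul_mem _ (sub_mem x.2 (star_mem x.2))
  have hsum : (x : H →L[ℂ] H) = x₁ + Complex.I • x₂ := by
    rw [hx₁, hx₂, smul_smul, ← mul_div_assoc, mul_neg, Complex.I_mul_I, neg_neg]
    module
  obtain ⟨z₁, hz₁, -, hb₁, ho₁, ha₁⟩ := h.exists_split hA hM₁ hs₁
  obtain ⟨z₂, hz₂, -, hb₂, ho₂, ha₂⟩ := h.exists_split hA hM₂ hs₂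
  refine ⟨⟨z₁ + Complex.I • z₂, add_mem hz₁ (vn_smul_mem _ hz₂)⟩, stEnv_orth' hA h ?_,
    2 * (‖x₁‖ + ‖x₂‖), fun e he => ?_⟩
  · intro u hu
    show expect A (star u * ((x : H →L[ℂ] H) - (z₁ + Complex.I • z₂))) = 0
    rw [hsum, show x₁ + Complex.I • x₂ - (z₁ + Complex.I • z₂) =
      (x₁ - z₁) + Complex.I • (x₂ - z₂) by module, mul_add, mul_smul_comm, expect_add,
      expect_smul, ho₁ u hu, ho₂ u hu, smul_zero, add_zero]
  · obtain ⟨γ, hγ0, hγ⟩ : ∃ γ : ℝ, 0 < γ ∧ (2 * γ) ^ 2 ≤ e :=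
      ⟨Real.sqrt e / 2, by positivity, by rw [mul_div_cancel₀ _ two_ne_zero, Real.sq_sqrt he.le]⟩
    obtain ⟨n₁, hm₁, -, hc₁, hd₁⟩ := ha₁ γ hγ0
    obtain ⟨n₂, hm₂, -, hc₂, hd₂⟩ := ha₂ γ hγ0
    have hm : n₁ + Complex.I • n₂ ∈ spanN M A := add_mem hm₁ (Submodule.smul_mem _ _ hm₂)
    refine ⟨⟨_, spanN_le hA hm⟩, isNSum_of_spanNS hA h hm, stEnv_bdd hA h _ ?_, ?_⟩
    · show ‖z₁ + Complex.I • z₂ - (n₁ + Complex.I • n₂)‖ ≤ _
      rw [show z₁ + Complex.I • z₂ - (n₁ + Complex.I • n₂) =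
        (z₁ - n₁) + Complex.I • (z₂ - n₂) by module]
      refine (norm_add_le _ _).trans ?_
      rw [norm_smul, Complex.norm_I, one_mul]
      linarith [norm_sub_le z₁ n₁, norm_sub_le z₂ n₂]
    · rw [stEnv_sq]
      refine le_trans (pow_le_pow_left₀ (norm_nonneg _) ?_ 2) hγ
      show ‖h.V (z₁ + Complex.I • z₂ - (n₁ + Complex.I • n₂))‖ ≤ 2 * γ
      rw [show z₁ + Complex.I • z₂ - (n₁ + Complex.I • n₂) =
        (z₁ - n₁) + Complex.I • (z₂ - n₂) by module, map_add, map_smul]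
      refine (norm_add_le _ _).trans ?_
      rw [norm_smul, Complex.norm_I, one_mul]
      linarith

end Vale.Agent.P078.Any.St
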