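import Vale.Agent.P078.Any.St.EnvBasic

/-!
The three estimates for one cell of a stage: two marks in one word, in the two words of one
expectation, and in two different expectations.
-/

namespace Vale.Agent.P078.Any.St

open scoped ComplexOrder ComplexConjugate
open Vale.Agent.P078.All (State Ev run)
open Vale.Agent.P078.All.Env (cplx cplx_apply reC reC_apply absC absC_apply)

variable {R : Type} [Ring R] [StarRing R] [Algebra ℂ R] [StarModule ℂ R]
  {Ω : Type} [TopologicalSpace Ω] [CompactSpace Ω] [T2Space Ω] [TotallyDisconnectedSpace Ω]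

set_option linter.unusedSectionVars false
set_option linter.unusedSimpArgs false

namespace Env

variable {V : Env R Ω}

/-- The inverse of a mover carries functions back. -/
theorem Mover.star_ι_comp (g : V.Mover) (a : C(Ω, ℂ)) :
    star g.u * V.ι (a.comp (g.T : C(Ω, Ω))) = V.ι a * star g.u := by
  rw [← g.conj, ← mul_assoc, ← mul_assoc, Unitary.star_mul_self_of_mem g.mem_unitary, one_mul]

variable (V)

/-! ### The fibre masses -/

theorem fib_ind_nonneg (x : R) (P : All.Part Ω) (c : Fin P.n) (ω : Ω) : 0 ≤ V.fib x (P.ind c) ω := by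
  have h := V.E_nonneg' (x * V.ι (P.ind c)) ω
  rw [star_mul, star_ι, P.star_ind, ← mul_assoc, mul_assoc x, ← map_mul, P.ind_mul_self] at h
  exact (Complex.nonneg_iff.1 h).1

theorem sum_fib (x : R) (P : All.Part Ω) (ω : Ω) :
    ∑ c, V.fib x (P.ind c) ω = (V.E (x * star x) ω).re := by
  simp only [fib, reC_apply]
  rw [← Complex.re_sum, ← ContinuousMap.sum_apply, ← map_sum, ← Finset.sum_mul, ← Finset.mul_sum,
    ← map_sum, P.sum_ind, map_one, mul_one]

theorem re_E_star_self_le {x : R} {C : ℝ} (h : V.Bdd x C) (ω : Ω) :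
    (V.E (star x * x) ω).re ≤ C ^ 2 := by
  have h1 := h.re_E_le 1 ω
  simpa [show V.E 1 = 1 by rw [← map_one V.ι, V.E_ι]] using h1

theorem re_E_self_star_le {x : R} {C : ℝ} (h : V.Bdd (star x) C) (ω : Ω) :
    (V.E (x * star x) ω).re ≤ C ^ 2 := by
  simpa using V.re_E_star_self_le h ω

theorem gauss_eq (P : All.Part Ω) (x : R) :
    V.gauss P x = ∑ c, V.μR (V.fib x (P.ind c) * V.fib x (P.ind c)) := by
  refine Finset.sum_congr rfl fun c _ => ?_
  rw [μ_re]
  congr 1
  ext ω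
  have h : (V.E (x * V.proj P c * star x) ω).im = 0 := by
    have h := V.E_nonneg' (x * V.ι (P.ind c)) ω
    rw [star_mul, star_ι, P.star_ind, ← mul_assoc, mul_assoc x, ← map_mul, P.ind_mul_self] at h
    exact (Complex.nonneg_iff.1 h).2.symm
  simp [fib, proj, Complex.mul_re, pow_two, show (V.E (x * V.ι (P.ind c) * star x) ω).im = 0 from h]

theorem gauss_nonneg (P : All.Part Ω) (x : R) : 0 ≤ V.gauss P x := by
  rw [gauss_eq]
  exact Finset.sum_nonneg fun c _ => V.μR_nonneg fun ω => mul_self_nonneg _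

theorem gauss_anti {P Q : All.Part Ω} (h : Q.Refines P) (x : R) : V.gauss Q x ≤ V.gauss P x := by
  classical
  have hpw : ∀ ω, ∑ d, V.fib x (Q.ind d) ω * V.fib x (Q.ind d) ω ≤
      ∑ c, V.fib x (P.ind c) ω * V.fib x (P.ind c) ω := by
    intro ω
    let live : Finset (Fin Q.n) := Finset.univ.filter fun d => ∃ ω', Q.cell ω' = d
    let par : Fin Q.n → Option (Fin P.n) := fun d =>
      if hd : ∃ ω', Q.cell ω' = d then some (P.cell hd.choose) else none
    have hpar : ∀ c, ∑ d with par d = some c, Q.ind d = P.ind c := by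
      intro c
      ext ω'
      have hp : par (Q.cell ω') = some (P.cell ω') := by
        have hd : ∃ ω'', Q.cell ω'' = Q.cell ω' := ⟨ω', rfl⟩
        simp only [par, dif_pos hd, Option.some.injEq]
        exact h _ _ hd.choose_spec
      rw [ContinuousMap.sum_apply, Finset.sum_filter, All.Part.ind_apply,
        Finset.sum_eq_single (Q.cell ω')]
      · simp [hp, All.Part.ind_apply]
      · intro d _ hd; simp [All.Part.ind_apply, Ne.symm hd]
      · simp
    have hzero : ∀ d, par d = none → V.fib x (Q.ind d) ω = 0 := by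
      intro d hd
      have : Q.ind d = 0 := by
        ext ω'
        simp only [All.Part.ind_apply, ContinuousMap.zero_apply, ite_eq_right_iff]
        intro e
        simp [par, show ∃ ω'', Q.cell ω'' = d from ⟨ω', e⟩] at hd
      simp [fib, this]
    have hadd : ∀ c, V.fib x (P.ind c) ω = ∑ d with par d = some c, V.fib x (Q.ind d) ω := by
      intro c
      rw [← hpar c]
      simp [fib, Finset.mul_sum, Finset.sum_mul, ContinuousMap.sum_apply, Complex.re_sum]
    rw [← Finset.sum_fiberwise Finset.univ par fun d => V.fib x (Q.ind d) ω * V.fib x (Q.ind d) ω,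
      Fintype.sum_option]
    rw [Finset.sum_eq_zero fun d hd => by simp [hzero d (Finset.mem_filter.1 hd).2], zero_add]
    refine Finset.sum_le_sum fun c _ => ?_
    rw [hadd c, ← pow_two (∑ d with par d = some c, V.fib x (Q.ind d) ω)]
    simp only [← pow_two]
    exact Finset.sum_sq_le_sq_sum_of_nonneg fun d _ => fib_ind_nonneg V x Q d ω
  rw [gauss_eq, gauss_eq, ← map_sum, ← map_sum]
  exact V.μR_mono fun ω => by simpa using hpw ω

/-- The infimum of the fibre masses. -/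
noncomputable def gv (x : R) : ℝ := ⨅ P : All.Part Ω, V.gauss P x

theorem gv_le (x : R) (P : All.Part Ω) : V.gv x ≤ V.gauss P x :=
  ciInf_le ⟨0, fun _ ⟨Q, hQ⟩ => hQ ▸ V.gauss_nonneg Q x⟩ P

theorem gv_nonneg (x : R) : 0 ≤ V.gv x := by
  have : Nonempty (All.Part Ω) := ⟨All.Part.one⟩
  exact le_ciInf fun P => V.gauss_nonneg P x

theorem fine_gauss_le (x : R) {η : ℝ} (hη : 0 < η) :
    All.Part.Fine fun P => V.gauss P x ≤ V.gv x + η := by
  have : Nonempty (All.Part Ω) := ⟨All.Part.one⟩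
  obtain ⟨P, hP⟩ := exists_lt_of_ciInf_lt (show V.gv x < V.gv x + η by linarith)
  exact ⟨P, fun Q hQ => (V.gauss_anti hQ x).trans hP.le⟩

theorem gv_le_of_atomless {x : R} (h : V.Atomless x) : V.gv x = 0 := by
  refine le_antisymm (le_of_forall_pos_le_add fun η hη => ?_) (V.gv_nonneg x)
  obtain ⟨P, hP⟩ := (h η hη).exists
  linarith [V.gv_le x P]

/-! ### The pinching -/

theorem bdd_ind (P : All.Part Ω) (c : Fin P.n) : V.Bdd (V.ι (P.ind c)) 1 :=
  V.bdd_ι zero_le_one fun ω => by simp only [All.Part.ind_apply]; split_ifs <;> simp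

theorem pinch_sub_ι (P : All.Part Ω) (x : R) (a : C(Ω, ℂ)) :
    V.pinch P (x - V.ι a) = V.pinch P x - V.ι a := by
  simp only [pinch, proj, mul_sub, sub_mul, Finset.sum_sub_distrib, ← map_mul, ← map_sum]
  congr 2
  simp only [mul_comm (P.ind _) a, mul_assoc, P.ind_mul_self, ← Finset.mul_sum, P.sum_ind, mul_one]

theorem sum_smul_ind_mul (P : All.Part Ω) (κ : Fin P.n → ℂ) (x : R) :
    ∑ c, κ c • (V.proj P c * x * V.proj P c) = V.ι (∑ c, κ c • P.ind c) * V.pinch P x := by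
  rw [map_sum, pinch, Finset.sum_mul]
  refine Finset.sum_congr rfl fun c _ => ?_
  rw [Finset.mul_sum, Finset.sum_eq_single c]
  · simp only [proj, map_smul, smul_mul_assoc, ← mul_assoc, ← map_mul, P.ind_mul_self]
  · intro d _ hd
    simp only [proj, map_smul, smul_mul_assoc, ← mul_assoc, ← map_mul, P.ind_mul_ne (Ne.symm hd),
      map_zero, zero_mul, smul_zero]
  · simp

theorem norm_sum_smul_ind {P : All.Part Ω} {κ : Fin P.n → ℂ} {K : ℝ} (hK : ∀ c, ‖κ c‖ ≤ K) (ω : Ω) :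
    ‖(∑ c, κ c • P.ind c : C(Ω, ℂ)) ω‖ ≤ K := by
  simp [ContinuousMap.sum_apply, All.Part.ind_apply, hK]

theorem norm_E_sq_le (x y : R) (ω : Ω) :
    ‖V.E (x * y) ω‖ ^ 2 ≤ (V.E (x * star x) ω).re * (V.E (star y * y) ω).re := by
  rw [Complex.sq_norm]
  exact V.normSq_E_mul_le x y ω

/-- The expectation of `x` times a mover is controlled by the fibre masses of `x`. -/
theorem μR_norm_E_mul_sq_le (x : R) (v : V.Mover) :
    V.μR (absC (V.E (x * v.u)) * absC (V.E (x * v.u))) ≤ Real.sqrt (V.gv x) := by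
  refine Real.le_sqrt_of_sq_le ?_
  have : Nonempty (All.Part Ω) := ⟨All.Part.one⟩
  refine le_ciInf fun P => ?_
  set g : C(Ω, ℝ) := absC (V.E (x * v.u)) * absC (V.E (x * v.u)) with hg
  have hg0 : 0 ≤ V.μR g := V.μR_nonneg fun ω => by simp [hg, mul_self_nonneg]
  have h1 : V.μR g ^ 2 ≤ V.μR (g * g) := by
    have := pow_le_pow_left₀ hg0 (V.μR_le_sqrt g) 2
    rwa [Real.sq_sqrt (V.μR_nonneg fun ω => by simp [mul_self_nonneg])] at this
  refine h1.trans ?_
  rw [gauss_eq, ← map_sum]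
  refine V.μR_mono fun ω => ?_
  set c : Fin P.n := P.cell (v.T.symm ω) with hc
  have e : V.E (x * v.u) ω = V.E (x * V.ι (P.ind c) * v.u) ω := by
    have hv : V.ι (P.ind c) * v.u = v.u * V.ι ((P.ind c).comp (v.T.symm : C(Ω, Ω))) := by
      rw [v.comm]
      congr 2
      ext ω'
      simp
    rw [mul_assoc, hv, ← mul_assoc, V.E_right, ContinuousMap.mul_apply]
    simp [All.Part.ind_apply, hc]
  have h2 : ‖V.E (x * v.u) ω‖ ^ 2 ≤ V.fib x (P.ind c) ω := by
    rw [e]
    refine (V.norm_E_sq_le _ _ ω).trans ?_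
    rw [star_mul, star_ι, P.star_ind, ← mul_assoc, mul_assoc x (V.ι _), ← map_mul, P.ind_mul_self]
    refine mul_le_of_le_one_right (V.fib_ind_nonneg x P c ω) ?_
    simpa using V.re_E_star_self_le v.bdd ω
  simp only [ContinuousMap.sum_apply, ContinuousMap.mul_apply, hg, absC_apply, ← pow_two]
  exact (pow_le_pow_left₀ (_root_.sq_nonneg _) h2 2).trans
    (Finset.single_le_sum (f := fun d => V.fib x (P.ind d) ω ^ 2)
      (fun d _ => _root_.sq_nonneg _) (Finset.mem_univ c))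

theorem star_pinch (P : All.Part Ω) (x : R) : star (V.pinch P x) = V.pinch P (star x) := by
  simp [pinch, proj, star_ι, P.star_ind, mul_assoc]

/-- Right multiplication by `r` is bounded by `K` up to `ε` times the operator bound. -/
def RightCtl (r : R) (ε K : ℝ) : Prop :=
  0 ≤ K ∧ ∀ z D, V.Bdd z D → Real.sqrt (V.sq (z * r)) ≤ K * Real.sqrt (V.sq z) + ε * D

variable {V} in
theorem RBdd.exists_ctl {S : Set R} (h : V.RBdd S) {ε : ℝ} (hε : 0 < ε) :
    ∃ K, 0 ≤ K ∧ ∀ r ∈ S, V.RightCtl r ε K :=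
  let ⟨K, hK, h'⟩ := h ε hε; ⟨K, hK, fun r hr => ⟨hK, h' r hr⟩⟩

variable {V} in
theorem Bdd.re_E_ind_le {x : R} {C : ℝ} (h : V.Bdd x C) (P : All.Part Ω) (c : Fin P.n) (y : R)
    (ω : Ω) : (V.E (star (V.proj P c * (x * y)) * (V.proj P c * (x * y))) ω).re ≤
      C ^ 2 * (V.E (star y * y) ω).re := by
  refine ((V.bdd_ind P c).re_E_le _ ω).trans ?_
  rw [one_pow, one_mul]
  exact h.re_E_le y ω

/-- A pinching keeps the operator bound. -/
theorem bdd_pinch {x : R} {C : ℝ} (h : V.Bdd x C) (P : All.Part Ω) : V.Bdd (V.pinch P x) C := by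
  classical
  refine bdd_iff.2 ⟨h.1, fun y ω => ?_⟩
  have e1 : star (V.pinch P x * y) * (V.pinch P x * y) =
      ∑ c, star (V.proj P c * (x * (V.proj P c * y))) * (V.proj P c * (x * (V.proj P c * y))) := by
    rw [pinch, Finset.sum_mul, star_sum, Finset.sum_mul]
    refine Finset.sum_congr rfl fun c _ => ?_
    rw [Finset.mul_sum, Finset.sum_eq_single c]
    · simp only [mul_assoc]
    · intro d _ hd
      simp only [proj, star_mul, star_ι, P.star_ind, mul_assoc]
      rw [← mul_assoc (V.ι (P.ind c)) (V.ι (P.ind d)), ← map_mul, P.ind_mul_ne (Ne.symm hd)]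
      simp
    · simp
  have e2 : ∑ c, star (V.proj P c * y) * (V.proj P c * y) = star y * y := by
    have : ∀ c, star (V.proj P c * y) * (V.proj P c * y) = star y * V.ι (P.ind c) * y := by
      intro c
      simp only [proj, star_mul, star_ι, P.star_ind, mul_assoc]
      rw [← mul_assoc (V.ι (P.ind c)) (V.ι (P.ind c)), ← map_mul, P.ind_mul_self]
    simp only [this, ← Finset.sum_mul, ← Finset.mul_sum, ← map_sum, P.sum_ind, map_one, mul_one]
  rw [e1, ← e2]
  simp only [map_sum, ContinuousMap.sum_apply, Complex.re_sum, Finset.mul_sum]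
  exact Finset.sum_le_sum fun c _ => h.re_E_ind_le P c _ ω

/-- Expectations are bounded by the operator bound. -/
theorem norm_E_le {x : R} {C : ℝ} (h : V.Bdd x C) (ω : Ω) : ‖V.E x ω‖ ≤ C := by
  have h1 := V.norm_E_sq_le 1 x ω
  have h2 := V.re_E_star_self_le h ω
  simp only [one_mul, star_one, E_one, ContinuousMap.one_apply, Complex.one_re] at h1
  exact (abs_le_of_sq_le_sq' (h1.trans h2) h.1).2

theorem bdd_ι_E {x : R} {C : ℝ} (h : V.Bdd x C) : V.Bdd (V.ι (V.E x)) C :=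
  V.bdd_ι h.1 (V.norm_E_le h)

theorem bdd_pinch_sub {x : R} {C : ℝ} (h : V.Bdd x C) (P : All.Part Ω) :
    V.Bdd (V.pinch P x - V.ι (V.E x)) (2 * C) := by
  rw [two_mul]
  exact (V.bdd_pinch h P).sub (V.bdd_ι_E h)

theorem sqrt_sq_mul_le {x : R} {C : ℝ} (h : V.Bdd x C) (y : R) :
    Real.sqrt (V.sq (x * y)) ≤ C * Real.sqrt (V.sq y) := by
  refine (Real.sqrt_le_sqrt (V.sq_mul_le h y)).trans (le_of_eq ?_)
  rw [Real.sqrt_mul (_root_.sq_nonneg _), Real.sqrt_sq h.1]

/-- Two marks in one word: the sum over the cells is controlled by the word between them. -/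
theorem pair_sq_le {P : All.Part Ω} {κ : Fin P.n → ℂ} {C CR ε K η : ℝ} {L M Rr : R}
    (g h : V.Mover) (hκ : ∀ c, ‖κ c‖ ≤ 1) (hM : V.Bdd M C) (hM' : V.Bdd (star M) C)
    (hR : V.Bdd (star Rr) CR) (h₁ : V.RightCtl (star g.u * star L) ε K)
    (h₀ : V.RightCtl (star L) ε K)
    (hP : V.sq (V.pinch P (star h.u * star M * g.u) - V.ι (V.E (star h.u * star M * g.u))) ≤ η) :
    Real.sqrt (V.sq (star (∑ c, κ c • (L * V.ι ((P.ind c).comp (g.T : C(Ω, Ω))) * M *
        V.ι ((P.ind c).comp (h.T : C(Ω, Ω))) * Rr)))) ≤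
      CR * (K * (Real.sqrt η + Real.sqrt (Real.sqrt (V.gv M))) + 3 * ε * C) := by
  obtain ⟨k, hk⟩ : ∃ k, k = ∑ c, κ c • P.ind c := ⟨_, rfl⟩
  have hk0 : ∀ ω, ‖k ω‖ ≤ 1 := fun ω => hk ▸ norm_sum_smul_ind hκ ω
  have hk1 : ∀ ω, ‖star k ω‖ ≤ 1 := fun ω => by simpa using hk0 ω
  obtain ⟨X, hX⟩ : ∃ X, X = star g.u * M * h.u := ⟨_, rfl⟩
  obtain ⟨X', hX'⟩ : ∃ X', X' = star h.u * star M * g.u := ⟨_, rfl⟩
  have eX : star X = X' := by simp [hX, hX', mul_assoc]
  have hX'b : V.Bdd X' C := by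
    have := (h.bdd_star.mul hM').mul g.bdd
    rwa [← hX', one_mul, mul_one] at this
  have hsum : ∑ c, κ c • (L * V.ι ((P.ind c).comp (g.T : C(Ω, Ω))) * M *
      V.ι ((P.ind c).comp (h.T : C(Ω, Ω))) * Rr) =
      L * g.u * V.ι k * V.pinch P X * (star h.u * Rr) := by
    rw [hk, mul_assoc (L * g.u), ← V.sum_smul_ind_mul, Finset.mul_sum, Finset.sum_mul]
    refine Finset.sum_congr rfl fun c _ => ?_
    rw [← g.conj, ← h.conj, mul_smul_comm, smul_mul_assoc]
    simp only [proj, hX, mul_assoc]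
  have hB : V.Bdd (star (star h.u * Rr)) CR := by
    rw [star_mul, star_star]
    simpa only [mul_one] using hR.mul h.bdd
  rw [hsum, star_mul]
  refine (V.sqrt_sq_mul_le hB _).trans (mul_le_mul_of_nonneg_left ?_ hR.1)
  have hZ : star (L * g.u * V.ι k * V.pinch P X) =
      (V.pinch P X' - V.ι (V.E X')) * V.ι (star k) * (star g.u * star L) +
        star g.u * (V.ι (star (V.E (M * (h.divide g).u)) * (star k).comp (g.T : C(Ω, Ω))) *
          star L) := by
    have hv : X = star g.u * (M * (h.divide g).u) * g.u := by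
      simp only [hX, Mover.divide, mul_assoc, Unitary.star_mul_self_of_mem g.mem_unitary, mul_one]
    have hE : V.E X' = (star (V.E (M * (h.divide g).u))).comp (g.T.symm : C(Ω, Ω)) := by
      rw [← eX, V.E_star, hv, g.E_conj_symm]
      rfl
    have e : star g.u * (V.ι (star (V.E (M * (h.divide g).u)) * (star k).comp (g.T : C(Ω, Ω))) *
        star L) = V.ι (V.E X') * V.ι (star k) * (star g.u * star L) := by
      rw [show star (V.E (M * (h.divide g).u)) * (star k).comp (g.T : C(Ω, Ω)) =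
        (V.E X' * star k).comp (g.T : C(Ω, Ω)) by ext ω; simp [hE], ← mul_assoc (star g.u),
        g.star_ι_comp, map_mul]
      simp only [mul_assoc]
    rw [e, ← add_mul, ← add_mul, sub_add_cancel, star_mul, star_mul, star_mul, star_pinch, eX,
      star_ι]
    simp only [mul_assoc]
  rw [hZ]
  refine (V.sqrt_sq_add_le _ _).trans ?_
  have t1 := h₁.2 _ _ ((V.bdd_pinch_sub hX'b P).mul (V.bdd_ι zero_le_one hk1))
  have t1' : Real.sqrt (V.sq ((V.pinch P X' - V.ι (V.E X')) * V.ι (star k))) ≤ Real.sqrt η := by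
    refine Real.sqrt_le_sqrt ((V.sq_mul_ι_le _ hk1).trans ?_)
    rwa [one_pow, one_mul, hX']
  obtain ⟨a, ha⟩ : ∃ a, a = V.E (M * (h.divide g).u) := ⟨_, rfl⟩
  have haC : ∀ ω, ‖(star a * (star k).comp (g.T : C(Ω, Ω))) ω‖ ≤ ‖a ω‖ := fun ω => by
    simpa using mul_le_of_le_one_right (norm_nonneg (a ω)) (by simpa using hk1 (g.T ω))
  have hab : ∀ ω, ‖a ω‖ ≤ C := by
    simpa [ha] using V.norm_E_le (hM.mul (h.divide g).bdd)
  have t2 := h₀.2 _ _ (V.bdd_ι (a := star a * (star k).comp (g.T : C(Ω, Ω))) hM.1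
    fun ω => (haC ω).trans (hab ω))
  have t2' : Real.sqrt (V.sq (V.ι (star a * (star k).comp (g.T : C(Ω, Ω))))) ≤
      Real.sqrt (Real.sqrt (V.gv M)) := by
    refine Real.sqrt_le_sqrt ?_
    rw [sq_ι]
    refine le_trans (V.μR_mono fun ω => ?_) (V.μR_norm_E_mul_sq_le M (h.divide g))
    simp only [ContinuousMap.mul_apply, absC_apply, ← ha]
    exact mul_self_le_mul_self (norm_nonneg _) (haC ω)
  subst a
  refine (add_le_add t1 ((V.sqrt_sq_mul_le g.bdd_star _).trans
    (mul_le_mul_of_nonneg_left t2 zero_le_one))).trans ?_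
  nlinarith [mul_le_mul_of_nonneg_left t1' h₁.1, mul_le_mul_of_nonneg_left t2' h₁.1]

/-! ### The four-word form -/

/-- The form whose diagonal is the fibre mass. -/
noncomputable def quad (P : All.Part Ω) (X₀ X₁ X₂ X₃ : R) : ℂ :=
  ∑ e, V.μ (V.E (X₀ * V.proj P e * star X₁) * V.E (X₂ * V.proj P e * star X₃))

theorem gauss_eq_quad (P : All.Part Ω) (x : R) : V.gauss P x = (V.quad P x x x x).re := by
  simp [gauss, quad, pow_two]

theorem star_E_mul (x y : R) (P : All.Part Ω) (e : Fin P.n) :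
    star (V.E (x * V.proj P e * star y)) = V.E (y * V.proj P e * star x) := by
  rw [← V.E_star]
  simp [proj, star_mul, star_ι, P.star_ind, mul_assoc]

theorem quad_conj (P : All.Part Ω) (X₀ X₁ X₂ X₃ : R) :
    V.quad P X₁ X₀ X₃ X₂ = conj (V.quad P X₀ X₁ X₂ X₃) := by
  rw [quad, quad, map_sum]
  refine Finset.sum_congr rfl fun e _ => ?_
  rw [← μ_star, star_mul', star_E_mul, star_E_mul]

theorem quad_swap (P : All.Part Ω) (X₀ X₁ X₂ X₃ : R) :
    V.quad P X₂ X₃ X₀ X₁ = V.quad P X₀ X₁ X₂ X₃ := by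
  simp only [quad, mul_comm]

theorem norm_E_le_sqrt_fib (x y : R) (P : All.Part Ω) (e : Fin P.n) (ω : Ω) :
    ‖V.E (x * V.proj P e * star y) ω‖ ≤
      Real.sqrt (V.fib x (P.ind e) ω) * Real.sqrt (V.fib y (P.ind e) ω) := by
  rw [← Real.sqrt_mul (V.fib_ind_nonneg x P e ω)]
  refine Real.le_sqrt_of_sq_le ?_
  have h := V.norm_E_sq_le (x * V.proj P e) (V.proj P e * star y) ω
  simp only [proj, star_mul, star_ι, P.star_ind, star_star] at h ⊢
  have e1 : x * V.ι (P.ind e) * (V.ι (P.ind e) * star y) = x * V.ι (P.ind e) * star y := by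
    rw [← mul_assoc, mul_assoc x, ← map_mul, P.ind_mul_self]
  have e2 : x * V.ι (P.ind e) * (V.ι (P.ind e) * star x) = x * V.ι (P.ind e) * star x := by
    rw [← mul_assoc, mul_assoc x, ← map_mul, P.ind_mul_self]
  have e3 : y * V.ι (P.ind e) * (V.ι (P.ind e) * star y) = y * V.ι (P.ind e) * star y := by
    rw [← mul_assoc, mul_assoc y, ← map_mul, P.ind_mul_self]
  rw [e1, e2, e3] at h
  exact h

theorem sum_sqrt_fib_mul_le {x y : R} {C D : ℝ} (hx : V.Bdd (star x) C) (hy : V.Bdd (star y) D)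
    (P : All.Part Ω) (ω : Ω) :
    ∑ e, Real.sqrt (V.fib x (P.ind e) ω) * Real.sqrt (V.fib y (P.ind e) ω) ≤ C * D := by
  refine (Real.sum_sqrt_mul_sqrt_le _ (fun e => V.fib_ind_nonneg x P e ω)
    (fun e => V.fib_ind_nonneg y P e ω)).trans ?_
  rw [sum_fib, sum_fib]
  exact mul_le_mul ((Real.sqrt_le_left hx.1).2 (V.re_E_self_star_le hx ω))
    ((Real.sqrt_le_left hy.1).2 (V.re_E_self_star_le hy ω)) (Real.sqrt_nonneg _) hx.1

theorem norm_quad_le {X₀ X₁ X₂ X₃ : R} {C₁ C₂ C₃ : ℝ} (h₁ : V.Bdd (star X₁) C₁)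
    (h₂ : V.Bdd (star X₂) C₂) (h₃ : V.Bdd (star X₃) C₃) (P : All.Part Ω) :
    ‖V.quad P X₀ X₁ X₂ X₃‖ ≤ C₁ * C₂ * C₃ * Real.sqrt (V.sq (star X₀)) := by
  refine (norm_sum_le _ _).trans ((Finset.sum_le_sum fun e _ => V.norm_μ_le _).trans ?_)
  rw [← map_sum]
  let a : C(Ω, ℝ) := ⟨fun ω => Real.sqrt (reC (V.E (X₀ * star X₀)) ω), by fun_prop⟩
  have ha : V.μR a ≤ Real.sqrt (V.sq (star X₀)) := by
    refine (V.μR_le_sqrt a).trans (Real.sqrt_le_sqrt (le_of_eq ?_))
    rw [sq_eq, star_star]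
    congr 1
    ext ω
    exact Real.mul_self_sqrt (Complex.nonneg_iff.1 (V.E_nonneg' X₀ ω)).1
  refine le_trans (V.μR_mono (g := (C₁ * C₂ * C₃) • a) fun ω => ?_) ?_
  swap
  · rw [map_smul, smul_eq_mul]
    exact mul_le_mul_of_nonneg_left ha (mul_nonneg (mul_nonneg h₁.1 h₂.1) h₃.1)
  simp only [ContinuousMap.sum_apply, absC_apply, ContinuousMap.mul_apply, norm_mul,
    ContinuousMap.smul_apply, smul_eq_mul]
  have h23 := fun e => (V.norm_E_le_sqrt_fib X₂ X₃ P e ω).trans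
    (Finset.single_le_sum (f := fun d => Real.sqrt (V.fib X₂ (P.ind d) ω) *
      Real.sqrt (V.fib X₃ (P.ind d) ω)) (fun d _ => by positivity) (Finset.mem_univ e))
  refine (Finset.sum_le_sum fun e _ => mul_le_mul (V.norm_E_le_sqrt_fib X₀ X₁ P e ω)
    ((h23 e).trans (V.sum_sqrt_fib_mul_le h₂ h₃ P ω)) (norm_nonneg _) (by positivity)).trans ?_
  rw [← Finset.sum_mul]
  have h01 : ∑ e, Real.sqrt (V.fib X₀ (P.ind e) ω) * Real.sqrt (V.fib X₁ (P.ind e) ω) ≤
      a ω * C₁ := by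
    refine (Real.sum_sqrt_mul_sqrt_le _ (fun e => V.fib_ind_nonneg X₀ P e ω)
      (fun e => V.fib_ind_nonneg X₁ P e ω)).trans ?_
    rw [sum_fib, sum_fib]
    exact mul_le_mul_of_nonneg_left ((Real.sqrt_le_left h₁.1).2 (V.re_E_self_star_le h₁ ω))
      (Real.sqrt_nonneg _)
  refine (mul_le_mul_of_nonneg_right h01 (mul_nonneg h₂.1 h₃.1)).trans (le_of_eq ?_)
  ring

/-- The sum of squares of the 2-norms along a common right factor. -/
theorem sum_sq_ι_mul {n : ℕ} (f : Fin n → C(Ω, ℂ)) (F : C(Ω, ℝ))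
    (hF : ∀ ω, F ω = ∑ d, ‖f d ω‖ ^ 2) (x : R) :
    ∑ d, V.sq (V.ι (f d) * x) =
      V.sq (V.ι ⟨fun ω => (Real.sqrt (F ω) : ℂ), by fun_prop⟩ * x) := by
  have e : ∀ a : C(Ω, ℂ), V.sq (V.ι a * x) = (V.τ (star x * V.ι (star a * a) * x)).re := fun a => by
    rw [sq, star_mul, star_ι, map_mul]
    simp only [mul_assoc]
  simp only [e]
  rw [← Complex.re_sum, ← τ_sum, ← Finset.sum_mul, ← Finset.mul_sum, ← map_sum]
  congr 5
  ext ω
  simp only [ContinuousMap.sum_apply, ContinuousMap.mul_apply, ContinuousMap.star_apply,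
    ContinuousMap.coe_mk, Complex.star_def, Complex.conj_mul', Complex.norm_real, Real.norm_eq_abs,
    abs_of_nonneg (Real.sqrt_nonneg _)]
  rw [← Complex.ofReal_pow (Real.sqrt (F ω)), Real.sq_sqrt (by
    rw [hF]; exact Finset.sum_nonneg fun d _ => _root_.sq_nonneg _), hF]
  push_cast
  rfl

/-- The expectations of opposite letters are controlled by the fibre masses of one of them. -/
theorem sum_norm_E_sq_le {e : All.Part Ω} {W W' : R} {C : ℝ} (hW : V.Bdd (star W) C)
    (hW' : V.Bdd (star W') C) (v : V.Mover) :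
    (∀ ω, ∑ d, ‖V.E (W * V.proj e d * star W' * v.u) ω‖ ^ 2 ≤ C ^ 4) ∧
      ∑ d, V.μR (absC (V.E (W * V.proj e d * star W' * v.u)) *
        absC (V.E (W * V.proj e d * star W' * v.u))) ≤ C ^ 2 * Real.sqrt (V.gauss e W) := by
  have hpt : ∀ d ω, ‖V.E (W * V.proj e d * star W' * v.u) ω‖ ^ 2 ≤
      V.fib W (e.ind d) ω * V.fib W' (e.ind d) (v.T.symm ω) := by
    intro d ω
    have h1 := V.norm_E_sq_le (W * V.proj e d) (V.proj e d * star W' * v.u) ω
    have e2 : W * V.proj e d * (V.proj e d * star W' * v.u) =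
        W * V.proj e d * star W' * v.u := by
      simp only [proj, mul_assoc]
      rw [← mul_assoc (V.ι (e.ind d)) (V.ι (e.ind d)), ← map_mul, e.ind_mul_self]
    have e3 : W * V.proj e d * star (W * V.proj e d) = W * V.proj e d * star W := by
      simp only [proj, star_mul, star_ι, e.star_ind, mul_assoc]
      rw [← mul_assoc (V.ι (e.ind d)) (V.ι (e.ind d)), ← map_mul, e.ind_mul_self]
    have e4 : star (V.proj e d * star W' * v.u) * (V.proj e d * star W' * v.u) =
        star v.u * (W' * V.proj e d * star W') * v.u := by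
      simp only [proj, star_mul, star_star, star_ι, e.star_ind, mul_assoc]
      rw [← mul_assoc (V.ι (e.ind d)) (V.ι (e.ind d)), ← map_mul, e.ind_mul_self]
    rw [e2, e3, e4, v.E_conj_symm] at h1
    exact h1
  obtain ⟨a, ha⟩ : ∃ a : C(Ω, ℝ), ∀ ω,
      a ω = Real.sqrt (∑ d, V.fib W (e.ind d) ω * V.fib W (e.ind d) ω) :=
    ⟨⟨fun ω => Real.sqrt (∑ d, V.fib W (e.ind d) ω * V.fib W (e.ind d) ω), by fun_prop⟩,
      fun _ => rfl⟩
  have hsum : ∀ ω, ∑ d, ‖V.E (W * V.proj e d * star W' * v.u) ω‖ ^ 2 ≤ a ω * C ^ 2 := by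
    intro ω
    refine (Finset.sum_le_sum fun d _ => hpt d ω).trans ?_
    refine (Real.sum_mul_le_sqrt_mul_sqrt _ _ _).trans ?_
    simp only [ha, pow_two (V.fib W _ ω)]
    refine mul_le_mul_of_nonneg_left ?_ (Real.sqrt_nonneg _)
    refine (Real.sqrt_le_left (_root_.sq_nonneg C)).2 ?_
    refine (Finset.sum_sq_le_sq_sum_of_nonneg fun d _ => V.fib_ind_nonneg W' e d _).trans ?_
    refine pow_le_pow_left₀ (Finset.sum_nonneg fun d _ => V.fib_ind_nonneg W' e d _) ?_ 2
    rw [sum_fib]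
    exact V.re_E_self_star_le hW' _
  have haC : ∀ ω, a ω ≤ C ^ 2 := by
    intro ω
    rw [ha]
    refine (Real.sqrt_le_left (_root_.sq_nonneg C)).2 ?_
    simp only [← pow_two (V.fib W _ ω)]
    refine (Finset.sum_sq_le_sq_sum_of_nonneg fun d _ => V.fib_ind_nonneg W e d _).trans ?_
    refine pow_le_pow_left₀ (Finset.sum_nonneg fun d _ => V.fib_ind_nonneg W e d _) ?_ 2
    rw [sum_fib]
    exact V.re_E_self_star_le hW _
  refine ⟨fun ω => (hsum ω).trans ?_, ?_⟩
  · calc a ω * C ^ 2 ≤ C ^ 2 * C ^ 2 :=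
          mul_le_mul_of_nonneg_right (haC ω) (_root_.sq_nonneg C)
      _ = C ^ 4 := by ring
  rw [← map_sum]
  refine (V.μR_mono (g := (C ^ 2) • a) fun ω => ?_).trans ?_
  · simp only [ContinuousMap.sum_apply, ContinuousMap.mul_apply, absC_apply,
      ContinuousMap.smul_apply, smul_eq_mul, ← pow_two]
    exact (hsum ω).trans (le_of_eq (mul_comm _ _))
  rw [map_smul, smul_eq_mul]
  refine mul_le_mul_of_nonneg_left ((V.μR_le_sqrt a).trans (Real.sqrt_le_sqrt (le_of_eq ?_)))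
    (_root_.sq_nonneg C)
  rw [gauss_eq, ← map_sum]
  congr 1
  ext ω
  simp only [ContinuousMap.mul_apply, ContinuousMap.sum_apply, ha]
  exact Real.mul_self_sqrt (Finset.sum_nonneg fun c _ => mul_self_nonneg _)

/-- The two words of one expectation carry a mark each. -/
theorem opposite_le {P e : All.Part Ω} {κ : Fin P.n → ℂ} {C C₂ C₃ ε K ε' K' η : ℝ}
    {L W L' W' X₂ X₃ : R} (g h : V.Mover) (hκ : ∀ c, ‖κ c‖ ≤ 1)
    (hW : V.Bdd (star W) C) (hW' : V.Bdd (star W') C) (hW'₀ : V.Bdd W' C)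
    (hL' : V.Bdd (star L') C) (h₂ : V.Bdd (star X₂) C₂) (h₃ : V.Bdd (star X₃) C₃)
    (h₁ : V.RightCtl (star g.u * star L) ε' K') (h₀ : V.RightCtl (star L) ε K)
    (hP : ∀ d : Fin e.n, V.sq (V.pinch P (star h.u * (W' * V.proj e d * star W) * g.u) -
      V.ι (V.E (star h.u * (W' * V.proj e d * star W) * g.u))) ≤ η) :
    ‖∑ c, κ c • V.quad e (L * V.ι ((P.ind c).comp (g.T : C(Ω, Ω))) * W)
        (L' * V.ι ((P.ind c).comp (h.T : C(Ω, Ω))) * W') X₂ X₃‖ ≤
      C * (C₂ * C₃) * (e.n * (K' * Real.sqrt η + 2 * ε' * C ^ 2) +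
        (K * C * Real.sqrt (Real.sqrt (V.gauss e W)) + ε * C ^ 2)) := by
  obtain ⟨k, hk⟩ : ∃ k, k = ∑ c, κ c • P.ind c := ⟨_, rfl⟩
  have hk1 : ∀ ω, ‖k ω‖ ≤ 1 := fun ω => by simpa [hk] using norm_sum_smul_ind hκ ω
  obtain ⟨X, hX⟩ : ∃ X : Fin e.n → R, ∀ d, X d = star g.u * (W * V.proj e d * star W') * h.u :=
    ⟨_, fun _ => rfl⟩
  obtain ⟨X', hX'⟩ : ∃ X' : Fin e.n → R, ∀ d, X' d = star h.u * (W' * V.proj e d * star W) * g.u :=
    ⟨_, fun _ => rfl⟩
  have eX : ∀ d, star (X d) = X' d := fun d => by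
    simp [hX, hX', proj, star_ι, e.star_ind, mul_assoc]
  obtain ⟨Q, hQ⟩ : ∃ Q : Fin e.n → R,
      ∀ d, Q d = star h.u * star L' * V.ι (V.E (X₂ * V.proj e d * star X₃)) := ⟨_, fun _ => rfl⟩
  have hmain : ∑ c, κ c • V.quad e (L * V.ι ((P.ind c).comp (g.T : C(Ω, Ω))) * W)
      (L' * V.ι ((P.ind c).comp (h.T : C(Ω, Ω))) * W') X₂ X₃ =
      ∑ d, V.τ (L * g.u * V.ι k * V.pinch P (X d) * Q d) := by
    simp only [quad, Finset.smul_sum]
    rw [Finset.sum_comm]
    refine Finset.sum_congr rfl fun d _ => ?_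
    rw [hQ, ← mul_assoc (L * g.u * V.ι k * V.pinch P (X d))]
    simp only [τ, V.E_right]
    rw [hk, mul_assoc (L * g.u), ← V.sum_smul_ind_mul, Finset.mul_sum, Finset.sum_mul, map_sum,
      Finset.sum_mul, map_sum]
    refine Finset.sum_congr rfl fun c _ => ?_
    rw [mul_smul_comm, smul_mul_assoc, map_smul, smul_mul_assoc, map_smul, ← g.conj, ← h.conj]
    congr 3
    simp only [hX, proj, star_mul, star_star, star_ι, P.star_ind, mul_assoc]
  rw [hmain]
  obtain ⟨Z, hZdef⟩ : ∃ Z : Fin e.n → C(Ω, ℂ), ∀ d, Z d = V.E (X₂ * V.proj e d * star X₃) :=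
    ⟨_, fun _ => rfl⟩
  have hC23 : 0 ≤ C₂ * C₃ := mul_nonneg h₂.1 h₃.1
  have hZ : ∀ d ω, ‖Z d ω‖ ≤
      Real.sqrt (V.fib X₂ (e.ind d) ω) * Real.sqrt (V.fib X₃ (e.ind d) ω) :=
    fun d ω => hZdef d ▸ V.norm_E_le_sqrt_fib _ _ e d ω
  have hZ2 : ∑ d, V.μR (absC (Z d) * absC (Z d)) ≤ (C₂ * C₃) ^ 2 := by
    rw [← map_sum, ← V.μR_const ((C₂ * C₃) ^ 2)]
    refine V.μR_mono fun ω => ?_
    simp only [ContinuousMap.sum_apply, ContinuousMap.mul_apply, absC_apply,
      ContinuousMap.const_apply, ← pow_two]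
    refine (Finset.sum_le_sum fun d _ => pow_le_pow_left₀ (norm_nonneg _) (hZ d ω) 2).trans ?_
    refine (Finset.sum_sq_le_sq_sum_of_nonneg fun d _ => by positivity).trans ?_
    exact pow_le_pow_left₀ (Finset.sum_nonneg fun d _ => by positivity)
      (V.sum_sqrt_fib_mul_le h₂ h₃ e ω) 2
  have hZ1 : ∀ d ω, ‖Z d ω‖ ≤ C₂ * C₃ := fun d ω => (hZ d ω).trans
    ((Finset.single_le_sum (f := fun d => Real.sqrt (V.fib X₂ (e.ind d) ω) *
        Real.sqrt (V.fib X₃ (e.ind d) ω)) (fun d _ => by positivity) (Finset.mem_univ d)).trans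
      (V.sum_sqrt_fib_mul_le h₂ h₃ e ω))
  have hB : V.Bdd (star h.u * star L') C := by simpa using h.bdd_star.mul hL'
  have hQn : ∀ d, Real.sqrt (V.sq (Q d)) ≤
      C * Real.sqrt (V.μR (absC (Z d) * absC (Z d))) := fun d => by
    rw [hQ, ← hZdef, ← sq_ι]
    exact V.sqrt_sq_mul_le hB _
  have hsplit : ∀ d, star (L * g.u * V.ι k * V.pinch P (X d)) =
      (V.pinch P (X' d) - V.ι (V.E (X' d))) * V.ι (star k) * (star g.u * star L) +
        star g.u * (V.ι (star (V.E (W * V.proj e d * star W' * (h.divide g).u)) *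
          (star k).comp (g.T : C(Ω, Ω))) * star L) := by
    intro d
    have hv : X d = star g.u * (W * V.proj e d * star W' * (h.divide g).u) * g.u := by
      simp only [hX, Mover.divide, mul_assoc, Unitary.star_mul_self_of_mem g.mem_unitary, mul_one]
    have hE : V.E (X' d) =
        (star (V.E (W * V.proj e d * star W' * (h.divide g).u))).comp (g.T.symm : C(Ω, Ω)) := by
      rw [← eX, V.E_star, hv, g.E_conj_symm]
      rfl
    have e : star g.u * (V.ι (star (V.E (W * V.proj e d * star W' * (h.divide g).u)) *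
        (star k).comp (g.T : C(Ω, Ω))) * star L) =
        V.ι (V.E (X' d)) * V.ι (star k) * (star g.u * star L) := by
      rw [show star (V.E (W * V.proj e d * star W' * (h.divide g).u)) *
          (star k).comp (g.T : C(Ω, Ω)) =
        (V.E (X' d) * star k).comp (g.T : C(Ω, Ω)) by ext ω; simp [hE], ← mul_assoc (star g.u),
        g.star_ι_comp, map_mul]
      simp only [mul_assoc]
    rw [e, ← add_mul, ← add_mul, sub_add_cancel, star_mul, star_mul, star_mul, star_pinch, eX,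
      star_ι]
    simp only [mul_assoc]
  obtain ⟨f, hf⟩ : ∃ f : Fin e.n → C(Ω, ℂ), ∀ d, f d =
      star (V.E (W * V.proj e d * star W' * (h.divide g).u)) * (star k).comp (g.T : C(Ω, Ω)) :=
    ⟨_, fun _ => rfl⟩
  have hfle : ∀ d ω, ‖f d ω‖ ≤ ‖V.E (W * V.proj e d * star W' * (h.divide g).u) ω‖ := fun d ω => by
    simpa [hf] using mul_le_of_le_one_right (norm_nonneg _) (hk1 (g.T ω))
  have herr : ∀ d, Real.sqrt (V.sq ((V.pinch P (X' d) - V.ι (V.E (X' d))) * V.ι (star k) *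
      (star g.u * star L))) ≤ K' * Real.sqrt η + 2 * ε' * C ^ 2 := by
    intro d
    have hks : ∀ ω, ‖star k ω‖ ≤ 1 := fun ω => by simpa using hk1 ω
    have hp : V.Bdd (X' d) (C * C) := by
      have := (h.bdd_star.mul ((hW'₀.mul (V.bdd_ind e d)).mul hW)).mul g.bdd
      rw [one_mul, mul_one, mul_one] at this
      rw [hX']
      exact this
    refine (h₁.2 _ _ ((V.bdd_pinch_sub hp P).mul (V.bdd_ι zero_le_one hks))).trans ?_
    refine add_le_add (mul_le_mul_of_nonneg_left (Real.sqrt_le_sqrt ?_) h₁.1) (le_of_eq (by ring))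
    refine (V.sq_mul_ι_le _ hks).trans ?_
    rw [one_pow, one_mul, hX']
    exact hP d
  obtain ⟨hpt, hgs⟩ := V.sum_norm_E_sq_le (e := e) hW hW' (h.divide g)
  obtain ⟨F, hF⟩ : ∃ F : C(Ω, ℝ), ∀ ω, F ω = ∑ d, ‖f d ω‖ ^ 2 :=
    ⟨⟨fun ω => ∑ d, ‖f d ω‖ ^ 2, by fun_prop⟩, fun _ => rfl⟩
  have hmainsum : Real.sqrt (∑ d, V.sq (V.ι (f d) * star L)) ≤
      K * C * Real.sqrt (Real.sqrt (V.gauss e W)) + ε * C ^ 2 := by
    rw [V.sum_sq_ι_mul f F hF]
    have hF0 : ∀ ω, 0 ≤ F ω := fun ω => hF ω ▸ Finset.sum_nonneg fun d _ => _root_.sq_nonneg _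
    have hFC : ∀ ω, Real.sqrt (F ω) ≤ C ^ 2 := fun ω => by
      refine (Real.sqrt_le_left (_root_.sq_nonneg C)).2 ?_
      rw [hF]
      refine (Finset.sum_le_sum fun d _ => pow_le_pow_left₀ (norm_nonneg _) (hfle d ω) 2).trans
        ((hpt ω).trans (le_of_eq (by ring)))
    refine (h₀.2 _ _ (V.bdd_ι (_root_.sq_nonneg C) fun ω => ?_)).trans
      (add_le_add ?_ le_rfl)
    · simpa [abs_of_nonneg (Real.sqrt_nonneg _)] using hFC ω
    · rw [mul_assoc K]
      refine mul_le_mul_of_nonneg_left ?_ h₀.1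
      rw [sq_ι]
      calc Real.sqrt (V.μR _) ≤ Real.sqrt (C ^ 2 * Real.sqrt (V.gauss e W)) := by
            refine Real.sqrt_le_sqrt (le_trans ?_ hgs)
            rw [← map_sum]
            refine V.μR_mono fun ω => ?_
            simp only [ContinuousMap.mul_apply, absC_apply, ContinuousMap.coe_mk,
              Complex.norm_real, Real.norm_eq_abs, ContinuousMap.sum_apply, abs_mul_abs_self,
              Real.mul_self_sqrt (hF0 ω)]
            rw [hF]
            exact Finset.sum_le_sum fun d _ => (pow_le_pow_left₀ (norm_nonneg _) (hfle d ω) 2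
              ).trans (le_of_eq (pow_two _))
        _ = C * Real.sqrt (Real.sqrt (V.gauss e W)) := by
            rw [Real.sqrt_mul (_root_.sq_nonneg C), Real.sqrt_sq hW.1]
  have hterm : ∀ d, ‖V.τ (L * g.u * V.ι k * V.pinch P (X d) * Q d)‖ ≤
      (K' * Real.sqrt η + 2 * ε' * C ^ 2) * (C * (C₂ * C₃)) +
        Real.sqrt (V.sq (V.ι (f d) * star L)) *
          (C * Real.sqrt (V.μR (absC (Z d) * absC (Z d)))) := by
    intro d
    refine (V.norm_τ_mul_le _ _).trans ?_
    rw [hsplit d, ← hf]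
    refine (mul_le_mul_of_nonneg_right (V.sqrt_sq_add_le _ _) (Real.sqrt_nonneg _)).trans ?_
    rw [add_mul]
    refine add_le_add (mul_le_mul (herr d) ?_ (Real.sqrt_nonneg _)
      ((Real.sqrt_nonneg _).trans (herr d))) ?_
    · refine (hQn d).trans (mul_le_mul_of_nonneg_left ?_ hL'.1)
      rw [← sq_ι]
      exact V.sqrt_sq_le_of_bdd (V.bdd_ι hC23 (hZ1 d))
    · refine mul_le_mul ((V.sqrt_sq_mul_le g.bdd_star _).trans (one_mul _).le) (hQn d)
        (Real.sqrt_nonneg _) (Real.sqrt_nonneg _)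
  refine (norm_sum_le _ _).trans ((Finset.sum_le_sum fun d _ => hterm d).trans ?_)
  rw [Finset.sum_add_distrib, Finset.sum_const, Finset.card_univ, Fintype.card_fin, nsmul_eq_mul]
  simp only [mul_left_comm _ C]
  rw [← Finset.mul_sum]
  have hcs := (Real.sum_sqrt_mul_sqrt_le Finset.univ
    (f := fun d => V.sq (V.ι (f d) * star L)) (g := fun d => V.μR (absC (Z d) * absC (Z d)))
    (fun d => V.sq_nonneg _) fun d => V.μR_nonneg fun ω => mul_self_nonneg _).trans
    (mul_le_mul hmainsum ((Real.sqrt_le_left hC23).2 hZ2) (Real.sqrt_nonneg _)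
      ((Real.sqrt_nonneg _).trans hmainsum))
  nlinarith [mul_le_mul_of_nonneg_left hcs hL'.1]

/-- One mark in each expectation. -/
theorem cross_le {P e : All.Part Ω} {CW CW' C₁ C₃ : ℝ} {L W L' W' X₁ X₃ : R} (T T' : Ω ≃ₜ Ω)
    (hW : V.Bdd W CW) (hW' : V.Bdd W' CW') (h₁ : V.Bdd (star X₁) C₁) (h₃ : V.Bdd (star X₃) C₃) :
    ∑ c, ∑ d, V.μR (absC (V.E (L * V.ι ((P.ind c).comp (T : C(Ω, Ω))) * W * V.proj e d * star X₁)) *
        absC (V.E (L' * V.ι ((P.ind c).comp (T' : C(Ω, Ω))) * W' * V.proj e d * star X₃))) ≤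
      CW * C₁ * (CW' * C₃) *
        Real.sqrt (Real.sqrt (V.gauss (P.move T) L) * Real.sqrt (V.gauss (P.move T') L')) := by
  have key : ∀ (L W X : R) (CW C : ℝ) (T : Ω ≃ₜ Ω), V.Bdd W CW → V.Bdd (star X) C →
      ∑ c, ∑ d, V.μR
          (absC (V.E (L * V.ι ((P.ind c).comp (T : C(Ω, Ω))) * W * V.proj e d * star X)) *
            absC (V.E (L * V.ι ((P.ind c).comp (T : C(Ω, Ω))) * W * V.proj e d * star X))) ≤
        CW ^ 2 * C ^ 2 * Real.sqrt (V.gauss (P.move T) L) := by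
    intro L W X CW C T hW hX
    set Q := P.move T with hQ
    let a : C(Ω, ℝ) := ⟨fun ω => Real.sqrt (∑ c, V.fib L (Q.ind c) ω * V.fib L (Q.ind c) ω),
      by fun_prop⟩
    have ha : V.μR a ≤ Real.sqrt (V.gauss (P.move T) L) := by
      refine (V.μR_le_sqrt a).trans (Real.sqrt_le_sqrt (le_of_eq ?_))
      rw [gauss_eq, ← map_sum]
      congr 1
      ext ω
      simp only [ContinuousMap.mul_apply, ContinuousMap.sum_apply, a, ContinuousMap.coe_mk]
      exact Real.mul_self_sqrt (Finset.sum_nonneg fun c _ => mul_self_nonneg _)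
    simp only [← map_sum]
    refine (V.μR_mono (g := (CW ^ 2 * C ^ 2) • a) fun ω => ?_).trans ?_
    swap
    · rw [map_smul, smul_eq_mul]
      exact mul_le_mul_of_nonneg_left ha (by positivity)
    simp only [ContinuousMap.sum_apply, ContinuousMap.mul_apply, absC_apply,
      ContinuousMap.smul_apply, smul_eq_mul, ← pow_two]
    rw [Finset.sum_comm]
    set r : Fin e.n → R := fun d => W * V.proj e d * star X
    have hb : ∀ d (c : Fin Q.n), ‖V.E (L * V.ι (Q.ind c) * r d) ω‖ ^ 2 ≤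
        a ω * (V.E (star (r d) * V.ι (Q.ind c) * r d) ω).re := by
      intro d c
      have h1 := V.norm_E_sq_le (L * V.ι (Q.ind c)) (V.ι (Q.ind c) * r d) ω
      have e1 : L * V.ι (Q.ind c) * (V.ι (Q.ind c) * r d) = L * V.ι (Q.ind c) * r d := by
        rw [← mul_assoc, mul_assoc L, ← map_mul, Q.ind_mul_self]
      have e2 : L * V.ι (Q.ind c) * star (L * V.ι (Q.ind c)) = L * V.ι (Q.ind c) * star L := by
        rw [star_mul, star_ι, Q.star_ind, ← mul_assoc, mul_assoc L, ← map_mul, Q.ind_mul_self]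
      have e3 : star (V.ι (Q.ind c) * r d) * (V.ι (Q.ind c) * r d) =
          star (r d) * V.ι (Q.ind c) * r d := by
        rw [star_mul, star_ι, Q.star_ind, ← mul_assoc, mul_assoc (star (r d)), ← map_mul,
          Q.ind_mul_self]
      rw [e1, e2, e3] at h1
      refine h1.trans (mul_le_mul_of_nonneg_right ?_ ?_)
      · exact Real.le_sqrt_of_sq_le (by
          rw [pow_two]
          exact Finset.single_le_sum (f := fun c => V.fib L (Q.ind c) ω * V.fib L (Q.ind c) ω)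
            (fun c _ => mul_self_nonneg _) (Finset.mem_univ c))
      · have := (Complex.nonneg_iff.1 (V.E_nonneg (V.ι (Q.ind c) * r d) ω)).1
        rwa [e3] at this
    calc ∑ d, ∑ c, ‖V.E (L * V.ι ((P.ind c).comp (T : C(Ω, Ω))) * W * V.proj e d * star X) ω‖ ^ 2
        ≤ ∑ d, ∑ c : Fin Q.n, a ω * (V.E (star (r d) * V.ι (Q.ind c) * r d) ω).re :=
          Finset.sum_le_sum fun d _ => Finset.sum_le_sum fun c _ => by
            rw [show L * V.ι ((P.ind c).comp (T : C(Ω, Ω))) * W * V.proj e d * star X =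
              L * V.ι ((P.move T).ind c) * r d by simp only [r, All.Part.ind_move, mul_assoc]]
            exact hb d c
      _ = ∑ d, a ω * (V.E (star (r d) * r d) ω).re := by
          refine Finset.sum_congr rfl fun d _ => ?_
          rw [← Finset.mul_sum, ← Complex.re_sum, ← ContinuousMap.sum_apply, ← map_sum,
            ← Finset.sum_mul, ← Finset.mul_sum, ← map_sum, Q.sum_ind, map_one, mul_one]
      _ ≤ ∑ d, a ω * (CW ^ 2 * V.fib X (e.ind d) ω) := by
          refine Finset.sum_le_sum fun d _ => mul_le_mul_of_nonneg_left ?_ (Real.sqrt_nonneg _)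
          have h1 := hW.re_E_le (V.proj e d * star X) ω
          rw [show W * (V.proj e d * star X) = r d by simp only [r, mul_assoc]] at h1
          refine h1.trans (le_of_eq ?_)
          simp only [fib, reC_apply, proj, star_mul, star_star, star_ι, e.star_ind, mul_assoc]
          rw [← mul_assoc (V.ι (e.ind d)) (V.ι (e.ind d)), ← map_mul, e.ind_mul_self]
      _ ≤ CW ^ 2 * C ^ 2 * a ω := by
          rw [← Finset.mul_sum, ← Finset.mul_sum, sum_fib,
            show CW ^ 2 * C ^ 2 * a ω = a ω * (CW ^ 2 * C ^ 2) by ring]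
          exact mul_le_mul_of_nonneg_left (mul_le_mul_of_nonneg_left
            (V.re_E_self_star_le hX ω) (_root_.sq_nonneg _)) (Real.sqrt_nonneg _)
  refine (Finset.sum_le_sum fun c _ => Finset.sum_le_sum fun d _ => V.μR_mul_le _ _).trans ?_
  refine (Finset.sum_le_sum fun c _ => Real.sum_sqrt_mul_sqrt_le _
    (fun d => V.μR_nonneg fun ω => mul_self_nonneg _)
    fun d => V.μR_nonneg fun ω => mul_self_nonneg _).trans ?_
  refine (Real.sum_sqrt_mul_sqrt_le _
    (fun c => Finset.sum_nonneg fun d _ => V.μR_nonneg fun ω => mul_self_nonneg _)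
    fun c => Finset.sum_nonneg fun d _ => V.μR_nonneg fun ω => mul_self_nonneg _).trans ?_
  refine (mul_le_mul (Real.sqrt_le_sqrt (key L W X₁ CW C₁ T hW h₁))
    (Real.sqrt_le_sqrt (key L' W' X₃ CW' C₃ T' hW' h₃)) (Real.sqrt_nonneg _)
    (Real.sqrt_nonneg _)).trans (le_of_eq ?_)
  rw [← Real.sqrt_mul (by positivity),
    show CW ^ 2 * C₁ ^ 2 * Real.sqrt (V.gauss (P.move T) L) *
        (CW' ^ 2 * C₃ ^ 2 * Real.sqrt (V.gauss (P.move T') L')) =
      (CW * C₁ * (CW' * C₃)) ^ 2 *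
        (Real.sqrt (V.gauss (P.move T) L) * Real.sqrt (V.gauss (P.move T') L')) by ring,
    Real.sqrt_mul (_root_.sq_nonneg _), Real.sqrt_sq]
  exact mul_nonneg (mul_nonneg hW.1 h₁.1) (mul_nonneg hW'.1 h₃.1)

end Env

end Vale.Agent.P078.Any.St
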