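import Vale.Agent.P078.Any.St.StageTau
import Vale.Agent.P078.All.StageGauss

/-!
The mean change of the fibre mass of a product in one stage, for a state.
-/

namespace Vale.Agent.P078.Any.St

open scoped ComplexOrder ComplexConjugate
open Vale.Agent.P078.All (State Ev run avg cellProb cellProb_nonneg norm_sum_piecewise_le momBd
  one_le_momBd quadBd quadBd_nonneg norm_avg_sub_le cst_slot copyConj copyConj_copyConj
  norm_copyConj copyConj_prod copyConj_sgn sqrt_mul_sqrt_le)
open Vale.Agent.P078.All.Moments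
open Vale.Agent.P078.All.Env (cplx cplx_apply reC reC_apply absC absC_apply)

set_option linter.unusedSectionVars false
set_option linter.unusedSimpArgs false

variable {R : Type} [Ring R] [StarRing R] [Algebra ℂ R] [StarModule ℂ R]
  {Ω : Type} [TopologicalSpace Ω] [CompactSpace Ω] [T2Space Ω] [TotallyDisconnectedSpace Ω]

namespace Env

variable (V : Env R Ω)

/-- The four-word form of a family. -/
noncomputable def quadF (P : All.Part Ω) (X : Fin 4 → R) : ℂ := V.quad P (X 0) (X 1) (X 2) (X 3)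

theorem quad_sum_left {ι : Type*} [Fintype ι] (P : All.Part Ω) (κ : ι → ℂ) (Y : ι → R)
    (X₁ X₂ X₃ : R) :
    V.quad P (∑ c, κ c • Y c) X₁ X₂ X₃ = ∑ c, κ c * V.quad P (Y c) X₁ X₂ X₃ := by
  simp only [quad, Finset.mul_sum]
  rw [Finset.sum_comm]
  refine Finset.sum_congr rfl fun e _ => ?_
  simp only [Finset.sum_mul, map_sum, smul_mul_assoc, map_smul, smul_eq_mul]

theorem quadF_update_sum {ι : Type*} [Fintype ι] (P : All.Part Ω) (X : Fin 4 → R) (a : Fin 4)
    (κ : ι → ℂ) (Y : ι → R) :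
    V.quadF P (Function.update X a (∑ c, copyConj a (κ c) • Y c)) =
      ∑ c, κ c * V.quadF P (Function.update X a (Y c)) := by
  fin_cases a
  · simp [quadF, copyConj, quad_sum_left]
  · simp only [quadF, copyConj]
    simp
    rw [V.quad_conj P (∑ c, conj (κ c) • Y c) (X 0) (X 3) (X 2), quad_sum_left, map_sum]
    refine Finset.sum_congr rfl fun c _ => ?_
    rw [map_mul, Complex.conj_conj, ← quad_conj]
  · simp only [quadF, copyConj]
    simp
    rw [← V.quad_swap P (X 0) (X 1), quad_sum_left]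
    refine Finset.sum_congr rfl fun c _ => ?_
    rw [quad_swap]
  · simp only [quadF, copyConj]
    simp
    rw [← V.quad_swap P (X 0) (X 1), V.quad_conj P (∑ c, conj (κ c) • Y c) (X 2) (X 1) (X 0),
      quad_sum_left, map_sum]
    refine Finset.sum_congr rfl fun c _ => ?_
    rw [map_mul, Complex.conj_conj, ← quad_conj, quad_swap]

theorem norm_quadF_le {C : ℝ} {X : Fin 4 → R} (P : All.Part Ω) (a : Fin 4)
    (h : ∀ b, b ≠ a → V.Bdd (star (X b)) C) :
    ‖V.quadF P X‖ ≤ C * C * C * Real.sqrt (V.sq (star (X a))) := by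
  fin_cases a
  · exact V.norm_quad_le (h 1 (by decide)) (h 2 (by decide)) (h 3 (by decide)) P
  · rw [quadF, ← Complex.norm_conj, ← quad_conj]
    exact V.norm_quad_le (h 0 (by decide)) (h 3 (by decide)) (h 2 (by decide)) P
  · rw [quadF, ← quad_swap]
    exact V.norm_quad_le (h 3 (by decide)) (h 0 (by decide)) (h 1 (by decide)) P
  · rw [quadF, ← quad_swap, ← Complex.norm_conj, ← quad_conj]
    exact V.norm_quad_le (h 2 (by decide)) (h 1 (by decide)) (h 0 (by decide)) P

theorem quadF_sum {ι : Type*} [Fintype ι] [DecidableEq ι] (P : All.Part Ω) (g : Fin 4 → ι → ℂ)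
    (Y : Fin 4 → ι → R) :
    V.quadF P (fun a => ∑ c, copyConj a (g a c) • Y a c) =
      ∑ f : Fin 4 → ι, (∏ a, g a (f a)) * V.quadF P (fun a => Y a (f a)) := by
  have e : ∀ (v : Fin 4 → ι → ℂ) (a : Fin 4) (z : ι → ℂ),
      (fun b => ∑ c, copyConj b (Function.update v a z b c) • Y b c) =
        Function.update (fun b => ∑ c, copyConj b (v b c) • Y b c) a
          (∑ c, copyConj a (z c) • Y a c) := by
    intro v a z
    funext b
    by_cases hb : b = a
    · subst hb; simp
    · simp [Function.update_of_ne hb]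
  let Φ : MultilinearMap ℂ (fun _ : Fin 4 => ι → ℂ) ℂ :=
    { toFun := fun v => V.quadF P fun a => ∑ c, copyConj a (v a c) • Y a c
      map_update_add' := by
        intro inst v a x y
        obtain rfl : inst = instDecidableEqFin 4 := Subsingleton.elim _ _
        simp only [e, quadF_update_sum, Pi.add_apply, add_mul, Finset.sum_add_distrib]
      map_update_smul' := by
        intro inst v a r x
        obtain rfl : inst = instDecidableEqFin 4 := Subsingleton.elim _ _
        simp only [e, quadF_update_sum, Pi.smul_apply, smul_eq_mul, mul_assoc,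
          ← Finset.mul_sum] }
  have hΦ : ∀ v, Φ v = V.quadF P fun a => ∑ c, copyConj a (v a c) • Y a c := fun v => rfl
  have hg : ∀ a, ∑ c, g a c • (Pi.single c 1 : ι → ℂ) = g a := fun a => by
    funext d
    simp [Pi.single_apply]
  have h := Φ.map_sum fun a c => g a c • (Pi.single c 1 : ι → ℂ)
  simp only [hg] at h
  rw [← hΦ]
  refine h.trans (Finset.sum_congr rfl fun f _ => ?_)
  rw [Φ.map_smul_univ, smul_eq_mul, hΦ]
  congr 2
  funext a
  rw [Finset.sum_eq_single (f a)]
  · simp [copyConj]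
  · intro c _ hc
    simp [copyConj, hc]
  · simp

theorem gauss_le_of_bdd {x : R} {C : ℝ} (h : V.Bdd (star x) C) (P : All.Part Ω) :
    V.gauss P x ≤ C ^ 4 := by
  rw [gauss_eq, ← map_sum]
  refine le_trans (V.μR_mono (g := ContinuousMap.const Ω (C ^ 4)) fun ω => ?_)
    (le_of_eq (V.μR_const _))
  · simp only [ContinuousMap.sum_apply, ContinuousMap.mul_apply, ContinuousMap.const_apply]
    have h0 := fun c => V.fib_ind_nonneg x P c ω
    have h1 := V.re_E_self_star_le h ω
    rw [← V.sum_fib x P ω] at h1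
    calc ∑ c, V.fib x (P.ind c) ω * V.fib x (P.ind c) ω
        ≤ (∑ c, V.fib x (P.ind c) ω) ^ 2 := by
          simpa only [← pow_two] using Finset.sum_sq_le_sq_sum_of_nonneg fun c _ => h0 c
      _ ≤ (C ^ 2) ^ 2 := pow_le_pow_left₀ (Finset.sum_nonneg fun c _ => h0 c) h1 2
      _ = C ^ 4 := by ring

theorem absC_E_swap (x y : R) (P : All.Part Ω) (e : Fin P.n) :
    absC (V.E (x * V.proj P e * star y)) = absC (V.E (y * V.proj P e * star x)) := by
  rw [← V.star_E_mul x y]
  ext ω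
  simp

theorem norm_quad_le_sum (P : All.Part Ω) (X₀ X₁ X₂ X₃ : R) :
    ‖V.quad P X₀ X₁ X₂ X₃‖ ≤ ∑ d, V.μR (absC (V.E (X₀ * V.proj P d * star X₁)) *
      absC (V.E (X₂ * V.proj P d * star X₃))) := by
  refine (norm_sum_le _ _).trans (Finset.sum_le_sum fun d _ => (V.norm_μ_le _).trans (le_of_eq ?_))
  congr 1
  ext ω
  simp

/-- The bound of the four-word form by one word from each expectation. -/
theorem norm_quadF_le_cross (P : All.Part Ω) (X : Fin 4 → R) {u v : Fin 4} (hu : u = 0 ∨ u = 1)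
    (hv : v = 2 ∨ v = 3) :
    ‖V.quadF P X‖ ≤ ∑ d, V.μR (absC (V.E (X u * V.proj P d * star (X (if u = 0 then 1 else 0)))) *
      absC (V.E (X v * V.proj P d * star (X (if v = 2 then 3 else 2))))) := by
  refine (V.norm_quad_le_sum P _ _ _ _).trans (le_of_eq ?_)
  rcases hu with rfl | rfl <;> rcases hv with rfl | rfl <;>
    simp [V.absC_E_swap (X 1) (X 0), V.absC_E_swap (X 3) (X 2)]

end Env

variable {V : Env R Ω} {S : Type} [Fintype S] (b : ℕ → R) (q : ℕ → Mono V S) {n : ℕ}

/-- The four copies at values of their sites. -/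
noncomputable def copies (w : Fin 4 × Sites q n → C(Ω, ℂ)) (a : Fin 4) : R :=
  prodMap b q fun i => w (a, i)

/-- The values of one stage in the four copies. -/
noncomputable def slot4 (s : State Ω S) (P : All.Part Ω) (i : Fin 4 × Sites q n)
    (o : Option (Fin P.n)) : C(Ω, ℂ) :=
  slotVal (siteOf q i.2) s P o

/-- All suffixes give pinchings close to the expectations, relative to a fixed partition `e`. -/
def Pinch2OK (n : ℕ) (s : State Ω S) (η : ℝ) (e P : All.Part Ω) : Prop :=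
  ∀ i j : Sites q n, ∀ d : Fin e.n,
    V.sq (V.pinch P (star (siteOf q i).g.u *
        (chainVal (fun k => b (k + ((i.1 : ℕ) + 1))) (fun k => q (k + ((i.1 : ℕ) + 1))) s
            (n - ((i.1 : ℕ) + 1)) * V.proj e d *
          star (chainVal (fun k => b (k + ((j.1 : ℕ) + 1))) (fun k => q (k + ((j.1 : ℕ) + 1))) s
            (n - ((j.1 : ℕ) + 1)))) * (siteOf q j).g.u) -
      V.ι (V.E (star (siteOf q i).g.u *
        (chainVal (fun k => b (k + ((i.1 : ℕ) + 1))) (fun k => q (k + ((i.1 : ℕ) + 1))) s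
            (n - ((i.1 : ℕ) + 1)) * V.proj e d *
          star (chainVal (fun k => b (k + ((j.1 : ℕ) + 1))) (fun k => q (k + ((j.1 : ℕ) + 1))) s
            (n - ((j.1 : ℕ) + 1)))) * (siteOf q j).g.u))) ≤ η

/-- The translated stage partition nearly attains the fibre masses of the prefixes. -/
def PrefixOK (n : ℕ) (s : State Ω S) (η : ℝ) (P : All.Part Ω) : Prop :=
  ∀ i : Sites q n, V.gauss (P.move (siteOf q i).g.T) (chainVal b q s i.1) ≤
    V.gv (chainVal b q s i.1) + η

/-- A fixed partition nearly attains the fibre masses of the suffixes. -/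
def SuffixOK (n : ℕ) (s : State Ω S) (η : ℝ) (e : All.Part Ω) : Prop :=
  ∀ i : Sites q n, V.gauss e (chainVal (fun k => b (k + ((i.1 : ℕ) + 1)))
      (fun k => q (k + ((i.1 : ℕ) + 1))) s (n - ((i.1 : ℕ) + 1))) ≤
    V.gv (chainVal (fun k => b (k + ((i.1 : ℕ) + 1))) (fun k => q (k + ((i.1 : ℕ) + 1))) s
      (n - ((i.1 : ℕ) + 1))) + η

variable [DecidableEq (Sites q n)]

/-- The hypothesis giving the bounds of the intervals. -/
def ChainBd (n : ℕ) (C : ℝ) : Prop :=
  ∀ w : Sites q n → C(Ω, ℂ), (∀ i, SiteOK q i (w i)) → ∀ i l, i + l ≤ n →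
    V.Bdd (V.seg (fun k => b (k + i)) (fun k => wval q w (k + i)) l) C ∧
    V.Bdd (star (V.seg (fun k => b (k + i)) (fun k => wval q w (k + i)) l)) C ∧
    (∀ k ω, ‖wval q w k ω‖ ≤ C)

variable {b q}

theorem ChainBd.bdd_prod {C : ℝ} (hC : ChainBd b q n C) {w : Sites q n → C(Ω, ℂ)}
    (hw : ∀ i, SiteOK q i (w i)) : V.Bdd (star (prodMap b q w)) C := by
  simpa [prodMap_apply] using (hC w hw 0 n (by omega)).2.1

theorem ChainBd.bdd_chainVal {C : ℝ} (hC : ChainBd b q n C) (s : State Ω S) {i l : ℕ}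
    (h : i + l ≤ n) :
    V.Bdd (star (chainVal (fun k => b (k + i)) (fun k => q (k + i)) s l)) C := by
  have := (hC (fun x => siteVal (siteOf q x) s) (fun x => good_siteVal q x s) i l h).2.1
  rwa [show V.seg (fun k => b (k + i)) (fun k => wval q (fun x : Sites q n =>
      siteVal (siteOf q x) s) (k + i)) l = chainVal (fun k => b (k + i)) (fun k => q (k + i)) s l
    from Env.seg_congr fun k hk => wval_siteVal q s (by omega)] at this

theorem ChainBd.bdd_chainVal' {C : ℝ} (hC : ChainBd b q n C) (s : State Ω S) {i l : ℕ}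
    (h : i + l ≤ n) :
    V.Bdd (chainVal (fun k => b (k + i)) (fun k => q (k + i)) s l) C := by
  have := (hC (fun x => siteVal (siteOf q x) s) (fun x => good_siteVal q x s) i l h).1
  rwa [show V.seg (fun k => b (k + i)) (fun k => wval q (fun x : Sites q n =>
      siteVal (siteOf q x) s) (k + i)) l = chainVal (fun k => b (k + i)) (fun k => q (k + i)) s l
    from Env.seg_congr fun k hk => wval_siteVal q s (by omega)] at this

theorem PrefCtl.ctl {C ε K : ℝ} (hK : PrefCtl b q n C ε K) (s : State Ω S) (i : Sites q n)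
    {f : C(Ω, ℂ)} (hf : ∀ ω, ‖f ω‖ ≤ C) :
    V.RightCtl (star (siteOf q i).g.u * star (chainVal b q s i.1 * V.ι f)) ε K ∧
      V.RightCtl (star (chainVal b q s i.1 * V.ι f)) ε K := by
  have h := hK.2 (fun x => siteVal (siteOf q x) s) (fun x => good_siteVal q x s) i f hf
  rwa [show V.seg b (wval q fun x : Sites q n => siteVal (siteOf q x) s) i.1 = chainVal b q s i.1
    from Env.seg_congr fun k hk => wval_siteVal q s (hk.trans i.1.2)] at h

/-- A product with one mark and no other change, split at the mark. -/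
theorem prodMap_mark_pure {C : ℝ} (hC : ChainBd b q n C) {s : State Ω S} {w : Sites q n → C(Ω, ℂ)}
    {i : Sites q n} (hw : ∀ l, l ≠ i → w l = siteVal (siteOf q l) s)
    (hg : ∀ l, SiteOK q l (w l)) (P : All.Part Ω) :
    ∃ f : C(Ω, ℂ), (∀ ω, ‖f ω‖ ≤ C) ∧
      V.Bdd (star (chainVal b q s i.1 * V.ι f)) (C * C) ∧
      V.Bdd (V.ι f * chainVal (fun k => b (k + ((i.1 : ℕ) + 1))) (fun k => q (k + ((i.1 : ℕ) + 1))) s
        (n - ((i.1 : ℕ) + 1))) (C * C) ∧
      ∀ c : Fin P.n, prodMap b q (Function.update w i (slotVal (siteOf q i) s P (some c))) =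
        chainVal b q s i.1 * V.ι f * V.ι (cellVal (siteOf q i) P c) *
          chainVal (fun k => b (k + ((i.1 : ℕ) + 1))) (fun k => q (k + ((i.1 : ℕ) + 1))) s
            (n - ((i.1 : ℕ) + 1)) := by
  have hi := i.1.2
  have hgu : ∀ l, SiteOK q l (Function.update w i (openVal (siteOf q i) s) l) := fun l => by
    by_cases h : l = i
    · subst h; rw [Function.update_self]; exact good_openVal q l s
    · rw [Function.update_of_ne h]; exact hg l
  have hv : ∀ k, k < n → k ≠ (i.1 : ℕ) → wval q w k = (q k).val s := fun k hk hne =>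
    wval_eq_val q hk fun l hl => hw l fun e => hne (by rw [← hl, e])
  have e1 : V.seg b (wval q w) i.1 = chainVal b q s i.1 :=
    Env.seg_congr fun k hk => hv k (by omega) (by omega)
  have e2 : V.seg (fun k => b (k + ((i.1 : ℕ) + 1))) (fun k => wval q w (k + ((i.1 : ℕ) + 1)))
      (n - ((i.1 : ℕ) + 1)) = chainVal (fun k => b (k + ((i.1 : ℕ) + 1)))
      (fun k => q (k + ((i.1 : ℕ) + 1))) s (n - ((i.1 : ℕ) + 1)) :=
    Env.seg_congr fun k hk => hv _ (by omega) (by omega)
  have hC0 : 0 ≤ C := (hC w hg 0 0 (Nat.zero_le _)).1.1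
  have ha : V.Bdd (V.ι (wval q (Function.update w i (openVal (siteOf q i) s)) i.1)) C :=
    V.bdd_ι hC0 ((hC _ hgu 0 0 (Nat.zero_le _)).2.2 _)
  refine ⟨_, (hC _ hgu 0 0 (Nat.zero_le _)).2.2 i.1, ?_, ?_, fun c => ?_⟩
  · rw [← e1, star_mul, V.star_ι, mul_comm C C]
    refine Env.Bdd.mul (V.bdd_ι hC0 fun ω => ?_) (by simpa using (hC w hg 0 i.1 (by omega)).2.1)
    simpa using (hC _ hgu 0 0 (Nat.zero_le _)).2.2 _ ω
  · rw [← e2]
    exact Env.Bdd.mul ha (hC w hg _ _ (by omega)).1
  · rw [prodMap_mark, e1, e2]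

/-- Two marks in one copy. -/
theorem quad_pair_le {C ε K η : ℝ} (hC : ChainBd b q n C) (hK : PrefCtl b q n C ε K) {s : State Ω S} {P : All.Part Ω}
    (hP : PinchOK b q n s η P) (e : All.Part Ω) (a : Fin 4) {i j : Sites q n}
    (hij : (i.1 : ℕ) < j.1) {w : Fin 4 × Sites q n → C(Ω, ℂ)}
    (hw : ∀ x : Fin 4 × Sites q n, SiteOK q x.2 (w x))
    (hmid : ∀ l : Sites q n, (i.1 : ℕ) < l.1 → (l.1 : ℕ) < j.1 → w (a, l) = siteVal (siteOf q l) s)
    {κ : Fin P.n → ℂ} (hκ : ∀ c, ‖κ c‖ ≤ 1) :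
    ‖∑ c, κ c * V.quadF e (copies b q (Finset.piecewise {(a, i), (a, j)}
        (fun x => slot4 q s P x (some c)) w))‖ ≤
      C * C * C * (C * C * (K * (Real.sqrt η + smallG b q n s) + 3 * ε * C)) := by
  have hX : ∀ c, copies b q (Finset.piecewise {(a, i), (a, j)}
      (fun x => slot4 q s P x (some c)) w) = Function.update (copies b q w) a (prodMap b q
        (Finset.piecewise {i, j} (fun l => slotVal (siteOf q l) s P (some c))
          fun l => w (a, l))) := by
    intro c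
    funext b'
    by_cases hb : b' = a
    · subst hb
      rw [Function.update_self, copies]
      congr 1
      funext l
      by_cases hl : l ∈ ({i, j} : Finset (Sites q n))
      · rw [Finset.piecewise_eq_of_mem _ _ _ hl, Finset.piecewise_eq_of_mem _ _ _
          (by simpa using hl)]
        rfl
      · rw [Finset.piecewise_eq_of_notMem _ _ _ hl, Finset.piecewise_eq_of_notMem _ _ _
          (by simpa using hl)]
    · rw [Function.update_of_ne hb, copies, copies]
      congr 1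
      funext l
      rw [Finset.piecewise_eq_of_notMem _ _ _ (by simp [hb])]
  simp only [hX]
  rw [← V.quadF_update_sum]
  refine (V.norm_quadF_le (C := C) e a fun b' hb => ?_).trans ?_
  · rw [Function.update_of_ne hb]
    exact hC.bdd_prod fun l => hw (b', l)
  · rw [Function.update_self]
    have hC0 : 0 ≤ C := (hC.bdd_prod fun l => hw (a, l)).1
    refine mul_le_mul_of_nonneg_left ?_ (mul_nonneg (mul_nonneg hC0 hC0) hC0)
    refine (sqrt_sq_sum_pair_le hC hK hP hij (fun l => hw (a, l)) hmid fun c => ?_).trans ?_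
    · rw [norm_copyConj]; exact hκ c
    · refine mul_le_mul_of_nonneg_left (add_le_add (mul_le_mul_of_nonneg_left
        (add_le_add le_rfl ?_) hK.1) le_rfl) (mul_nonneg hC0 hC0)
      have := j.1.2
      exact le_smallG b q s (by omega) (by omega)

/-- One mark in each word of one expectation. -/
theorem quad_opposite_le {C ε K ε' K' η η' : ℝ} (hC : ChainBd b q n C) (hC1 : 1 ≤ C) (hη' : 0 ≤ η')
    (hK : PrefCtl b q n C ε K) (hK' : PrefCtl b q n C ε' K') {s : State Ω S}
    {e P : All.Part Ω} (hP : Pinch2OK b q n s η e P) (he : SuffixOK b q n s η' e) {i j : Sites q n}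
    {w₀ w₁ : Sites q n → C(Ω, ℂ)} (h₀ : ∀ l, l ≠ i → w₀ l = siteVal (siteOf q l) s)
    (h₁ : ∀ l, l ≠ j → w₁ l = siteVal (siteOf q l) s) (g₀ : ∀ l, SiteOK q l (w₀ l))
    (g₁ : ∀ l, SiteOK q l (w₁ l)) {X₂ X₃ : R} (h₂ : V.Bdd (star X₂) C) (h₃ : V.Bdd (star X₃) C)
    {κ : Fin P.n → ℂ} (hκ : ∀ c, ‖κ c‖ ≤ 1) :
    ‖∑ c, κ c * V.quad e (prodMap b q (Function.update w₀ i (slotVal (siteOf q i) s P (some c))))
        (prodMap b q (Function.update w₁ j (slotVal (siteOf q j) s P (some c)))) X₂ X₃‖ ≤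
      C * C * (C * C) * (e.n * (K' * Real.sqrt η + 2 * ε' * (C * C) ^ 2) +
        (K * (C * C) * (smallG b q n s + Real.sqrt (Real.sqrt η')) + ε * (C * C) ^ 2)) := by
  obtain ⟨f, hf, -, -, ea⟩ := prodMap_mark_pure hC h₀ g₀ P
  obtain ⟨f', -, hL', -, ea'⟩ := prodMap_mark_pure hC h₁ g₁ P
  have hC0 : 0 ≤ C := h₂.1
  have hCC : C ≤ C * C := le_mul_of_one_le_left hC0 hC1
  have hi := i.1.2
  have hj := j.1.2
  simp only [ea, ea']
  refine (V.opposite_le (siteOf q i).g (siteOf q j).g hκ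
    ((hC.bdd_chainVal s (by omega)).mono hCC) ((hC.bdd_chainVal s (by omega)).mono hCC)
    ((hC.bdd_chainVal' s (by omega)).mono hCC) hL' h₂ h₃ (hK'.ctl s i hf).1 (hK.ctl s i hf).2
    (hP j i)).trans ?_
  refine mul_le_mul_of_nonneg_left (add_le_add le_rfl (add_le_add (mul_le_mul_of_nonneg_left ?_
    (mul_nonneg hK.1 (mul_nonneg hC0 hC0))) le_rfl)) (by positivity)
  refine ((Real.sqrt_le_sqrt (Real.sqrt_le_sqrt (he i))).trans ?_).trans
    (add_le_add (le_smallG b q (m := n) (i := (i.1 : ℕ) + 1) s (show n - ((i.1 : ℕ) + 1) < n by omega) (by omega)) le_rfl)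
  have sadd : ∀ {x y : ℝ}, 0 ≤ x → 0 ≤ y → Real.sqrt (x + y) ≤ Real.sqrt x + Real.sqrt y := by
    intro x y hx hy
    refine (Real.sqrt_le_left (by positivity)).2 ?_
    rw [add_sq, Real.sq_sqrt hx, Real.sq_sqrt hy]
    nlinarith [Real.sqrt_nonneg x, Real.sqrt_nonneg y]
  exact (Real.sqrt_le_sqrt (sadd (V.gv_nonneg _) hη')).trans
    (sadd (Real.sqrt_nonneg _) (Real.sqrt_nonneg _))

/-- One mark in each expectation. -/
theorem quad_cross_le {C η : ℝ} (hC : ChainBd b q n C) (hη : 0 ≤ η) {s : State Ω S}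
    {e P : All.Part Ω} (hP : PrefixOK b q n s η P) {i j : Sites q n}
    {w₀ w₁ : Sites q n → C(Ω, ℂ)} (h₀ : ∀ l, l ≠ i → w₀ l = siteVal (siteOf q l) s)
    (h₁ : ∀ l, l ≠ j → w₁ l = siteVal (siteOf q l) s) (g₀ : ∀ l, SiteOK q l (w₀ l))
    (g₁ : ∀ l, SiteOK q l (w₁ l)) {Y₀ Y₁ : R} (k₀ : V.Bdd (star Y₀) C) (k₁ : V.Bdd (star Y₁) C) :
    ∑ c, ∑ d, V.μR
      (absC (V.E (prodMap b q (Function.update w₀ i (slotVal (siteOf q i) s P (some c))) *
          V.proj e d * star Y₀)) *
        absC (V.E (prodMap b q (Function.update w₁ j (slotVal (siteOf q j) s P (some c))) *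
          V.proj e d * star Y₁))) ≤
      C * C * C * (C * C * C) * (C * (smallG b q n s + Real.sqrt (Real.sqrt η))) := by
  obtain ⟨f, -, -, hW, ea⟩ := prodMap_mark_pure hC h₀ g₀ P
  obtain ⟨f', -, -, hW', ea'⟩ := prodMap_mark_pure hC h₁ g₁ P
  have hC0 : 0 ≤ C := k₀.1
  have hac : ∀ (a x : C(Ω, ℂ)) (L : R), L * V.ι a * V.ι x = L * V.ι x * V.ι a := fun a x L => by
    simp only [mul_assoc, ← map_mul, mul_comm a x]
  simp only [ea, ea']
  simp only [hac f, hac f', mul_assoc _ (V.ι f) _, mul_assoc _ (V.ι f') _]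
  simp only [← mul_assoc]
  have h := V.cross_le (P := P) (e := e) (L := chainVal b q s i.1) (L' := chainVal b q s j.1)
    (siteOf q i).g.T (siteOf q j).g.T hW hW' k₀ k₁
  simp only [← mul_assoc] at h
  refine le_trans h ?_
  rw [mul_assoc _ C (_ + _)]
  refine mul_le_mul_of_nonneg_left
    ((sqrt_mul_sqrt_le (V.gv_nonneg _) hη hC0 (hP i)
      (V.gauss_le_of_bdd ?_ _)).trans ?_) (by positivity)
  · simpa using hC.bdd_chainVal s (i := 0) (l := (j.1 : ℕ)) (by omega)
  · refine mul_le_mul_of_nonneg_left (add_le_add ?_ le_rfl) hC0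
    simpa using le_smallG b q (m := n) s (i := 0) i.1.2 (by omega)

theorem pair_arith {C K ε δ g : ℝ} (hC : 1 ≤ C) (hK : 0 ≤ K) (hε : 0 ≤ ε) (hδ : 0 ≤ δ)
    (hg : 0 ≤ g) : C * C * C * (C * C * (K * (δ + g) + 3 * ε * C)) ≤
      C ^ 7 * 4 * (K + 1) * (δ + g) + 3 * C ^ 8 * ε := by
  have h0 : 0 ≤ C := zero_le_one.trans hC
  have h1 := mul_le_mul_of_nonneg_right (pow_le_pow_right₀ hC (show 5 ≤ 7 by omega))
    (mul_nonneg hK (add_nonneg hδ hg))
  have h2 := mul_le_mul_of_nonneg_right (pow_le_pow_right₀ hC (show 6 ≤ 8 by omega)) hε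
  have h3 := mul_nonneg (mul_nonneg (pow_nonneg h0 7) (by linarith : 0 ≤ 3 * K + 4))
    (add_nonneg hδ hg)
  linarith [show C * C * C * (C * C * (K * (δ + g) + 3 * ε * C)) =
      C ^ 5 * (K * (δ + g)) + 3 * (C ^ 6 * ε) by ring,
    show C ^ 7 * 4 * (K + 1) * (δ + g) + 3 * C ^ 8 * ε =
      C ^ 7 * (K * (δ + g)) + C ^ 7 * (3 * K + 4) * (δ + g) + 3 * (C ^ 8 * ε) by ring]

theorem opposite_arith {C K ε δ g : ℝ} (hC : 1 ≤ C) (hK : 0 ≤ K) (hε : 0 ≤ ε) (hδ : 0 ≤ δ)
    (hg : 0 ≤ g) : C * C * (C * C) * (2 * δ + (K * (C * C) * (g + δ) + ε * (C * C) ^ 2)) ≤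
      C ^ 7 * 4 * (K + 1) * (δ + g) + 3 * C ^ 8 * ε := by
  have h0 : 0 ≤ C := zero_le_one.trans hC
  have h1 := mul_le_mul_of_nonneg_right (pow_le_pow_right₀ hC (show 6 ≤ 7 by omega))
    (mul_nonneg hK (add_nonneg hδ hg))
  have h2 := mul_le_mul_of_nonneg_right (pow_le_pow_right₀ hC (show 4 ≤ 7 by omega)) hδ
  linarith [show C * C * (C * C) * (2 * δ + (K * (C * C) * (g + δ) + ε * (C * C) ^ 2)) =
      2 * (C ^ 4 * δ) + C ^ 6 * (K * (δ + g)) + C ^ 8 * ε by ring,
    show C ^ 7 * 4 * (K + 1) * (δ + g) + 3 * C ^ 8 * ε =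
      3 * (C ^ 7 * (K * (δ + g))) + C ^ 7 * (K * (δ + g)) + 2 * (C ^ 7 * δ) + 2 * (C ^ 7 * δ) +
        4 * (C ^ 7 * g) + 3 * (C ^ 8 * ε) by ring,
    mul_nonneg (pow_nonneg h0 7) (mul_nonneg hK (add_nonneg hδ hg)),
    mul_nonneg (pow_nonneg h0 7) hδ, mul_nonneg (pow_nonneg h0 7) hg,
    mul_nonneg (pow_nonneg h0 8) hε]

/-- The cells of a stage with two or more marks in the four copies. -/
theorem gv_terms_le {C K K' ε₁ ε' η δ : ℝ} {s : State Ω S} {e P : All.Part Ω}
    (hC' : ChainBd b q n C) (hC1 : 1 ≤ C) (hKc : PrefCtl b q n C ε₁ K)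
    (hKc' : PrefCtl b q n C ε' K') (hε₁0 : 0 ≤ ε₁) (hδ : 0 < δ) (hη0 : 0 < η)
    (hη4 : Real.sqrt (Real.sqrt η) ≤ δ) (hη4' : Real.sqrt (Real.sqrt (min (δ ^ 4) 1)) ≤ δ)
    (hη2 : Real.sqrt η ≤ δ)
    (hηe : (e.n : ℝ) * (K' * Real.sqrt η + 2 * ε' * (C * C) ^ 2) ≤ 2 * δ)
    (hsep : Separates q n P) (hpin : PinchOK b q n s η P) (hpin2 : Pinch2OK b q n s η e P)
    (hpre : PrefixOK b q n s η P) (hes : SuffixOK b q n s (min (δ ^ 4) 1) e)
    (J : Finset (Fin 4 × Sites q n)) (hJ2 : 2 ≤ J.card) :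
    ‖∑ c, V.quadF e (copies b q (J.piecewise (fun x => slot4 q s P x (some c))
        fun x => siteVal (siteOf q x.2) s))‖ ≤
      C ^ 7 * 4 * (K + 1) * (δ + smallG b q n s) + 3 * C ^ 8 * ε₁ := by
  classical
  have hC0 : (0 : ℝ) ≤ C := zero_le_one.trans hC1
  have hK0 := hKc.1
  set K₀ : ℝ := C ^ 7 * 4 * (K + 1)
  set ε₀ : ℝ := 3 * C ^ 8 * ε₁
  have hKK : 0 ≤ K₀ := by positivity
  have hε00 : 0 ≤ ε₀ := by positivity
  set Φ : (Fin 4 × Sites q n → C(Ω, ℂ)) → ℂ := fun w => V.quadF e (copies b q w)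
  change ‖∑ c, Φ _‖ ≤ _
  have hsm := smallG_nonneg b q n s
  have hb0 : 0 ≤ (K₀ * (δ + smallG b q n s) + ε₀) :=
    add_nonneg (mul_nonneg hKK (add_nonneg hδ.le hsm)) hε00
  have hC67 : C ^ 6 ≤ C ^ 7 := pow_le_pow_right₀ hC1 (by omega)
  have hlin : ∀ (w : Fin 4 × Sites q n → C(Ω, ℂ)) (x : Fin 4 × Sites q n)
      (ε : Fin P.n → Bool),
      Φ (Function.update w x (∑ d, sgn (ε d) • slot4 q s P x (some d))) =
        ∑ d, sgn (ε d) * Φ (Function.update w x (slot4 q s P x (some d))) := by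
    intro w x ε
    obtain ⟨a, l⟩ := x
    have e2 : ∀ v, copies b q (Function.update w (a, l) v) = Function.update (copies b q w) a
        (prodMap b q (Function.update (fun i => w (a, i)) l v)) := by
      intro v
      funext b'
      by_cases hb : b' = a
      · subst hb
        rw [Function.update_self, copies]
        congr 1
        funext i
        by_cases hi : i = l
        · subst hi; simp
        · rw [Function.update_of_ne hi, Function.update_of_ne (by simp [hi])]
      · rw [Function.update_of_ne hb, copies, copies]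
        congr 1
        funext i
        rw [Function.update_of_ne (by simp [hb])]
    simp only [Φ, e2, MultilinearMap.map_update_sum, MultilinearMap.map_update_smul]
    rw [← V.quadF_update_sum]
    simp [copyConj_sgn]
  have hred := fun J' : Finset (Fin 4 × Sites q n) => norm_sum_piecewise_le (J' := J') (β := (K₀ * (δ + smallG b q n s) + ε₀)) Φ
    (fun x d => slot4 q s P x (some d)) (fun x v => SiteOK q x.2 v) hlin
    (fun x ε => good_sum_sgn q x.2 s P ε) (w₀ := fun x => siteVal (siteOf q x.2) s)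
  by_cases hsame : ∃ x ∈ J, ∃ y ∈ J, x ≠ y ∧ x.1 = y.1 ∧ x.2.1 = y.2.1
  · obtain ⟨⟨a, i⟩, hi, ⟨a', j⟩, hj, hij, ha, hk⟩ := hsame
    obtain rfl : a = a' := ha
    rw [Finset.sum_eq_zero fun c _ => ?_, norm_zero]
    · exact hb0
    · have hne : i ≠ j := fun e => hij (by rw [e])
      have hz : copies b q (J.piecewise (fun x => slot4 q s P x (some c))
          fun x => siteVal (siteOf q x.2) s) a = 0 :=
        prodMap_eq_zero b q hsep hne hk (Finset.piecewise_eq_of_mem _ _ _ hi)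
          (Finset.piecewise_eq_of_mem _ _ _ hj)
      have h0' := V.norm_quadF_le (C := C) (X := copies b q (J.piecewise
        (fun x => slot4 q s P x (some c)) fun x => siteVal (siteOf q x.2) s)) e a fun a' _ =>
        hC'.bdd_prod fun l => by
          simp only [Finset.piecewise]
          split_ifs
          · simpa [slot4, Fintype.sum_option] using good_sum_slotVal q l s P
              (a := fun o => if o = some c then 1 else 0)
              (fun o => by split_ifs <;> simp)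
          · exact good_siteVal q l s
      rw [hz] at h0'
      rw [star_zero, V.sq_zero, Real.sqrt_zero, mul_zero] at h0'
      exact norm_le_zero_iff.1 h0'
  push Not at hsame
  by_cases hpair : ∃ x ∈ J, ∃ y ∈ J, x ≠ y ∧ x.1 = y.1
  · obtain ⟨⟨a, i₁⟩, hi₁, ⟨a', i₂⟩, hi₂, hne12, ha⟩ := hpair
    obtain rfl : a = a' := ha
    set Ja := J.filter fun x => x.1 = a with hJa
    have h1a : (a, i₁) ∈ Ja := by simp [hJa, hi₁]
    have h2a : (a, i₂) ∈ Ja := by simp [hJa, hi₂]
    obtain ⟨⟨a₁, i⟩, hxi, hmin⟩ :=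
      Finset.exists_min_image Ja (fun x => (x.2.1 : ℕ)) ⟨_, h1a⟩
    obtain ⟨hiJ, ha₁⟩ := Finset.mem_filter.1 hxi
    subst ha₁
    obtain ⟨⟨a₂, j⟩, hxj, hmin'⟩ := Finset.exists_min_image (Ja.erase (a₁, i))
      (fun x => (x.2.1 : ℕ)) (by
        rcases eq_or_ne (a₁, i₁) (a₁, i) with h | h
        · exact ⟨(a₁, i₂), Finset.mem_erase.2 ⟨fun e => hne12 (h.trans e.symm), h2a⟩⟩
        · exact ⟨(a₁, i₁), Finset.mem_erase.2 ⟨h, h1a⟩⟩)
    obtain ⟨hji, hxj'⟩ := Finset.mem_erase.1 hxj
    obtain ⟨hjJ, ha₂⟩ := Finset.mem_filter.1 hxj'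
    subst ha₂
    have hlt : (i.1 : ℕ) < j.1 :=
      lt_of_le_of_ne (hmin _ hxj') fun e => hsame _ hiJ _ hjJ (Ne.symm hji) rfl (Fin.ext e)
    refine hred {(a₂, i), (a₂, j)} (fun x => good_siteVal q x.2 s) J
      (by simp [Finset.insert_subset_iff, hiJ, hjJ]) fun w hw1 hw2 κ hκ => ?_
    refine (quad_pair_le hC' hKc hpin e a₂ hlt hw2 (fun l h1 h2 => hw1 _ fun hl => ?_) hκ).trans ?_
    · have := hmin' (a₂, l) (Finset.mem_erase.2 ⟨fun e => absurd
        (congrArg (fun x : Fin 4 × Sites q n => (x.2.1 : ℕ)) e) (by simp only; omega),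
        by simp [hJa, hl]⟩)
      simp only at this
      omega
    · exact le_trans (mul_le_mul_of_nonneg_left (mul_le_mul_of_nonneg_left (add_le_add (mul_le_mul_of_nonneg_left
        (add_le_add hη2 le_rfl) hK0) le_rfl) (by positivity)) (by positivity))
        (pair_arith hC1 hK0 hε₁0 hδ.le hsm)
  push Not at hpair
  have honly : ∀ {a : Fin 4} {i l : Sites q n}, (a, i) ∈ J → l ≠ i → (a, l) ∉ J :=
    fun hi hl hlJ => hpair _ hlJ _ hi (fun e => hl (Prod.ext_iff.1 e).2) rfl
  have hwsite : ∀ {w : Fin 4 × Sites q n → C(Ω, ℂ)} {a : Fin 4} {i : Sites q n},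
      (∀ x, x ∉ J → w x = siteVal (siteOf q x.2) s) → (a, i) ∈ J →
      ∀ l, l ≠ i → w (a, l) = siteVal (siteOf q l) s :=
    fun hw hi l hl => hw _ (honly hi hl)
  have hmark : ∀ (J' : Finset (Fin 4 × Sites q n)) (w : Fin 4 × Sites q n → C(Ω, ℂ)) (c : Fin P.n)
      {a : Fin 4} {i : Sites q n}, (a, i) ∈ J' → (∀ l, (a, l) ∈ J' → l = i) →
      copies b q (J'.piecewise (fun x => slot4 q s P x (some c)) w) a =
        prodMap b q (Function.update (fun l => w (a, l)) i
          (slotVal (siteOf q i) s P (some c))) := by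
    intro J' w c a i hi honly'
    rw [copies]
    congr 1
    funext l
    by_cases hl : l = i
    · subst hl
      rw [Finset.piecewise_eq_of_mem _ _ _ hi, Function.update_self]
      rfl
    · rw [Finset.piecewise_eq_of_notMem _ _ _ fun h => hl (honly' l h), Function.update_of_ne hl]
  have hfree : ∀ (J' : Finset (Fin 4 × Sites q n)) (w : Fin 4 × Sites q n → C(Ω, ℂ)) (c : Fin P.n)
      {a : Fin 4}, (∀ l, (a, l) ∉ J') →
      copies b q (J'.piecewise (fun x => slot4 q s P x (some c)) w) a = copies b q w a := by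
    intro J' w c a ha
    rw [copies, copies]
    congr 1
    funext l
    rw [Finset.piecewise_eq_of_notMem _ _ _ (ha l)]
  have hg4 : ∀ {w : Fin 4 × Sites q n → C(Ω, ℂ)}, (∀ x, SiteOK q x.2 (w x)) →
      ∀ a, V.Bdd (star (copies b q w a)) C := fun hw a => hC'.bdd_prod fun l => hw (a, l)
  have hK1 : C * C * (C * C) * (C * C) * (δ + C * (smallG b q n s + δ)) ≤
      (K₀ * (δ + smallG b q n s) + ε₀) := by
    refine le_trans ?_ (le_add_of_nonneg_right hε00)
    rw [show C * C * (C * C) * (C * C) * (δ + C * (smallG b q n s + δ)) =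
      C ^ 6 * δ + C ^ 7 * (smallG b q n s + δ) by ring]
    simp only [K₀]
    nlinarith [mul_le_mul_of_nonneg_right hC67 hδ.le,
      mul_nonneg (pow_nonneg hC0 7) (add_nonneg hδ.le hsm),
      mul_nonneg (mul_nonneg (pow_nonneg hC0 7) hK0) (add_nonneg hδ.le hsm)]
  have hK2 : C * C * (C * C) *
      (2 * δ + (K * (C * C) * (smallG b q n s + δ) + ε₁ * (C * C) ^ 2)) ≤
      (K₀ * (δ + smallG b q n s) + ε₀) := opposite_arith hC1 hK0 hε₁0 hδ.le hsm
  have hmk : ∀ {u v : Fin 4} {i j : Sites q n} (w : Fin 4 × Sites q n → C(Ω, ℂ)) (c : Fin P.n),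
      u ≠ v →
      copies b q (Finset.piecewise {(u, i), (v, j)} (fun x => slot4 q s P x (some c)) w) u =
          prodMap b q (Function.update (fun l => w (u, l)) i
            (slotVal (siteOf q i) s P (some c))) ∧
        copies b q (Finset.piecewise {(u, i), (v, j)} (fun x => slot4 q s P x (some c)) w) v =
          prodMap b q (Function.update (fun l => w (v, l)) j
            (slotVal (siteOf q j) s P (some c))) ∧
        ∀ a, a ≠ u → a ≠ v →
          copies b q (Finset.piecewise {(u, i), (v, j)} (fun x => slot4 q s P x (some c)) w) a =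
            copies b q w a := by
    intro u v i j w c huv
    refine ⟨hmark _ w c (by simp) fun l hl => ?_, hmark _ w c (by simp) fun l hl => ?_,
      fun a hu hv => hfree _ w c fun l hl => ?_⟩
    · simpa [huv] using hl
    · simpa [Ne.symm huv] using hl
    · simp [hu, hv] at hl
  obtain ⟨⟨a₁, i₁⟩, hx, ⟨a₂, i₂⟩, hy, hxy⟩ := Finset.one_lt_card.1 hJ2
  have hne : a₁ ≠ a₂ := hpair _ hx _ hy hxy
  by_cases hcross : ∃ u v : Fin 4, (u = 0 ∨ u = 1) ∧ (v = 2 ∨ v = 3) ∧
      ∃ i j, (u, i) ∈ J ∧ (v, j) ∈ J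
  · obtain ⟨u, v, hu, hv, i, j, hui, hvj⟩ := hcross
    have huv : u ≠ v := by rcases hu with rfl | rfl <;> rcases hv with rfl | rfl <;> decide
    refine hred {(u, i), (v, j)} (fun x => good_siteVal q x.2 s) J
      (by simp [Finset.insert_subset_iff, hui, hvj]) fun w hw1 hw2 κ hκ => ?_
    have hu' : (if u = 0 then (1 : Fin 4) else 0) ≠ u ∧
        (if u = 0 then (1 : Fin 4) else 0) ≠ v := by
      rcases hu with rfl | rfl <;> rcases hv with rfl | rfl <;> decide
    have hv' : (if v = 2 then (3 : Fin 4) else 2) ≠ u ∧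
        (if v = 2 then (3 : Fin 4) else 2) ≠ v := by
      rcases hu with rfl | rfl <;> rcases hv with rfl | rfl <;> decide
    refine ((norm_sum_le _ _).trans (Finset.sum_le_sum fun c _ => ?_)).trans
      ((quad_cross_le (C := C) (e := e) hC' hη0.le hpre (i := i) (j := j)
        (w₀ := fun l => w (u, l)) (w₁ := fun l => w (v, l))
        (hwsite hw1 hui) (hwsite hw1 hvj) (fun l => hw2 (u, l)) (fun l => hw2 (v, l))
        (hg4 hw2 (if u = 0 then 1 else 0)) (hg4 hw2 (if v = 2 then 3 else 2))).trans ?_)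
    · rw [norm_mul]
      refine (mul_le_of_le_one_left (norm_nonneg _) (hκ c)).trans
        ((V.norm_quadF_le_cross e _ hu hv).trans (le_of_eq ?_))
      obtain ⟨e1, e2, e3⟩ := hmk (i := i) (j := j) w c huv
      simp only [e1, e2, e3 _ hu'.1 hu'.2, e3 _ hv'.1 hv'.2]
    · refine le_trans ?_ hK1
      have : C * C * C * (C * C * C) = C * C * (C * C) * (C * C) := by ring
      rw [this]
      refine mul_le_mul_of_nonneg_left ?_ (by positivity)
      exact (mul_le_mul_of_nonneg_left (add_le_add le_rfl hη4) hC0).trans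
        (le_add_of_nonneg_left hδ.le)
  · -- both words of the first, or of the second, expectation
    obtain ⟨u, v, i, j, hui, hvj, huv⟩ : ∃ (u v : Fin 4) (i j : Sites q n),
        (u, i) ∈ J ∧ (v, j) ∈ J ∧ (u = 0 ∧ v = 1 ∨ u = 2 ∧ v = 3) := by
      push Not at hcross
      fin_cases a₁ <;> fin_cases a₂ <;> first
        | exact absurd rfl hne
        | (refine ⟨_, _, _, _, hx, hy, ?_⟩; simp; done)
        | (refine ⟨_, _, _, _, hy, hx, ?_⟩; simp; done)
        | (have := fun p p' => hcross _ _ p p' _ _ hx hy; simp at this; done)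
        | (have := fun p p' => hcross _ _ p p' _ _ hy hx; simp at this; done)
    refine hred {(u, i), (v, j)} (fun x => good_siteVal q x.2 s) J
      (by simp [Finset.insert_subset_iff, hui, hvj]) fun w hw1 hw2 κ hκ => ?_
    have main : ∀ X₂ X₃ : R, V.Bdd (star X₂) C → V.Bdd (star X₃) C →
        ‖∑ c, κ c * V.quad e
          (prodMap b q (Function.update (fun l => w (u, l)) i
            (slotVal (siteOf q i) s P (some c))))
          (prodMap b q (Function.update (fun l => w (v, l)) j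
            (slotVal (siteOf q j) s P (some c)))) X₂ X₃‖ ≤ (K₀ * (δ + smallG b q n s) + ε₀) :=
      fun X₂ X₃ h₂ h₃ => (quad_opposite_le hC' hC1 (le_min (pow_nonneg hδ.le 4) zero_le_one)
        hKc hKc' hpin2 hes (hwsite hw1 hui) (hwsite hw1 hvj) (fun l => hw2 (u, l))
        (fun l => hw2 (v, l)) h₂ h₃ hκ).trans <| le_trans (mul_le_mul_of_nonneg_left
          (add_le_add hηe (add_le_add (mul_le_mul_of_nonneg_left (add_le_add le_rfl hη4')
            (by positivity)) le_rfl)) (by positivity)) hK2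
    rcases huv with ⟨rfl, rfl⟩ | ⟨rfl, rfl⟩
    · refine le_of_eq_of_le (congrArg _ (Finset.sum_congr rfl fun c _ => ?_))
        (main _ _ (hg4 hw2 2) (hg4 hw2 3))
      obtain ⟨e1, e2, e3⟩ := hmk (u := 0) (v := 1) (i := i) (j := j) w c (by decide)
      simp only [Φ, Env.quadF, e1, e2, e3 2 (by decide) (by decide), e3 3 (by decide) (by decide)]
    · refine le_of_eq_of_le (congrArg _ (Finset.sum_congr rfl fun c _ => ?_))
        (main _ _ (hg4 hw2 0) (hg4 hw2 1))
      obtain ⟨e1, e2, e3⟩ := hmk (u := 2) (v := 3) (i := i) (j := j) w c (by decide)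
      simp only [Φ, Env.quadF, e1, e2, e3 0 (by decide) (by decide), e3 1 (by decide) (by decide)]
      rw [V.quad_swap]


omit [DecidableEq (Sites q n)] in
variable (b q) in
/-- The mean fibre mass grows by the fibre masses of shorter intervals times `θ`, up to `θ²`. -/
theorem gv_stage_le [Nonempty S] (hD : V.DiagonalLimit) (n : ℕ) {ε : ℝ} (hε : 0 < ε) :
    ∃ K : ℝ, 0 ≤ K ∧ ∀ θ : ℝ, 0 ≤ θ → θ ≤ 1 → ∀ s : State Ω S, ∀ δ : ℝ, 0 < δ →
      All.Part.Fine fun P =>
        All.avg θ P (fun x => V.gv (chainVal b q (s.next P x) n)) ≤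
          V.gv (chainVal b q s n) + θ * (K * (smallG b q n s + δ) + ε) + K * θ ^ 2 + δ := by
  classical
  obtain ⟨C, hC1, hC⟩ := exists_chain_bd b q n
  have hC' : ChainBd b q n C := hC
  set h : Fin 4 × Sites q n → S → ℂ := fun x σ => copyConj x.1 ((siteOf q x.2).h σ)
  have hC0 : (0 : ℝ) ≤ C := zero_le_one.trans hC1
  have hm : 0 ≤ momBd h := zero_le_one.trans (one_le_momBd h)
  obtain ⟨M, hM⟩ : ∃ M, M = momBd h * (2 : ℝ) ^ Fintype.card (Fin 4 × Sites q n) := ⟨_, rfl⟩
  have hM0 : 0 ≤ M := hM ▸ mul_nonneg hm (by positivity)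
  obtain ⟨ε₁, hε₁⟩ : ∃ ε₁, ε₁ = ε / (3 * C ^ 8 * M + 1) := ⟨_, rfl⟩
  have hε₁0 : 0 < ε₁ := hε₁ ▸ by positivity
  obtain ⟨K, hKc⟩ := exists_prefCtl b q n hC0 hε₁0
  have hK0 := hKc.1
  set K₀ : ℝ := C ^ 7 * 4 * (K + 1)
  set ε₀ : ℝ := 3 * C ^ 8 * ε₁
  have hKK : 0 ≤ K₀ := by positivity
  have hε00 : 0 ≤ ε₀ := by positivity
  refine ⟨M * K₀ + quadBd h * C ^ 4,
    add_nonneg (mul_nonneg hM0 hKK) (mul_nonneg (quadBd_nonneg h) (by positivity)),
    fun θ h0 h1 s δ hδ => ?_⟩
  obtain ⟨e, he0, hes⟩ : ∃ e : All.Part Ω,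
      V.gauss e (chainVal b q s n) ≤ V.gv (chainVal b q s n) + δ ∧
      SuffixOK b q n s (min (δ ^ 4) 1) e :=
    (((V.fine_gauss_le _ hδ)).and (All.Part.Fine.forall fun i : Sites q n =>
      V.fine_gauss_le _ (lt_min (pow_pos hδ 4) one_pos))).exists
  obtain ⟨ε', hε'⟩ : ∃ ε', ε' = δ / (2 * (C * C) ^ 2 * (e.n + 1)) := ⟨_, rfl⟩
  obtain ⟨K', hKc'⟩ := exists_prefCtl b q n hC0 (ε := ε') (hε' ▸ by positivity)
  have hK'0 := hKc'.1
  set η : ℝ := min (min (δ ^ 4) 1) ((δ / ((e.n + 1) * (K' + 1))) ^ 2) with hη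
  have hη0 : 0 < η := lt_min (lt_min (pow_pos hδ 4) one_pos) (by positivity)
  have hη4 : Real.sqrt (Real.sqrt η) ≤ δ := by
    refine (Real.sqrt_le_left hδ.le).2 ((Real.sqrt_le_left (by positivity)).2 ?_)
    rw [← pow_mul]
    exact (min_le_left _ _).trans (min_le_left _ _)
  have hη1 : Real.sqrt η ≤ δ / ((e.n + 1) * (K' + 1)) :=
    (Real.sqrt_le_left (by positivity)).2 (min_le_right _ _)
  have hηe : (e.n : ℝ) * (K' * Real.sqrt η + 2 * ε' * (C * C) ^ 2) ≤ 2 * δ := by
    have t1 : (e.n : ℝ) * (K' * Real.sqrt η) ≤ δ := by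
      refine (mul_le_mul_of_nonneg_left (mul_le_mul_of_nonneg_left hη1 hK'0)
        (Nat.cast_nonneg _)).trans ?_
      rw [← mul_assoc, mul_div_assoc', div_le_iff₀ (by positivity)]
      linarith [mul_nonneg (Nat.cast_nonneg (α := ℝ) e.n) hδ.le, mul_nonneg hK'0 hδ.le]
    have t2 : (e.n : ℝ) * (2 * ε' * (C * C) ^ 2) ≤ δ := by
      have hCp : (0 : ℝ) < (C * C) ^ 2 := by positivity
      rw [hε', show (e.n : ℝ) * (2 * (δ / (2 * (C * C) ^ 2 * (e.n + 1))) * (C * C) ^ 2) =
        δ * ((e.n : ℝ) / (e.n + 1)) by field_simp]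
      refine mul_le_of_le_one_right hδ.le ?_
      rw [div_le_one (by positivity)]
      linarith
    rw [mul_add]
    linarith
  have hη4' : Real.sqrt (Real.sqrt (min (δ ^ 4) 1)) ≤ δ := by
    refine (Real.sqrt_le_left hδ.le).2 ((Real.sqrt_le_left (by positivity)).2 ?_)
    rw [← pow_mul]
    exact min_le_left _ _
  have hη2 : Real.sqrt η ≤ δ := by
    refine hη1.trans (div_le_self hδ.le ?_)
    linarith [mul_nonneg (Nat.cast_nonneg (α := ℝ) e.n) hK'0, Nat.cast_nonneg (α := ℝ) e.n]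
  have f1 : All.Part.Fine (Pinch2OK b q n s η e) :=
    All.Part.Fine.forall fun _ => All.Part.Fine.forall fun _ => All.Part.Fine.forall fun _ => hD _ η hη0
  have f2 : All.Part.Fine (PrefixOK b q n s η) :=
    All.Part.Fine.forall fun i => (V.fine_gauss_le _ hη0).move _
  refine ((((fine_separates q n).and (fine_pinchOK b q hD n s hη0)).and f1).and f2).mono
    fun P hP => ?_
  obtain ⟨⟨⟨hsep, hpin⟩, hpin2⟩, hpre⟩ := hP
  set Φ : (Fin 4 × Sites q n → C(Ω, ℂ)) → ℂ := fun w => V.quadF e (copies b q w)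
  set A : (Fin 4 × Sites q n → Option (Fin P.n)) → ℂ := fun r =>
    Φ fun x => slot4 q s P x (r x)
  have hexp : ∀ z : Fin 4 × Sites q n → Option (Fin P.n) → ℂ,
      ∑ r, A r * ∏ x, z x (r x) = V.quadF e fun a => prodMap b q fun i =>
        ∑ o, copyConj a (z (a, i) o) • slotVal (siteOf q i) s P o := by
    intro z
    have e1 : ∀ a, prodMap b q (fun i => ∑ o, copyConj a (z (a, i) o) • slotVal (siteOf q i) s P o) =
        ∑ r : Sites q n → Option (Fin P.n), copyConj a (∏ i, z (a, i) (r i)) •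
          prodMap b q fun i => slotVal (siteOf q i) s P (r i) := by
      intro a
      rw [MultilinearMap.map_sum]
      refine Finset.sum_congr rfl fun r _ => ?_
      rw [MultilinearMap.map_smul_univ, copyConj_prod]
    simp only [e1]
    rw [V.quadF_sum]
    refine Fintype.sum_equiv (Equiv.curry _ _ _) _ _ fun r => ?_
    rw [mul_comm, Fintype.prod_prod_type]
    rfl
  have hnext : ∀ x, V.quadF e (fun _ => chainVal b q (s.next P x) n) =
      ∑ r, (∏ y, (r y).elim 1 fun c => (x c).elim 0 (h y)) * A r := fun x => by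
    simp only [mul_comm _ (A _)]
    rw [hexp fun y o => o.elim 1 fun c => (x c).elim 0 (h y)]
    congr 1
    funext a
    rw [← prodMap_siteVal b q]
    simp only [siteVal_next]
    congr 1
    funext i
    refine Finset.sum_congr rfl fun o _ => ?_
    congr 1
    rcases o with _ | c
    · simp [copyConj]
    · rcases hxc : x c with _ | σ
      · simp [hxc, copyConj]
      · simp [h, hxc, copyConj_copyConj]
  have hnone : A (fun _ => none) = V.quadF e fun _ => chainVal b q s n := by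
    simp only [A, Φ, slot4, slotVal]
    congr 1
    funext a
    exact prodMap_siteVal b q s
  have hA : Bounded A (C ^ 4) := by
    intro z hz
    rw [hexp]
    have hg : ∀ a (i : Sites q n),
        SiteOK q i (∑ o, copyConj a (z (a, i) o) • slotVal (siteOf q i) s P o) :=
      fun a i => good_sum_slotVal q i s P fun o => (norm_copyConj a _).trans_le (hz _ o)
    refine (V.norm_quadF_le (C := C) e 0 fun a _ => hC'.bdd_prod (hg a)).trans ?_
    rw [show C ^ 4 = C * C * C * C by ring]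
    refine mul_le_mul_of_nonneg_left (V.sqrt_sq_le_of_bdd ?_) (by positivity)
    simpa [prodMap_apply] using (hC _ (hg 0) 0 n (by omega)).2.1
  have hJ : ∀ J : Finset (Fin 4 × Sites q n), 2 ≤ J.card →
      ‖∑ c, A (cst J c)‖ ≤ (K₀ * (δ + smallG b q n s) + ε₀) := by
    intro J hJ2
    refine le_of_eq_of_le (congrArg _ (Finset.sum_congr rfl fun c _ => ?_))
      (gv_terms_le hC' hC1 hKc hKc' hε₁0.le hδ hη0 hη4 hη4' hη2 hηe hsep hpin hpin2 hpre hes
        J hJ2)
    simp only [A]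
    rw [cst_slot J c fun x o => slot4 q s P x o]
    rfl
  have hsumJ : ∑ J : Finset (Fin 4 × Sites q n) with 2 ≤ J.card, ‖∑ c, A (cst J c)‖ ≤
      2 ^ Fintype.card (Fin 4 × Sites q n) * (K₀ * (δ + smallG b q n s) + ε₀) := by
    refine (Finset.sum_le_card_nsmul _ _ _ fun J hJ' => hJ J (Finset.mem_filter.1 hJ').2).trans ?_
    rw [nsmul_eq_mul]
    refine mul_le_mul_of_nonneg_right ?_
      (add_nonneg (mul_nonneg hKK (add_nonneg hδ.le (smallG_nonneg b q n s))) hε00)
    refine le_trans (Nat.cast_le.2 (Finset.card_filter_le _ _)) (le_of_eq ?_)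
    simp
  have hh : ∀ y : Fin 4 × Sites q n, ∑ σ, h y σ = 0 := by
    intro y
    simp only [h, copyConj]
    split_ifs
    · rw [← map_sum, (siteOf q y.2).sum_h, map_zero]
    · exact (siteOf q y.2).sum_h
  have havg := norm_avg_sub_le h0 h1 P hh hA
  simp only [← hnext, hnone] at havg
  have hle : avg θ P (fun x => V.gv (chainVal b q (s.next P x) n)) ≤
      (avg θ P (fun x => V.quadF e fun _ => chainVal b q (s.next P x) n)).re := by
    simp only [avg, Complex.re_sum, smul_eq_mul, Complex.real_smul, Complex.re_ofReal_mul]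
    refine Finset.sum_le_sum fun x _ => mul_le_mul_of_nonneg_left ?_
      (Finset.prod_nonneg fun c _ => cellProb_nonneg h0 h1 _)
    exact (V.gv_le _ e).trans (le_of_eq (V.gauss_eq_quad e _))
  have hre := (Complex.re_le_norm _).trans havg
  rw [Complex.sub_re] at hre
  have hg0 : (V.quadF e fun _ => chainVal b q s n).re = V.gauss e (chainVal b q s n) :=
    (V.gauss_eq_quad e _).symm
  rw [hg0] at hre
  have hsJ := mul_le_mul_of_nonneg_left hsumJ (mul_nonneg h0 hm)
  have hεM : M * ε₀ ≤ ε := by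
    simp only [ε₀, hε₁]
    rw [← mul_assoc, mul_div_assoc', div_le_iff₀ (by positivity)]
    linarith
  have e2 : θ * momBd h * (2 ^ Fintype.card (Fin 4 × Sites q n) *
      (K₀ * (δ + smallG b q n s) + ε₀)) = θ * (M * K₀ * (smallG b q n s + δ) + M * ε₀) := by
    rw [hM]; ring
  rw [e2] at hsJ
  linarith [mul_le_mul_of_nonneg_left hεM h0,
    mul_nonneg (mul_nonneg hM0 hKK) (sq_nonneg θ),
    mul_nonneg (mul_nonneg (quadBd_nonneg h) (pow_nonneg hC0 4))
      (mul_nonneg h0 (add_nonneg (smallG_nonneg b q n s) hδ.le))]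

end Vale.Agent.P078.Any.St
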