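import Vale.Agent.P078.Any.St.Stage
import Vale.Agent.P078.All.StageTau

/-!
The mean change of the state of a product in one stage.
-/

namespace Vale.Agent.P078.Any.St

open scoped ComplexOrder ComplexConjugate
open Vale.Agent.P078.All (State Ev run avg norm_sum_piecewise_le momBd one_le_momBd quadBd
  quadBd_nonneg norm_avg_sub_le cst_slot)
open Vale.Agent.P078.All.Moments

set_option linter.unusedSectionVars false
set_option linter.unusedSimpArgs false

variable {R : Type} [Ring R] [StarRing R] [Algebra ℂ R] [StarModule ℂ R]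
  {Ω : Type} [TopologicalSpace Ω] [CompactSpace Ω] [T2Space Ω] [TotallyDisconnectedSpace Ω]
  {V : Env R Ω} {S : Type} [Fintype S] (b : ℕ → R) (q : ℕ → Mono V S)

/-- The fibre masses of the inner intervals. -/
noncomputable def smallI (n : ℕ) (s : State Ω S) : ℝ :=
  ∑ p ∈ (Finset.range n ×ˢ Finset.range n).filter (fun p => 1 ≤ p.1 ∧ p.1 + p.2 < n),
    Real.sqrt (Real.sqrt (V.gv (chainVal (fun k => b (k + p.1)) (fun k => q (k + p.1)) s p.2)))

theorem smallI_nonneg (n : ℕ) (s : State Ω S) : 0 ≤ smallI b q n s :=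
  Finset.sum_nonneg fun _ _ => Real.sqrt_nonneg _

theorem le_smallI {n : ℕ} (s : State Ω S) {i l : ℕ} (hi : 1 ≤ i) (h : i + l < n) :
    Real.sqrt (Real.sqrt (V.gv (chainVal (fun k => b (k + i)) (fun k => q (k + i)) s l))) ≤
      smallI b q n s :=
  Finset.single_le_sum (f := fun p : ℕ × ℕ => Real.sqrt (Real.sqrt
    (V.gv (chainVal (fun k => b (k + p.1)) (fun k => q (k + p.1)) s p.2))))
    (fun _ _ => Real.sqrt_nonneg _) (a := (i, l)) (by simp; omega)

/-- The mean state changes by the inner fibre masses times `θ`, up to `θ²` and an arbitrarily small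
multiple of `θ`. -/
theorem tau_stage_le [Nonempty S] (hD : V.DiagonalLimit) (n : ℕ) {ε : ℝ} (hε : 0 < ε) :
    ∃ K : ℝ, 0 ≤ K ∧ ∀ θ : ℝ, 0 ≤ θ → θ ≤ 1 → ∀ s : State Ω S, ∀ δ : ℝ, 0 < δ →
      All.Part.Fine fun P =>
        ‖All.avg θ P (fun x => V.τ (chainVal b q (s.next P x) n)) - V.τ (chainVal b q s n)‖ ≤
          θ * (K * (smallI b q n s + δ) + ε) + K * θ ^ 2 := by
  classical
  obtain ⟨C, hC1, hC⟩ := exists_chain_bd b q n
  set h : Sites q n → S → ℂ := fun i => (siteOf q i).h
  have hC0 : (0 : ℝ) ≤ C := zero_le_one.trans hC1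
  obtain ⟨M, hM⟩ : ∃ M, M = momBd h * (2 : ℝ) ^ Fintype.card (Sites q n) * (C * C) := ⟨_, rfl⟩
  have hM0 : 0 ≤ M := hM ▸ mul_nonneg (mul_nonneg (zero_le_one.trans (one_le_momBd h))
    (by positivity)) (by positivity)
  obtain ⟨ε', hεdef⟩ : ∃ ε', ε' = ε / (3 * C * M + 1) := ⟨_, rfl⟩
  have hε' : 0 < ε' := hεdef ▸ by positivity
  obtain ⟨K₀, hK⟩ := exists_prefCtl b q n hC0 hε'
  have hK0 := hK.1
  refine ⟨M * K₀ + quadBd h * C, add_nonneg (mul_nonneg hM0 hK0)
    (mul_nonneg (quadBd_nonneg h) hC0), fun θ h0 h1 s δ hδ => ?_⟩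
  refine ((fine_separates q n).and (fine_pinchOK b q hD n s (sq_pos_of_pos hδ))).mono
    fun P hP => ?_
  set A : (Sites q n → Option (Fin P.n)) → ℂ := fun r =>
    V.τ (prodMap b q fun i => slotVal (siteOf q i) s P (r i))
  have hnext : ∀ x, V.τ (chainVal b q (s.next P x) n) =
      ∑ r, (∏ i, (r i).elim 1 fun c => (x c).elim 0 (h i)) * A r := fun x => by
    rw [chainVal_next, V.τ_sum]
    exact Finset.sum_congr rfl fun r _ => by simp [A, Env.τ, h]
  have hnone : A (fun _ => none) = V.τ (chainVal b q s n) := by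
    simp only [A, slotVal, prodMap_siteVal]
  have hA : Bounded A C := by
    intro z hz
    have e : ∑ r, A r * ∏ i, z i (r i) =
        V.τ (prodMap b q fun i => ∑ o, z i o • slotVal (siteOf q i) s P o) := by
      rw [MultilinearMap.map_sum, V.τ_sum]
      refine Finset.sum_congr rfl fun r _ => ?_
      rw [MultilinearMap.map_smul_univ]
      simp [A, Env.τ, mul_comm]
    rw [e]
    refine (V.norm_τ_le _).trans (V.sqrt_sq_le_of_bdd ?_)
    have := (hC _ (fun i => good_sum_slotVal q i s P (hz i)) 0 n (by omega)).1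
    simpa [prodMap_apply] using this
  simp only [hnext, ← hnone]
  refine (norm_avg_sub_le h0 h1 P (fun i => (siteOf q i).sum_h) hA).trans ?_
  have hsm := smallI_nonneg b q n s
  have hJ : ∀ J : Finset (Sites q n), 2 ≤ J.card →
      ‖∑ c, A (cst J c)‖ ≤ C * C * (K₀ * (δ + smallI b q n s) + 3 * ε' * C) := by
    intro J hJ2
    have hb0 : 0 ≤ C * C * (K₀ * (δ + smallI b q n s) + 3 * ε' * C) := by positivity
    have hAc : ∀ c, A (cst J c) = V.τ (prodMap b q (J.piecewise
        (fun l => slotVal (siteOf q l) s P (some c)) fun l => siteVal (siteOf q l) s)) := fun c => by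
      simp only [A]
      rw [cst_slot J c fun l o => slotVal (siteOf q l) s P o]
      rfl
    by_cases hsame : ∃ i ∈ J, ∃ j ∈ J, i ≠ j ∧ i.1 = j.1
    · obtain ⟨i, hi, j, hj, hij, hk⟩ := hsame
      rw [Finset.sum_eq_zero fun c _ => ?_, norm_zero]
      · exact hb0
      · rw [hAc, prodMap_eq_zero b q hP.1 hij hk (Finset.piecewise_eq_of_mem _ _ _ hi)
          (Finset.piecewise_eq_of_mem _ _ _ hj), Env.τ, map_zero, map_zero]
    · push Not at hsame
      obtain ⟨i, hi, hmin⟩ := Finset.exists_min_image J (fun i => (i.1 : ℕ))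
        (Finset.card_pos.1 (by omega))
      obtain ⟨j, hj, hmin'⟩ := Finset.exists_min_image (J.erase i) (fun i => (i.1 : ℕ))
        (Finset.card_pos.1 (by rw [Finset.card_erase_of_mem hi]; omega))
      obtain ⟨hji, hjJ⟩ := Finset.mem_erase.1 hj
      have hlt : (i.1 : ℕ) < j.1 :=
        lt_of_le_of_ne (hmin j hjJ) fun e => hsame i hi j hjJ (Ne.symm hji) (Fin.ext e)
      simp only [hAc]
      refine norm_sum_piecewise_le (J' := {i, j}) (fun w => V.τ (prodMap b q w))
        (fun l d => slotVal (siteOf q l) s P (some d)) (SiteOK q) (fun w l ε => ?_)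
        (fun l ε => good_sum_sgn q l s P ε) (fun l => good_siteVal q l s) J
        (by simp [Finset.insert_subset_iff, hi, hjJ]) fun w hw1 hw2 κ hκ => ?_
      · show V.τ (prodMap b q (Function.update w l _)) = _
        rw [MultilinearMap.map_update_sum, V.τ_sum]
        refine Finset.sum_congr rfl fun d _ => ?_
        simp [MultilinearMap.map_update_smul, Env.τ]
      · have hmid : ∀ l : Sites q n, (i.1 : ℕ) < l.1 → (l.1 : ℕ) < j.1 →
            w l = siteVal (siteOf q l) s := by
          intro l h1 h2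
          refine hw1 l fun hl => ?_
          have := hmin' l (Finset.mem_erase.2 ⟨fun e => by rw [e] at h1; exact lt_irrefl _ h1, hl⟩)
          omega
        have hsum : ∑ c, κ c * V.τ (prodMap b q (Finset.piecewise {i, j}
            (fun l => slotVal (siteOf q l) s P (some c)) w)) =
            V.τ (∑ c, κ c • prodMap b q (Finset.piecewise {i, j}
              (fun l => slotVal (siteOf q l) s P (some c)) w)) := by
          simp [Env.τ, V.τ_sum]
        rw [hsum]
        refine (V.norm_τ_le_star _).trans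
          ((sqrt_sq_sum_pair_le hC hK hP.2 hlt hw2 hmid hκ).trans ?_)
        refine mul_le_mul_of_nonneg_left (add_le_add (mul_le_mul_of_nonneg_left
          (add_le_add ?_ ?_) hK0) le_rfl) (by positivity)
        · rw [Real.sqrt_sq hδ.le]
        · have := j.1.2
          exact le_smallI b q s (by omega) (by omega)
  have hsumJ : ∑ J : Finset (Sites q n) with 2 ≤ J.card, ‖∑ c, A (cst J c)‖ ≤
      2 ^ Fintype.card (Sites q n) * (C * C * (K₀ * (δ + smallI b q n s) + 3 * ε' * C)) := by
    refine (Finset.sum_le_card_nsmul _ _ _ fun J hJ' => hJ J (Finset.mem_filter.1 hJ').2).trans ?_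
    rw [nsmul_eq_mul]
    refine mul_le_mul_of_nonneg_right ?_ (by positivity)
    refine le_trans (Nat.cast_le.2 (Finset.card_filter_le _ _)) (le_of_eq ?_)
    simp
  refine (add_le_add (mul_le_mul_of_nonneg_left hsumJ
    (mul_nonneg h0 (zero_le_one.trans (one_le_momBd h)))) le_rfl).trans ?_
  have hεM : 3 * C * M * ε' ≤ ε := by
    rw [hεdef, mul_div_assoc', div_le_iff₀ (by positivity)]
    nlinarith
  have q2 : 0 ≤ quadBd h * C := mul_nonneg (quadBd_nonneg h) hC0
  have e : θ * momBd h * (2 ^ Fintype.card (Sites q n) *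
      (C * C * (K₀ * (δ + smallI b q n s) + 3 * ε' * C))) =
      θ * (M * K₀ * (smallI b q n s + δ) + 3 * C * M * ε') := by rw [hM]; ring
  rw [e]
  nlinarith [mul_le_mul_of_nonneg_left hεM h0, mul_nonneg (mul_nonneg hM0 hK0) (sq_nonneg θ),
    mul_nonneg q2 (mul_nonneg h0 (add_nonneg hsm hδ.le))]

end Vale.Agent.P078.Any.St
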